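import Mathlib

set_option linter.all false

/-!
The final balance of the plan R1 (with all losses), and the regular scale with the factor 2.
-/

open MeasureTheory

namespace Vale.Agent.P146.H737.R1

/-- a number below a multiple of a sum of four terms is below one of the four -/
lemma four_or {A K a b c d : ℝ} (h : A ≤ K * (a + b + c + d)) :
    A ≤ 4 * K * a ∨ A ≤ 4 * K * b ∨ A ≤ 4 * K * c ∨ A ≤ 4 * K * d := by
  by_contra hcon
  push Not at hcon
  obtain ⟨h1, h2, h3, h4⟩ := hcon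
  nlinarith

/-- exponents of a bound `n^p ≤ 4 (C n^a) y`, `y ≤ n^q` -/
lemma expo {n p q a C y : ℝ} (hn : 1 < n) (hC : 0 ≤ C) (h4 : 4 * C ≤ n ^ a)
    (hy0 : 0 ≤ y) (hy : y ≤ n ^ q) (h : n ^ p ≤ 4 * (C * n ^ a) * y) : p ≤ 2 * a + q := by
  have hn0 : 0 < n := by linarith
  rw [← Real.rpow_le_rpow_left_iff hn]
  calc n ^ p ≤ 4 * (C * n ^ a) * y := h
    _ = 4 * C * n ^ a * y := by ring
    _ ≤ n ^ a * n ^ a * n ^ q := by gcongr
    _ = n ^ (2 * a + q) := by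
        rw [← Real.rpow_add hn0, ← Real.rpow_add hn0]; congr 1; ring

/-- **The final contradiction of R1.** `LAM`: the Lambda inequality, for `r ≤ n^{-c'}`; `KAP`: the
kappa inequality, for `T ≤ n^{-c₀}` and `n^{c₁} x ≤ r`; `h7`: the a priori bound of the overlap
for `T ≥ n^{-c₀}`. -/
theorem real_false {C a c c₀ c₁ c' b e : ℝ} (hC : 0 ≤ C) (ha : 0 < a) (he : 14 * a < e)
    (he1 : 6 * a + 4 * c₁ < e) (hc : 2 * a < c) (hb : c₀ + 2 * a < b) (h6 : c₀ + 3 * a < 1 / 6)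
    (hc' : 2 * c' ≤ b) (hc'' : c' + 3 * a ≤ 1 / 6) (hc1 : c' + a + c₁ ≤ 1 / 6) (hc10 : 0 ≤ c₁) :
    ∃ n₀ : ℝ, 1 ≤ n₀ ∧ ∀ n : ℝ, n₀ ≤ n → ∀ T r x : ℝ, 0 < T → T ≤ 1 → 0 < r → 0 ≤ x →
      x ≤ n ^ (-(1 / 6) + a : ℝ) → n ^ (-(2 / 3) + e : ℝ) ≤ r ^ 2 * T →
      (r ≤ n ^ (-c') → T ≤ C * n ^ a * (√(1 / (n * T)) + x * r + r ^ 2 + 1 / n)) →
      (T ≤ n ^ (-c₀) → n ^ c₁ * x ≤ r →
        r ^ 2 ≤ C * n ^ a * (√(1 / (n * T)) + x * r + n ^ (-c) * r ^ 2 + 1 / n)) →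
      (n ^ (-c₀) ≤ T → r ^ 2 ≤ n ^ (-b)) → False := by
  obtain ⟨n₁, hn₁⟩ := Filter.eventually_atTop.1
    ((tendsto_rpow_atTop ha).eventually_ge_atTop (4 * C))
  refine ⟨max 2 n₁, (by norm_num : (1 : ℝ) ≤ 2).trans (le_max_left _ _),
    fun n hn T r x hT hT1 hr hx0 hx H LAM KAP h7 => ?_⟩
  have hn2 : (2 : ℝ) ≤ n := (le_max_left _ _).trans hn
  have hn1 : 1 < n := by linarith
  have hn0 : 0 < n := by linarith
  have h4 : 4 * C ≤ n ^ a := hn₁ n ((le_max_right _ _).trans hn)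
  have hle : ∀ {p q : ℝ}, n ^ p ≤ n ^ q ↔ p ≤ q := fun {p q} => Real.rpow_le_rpow_left_iff hn1
  obtain ⟨τ, hτ⟩ : ∃ τ : ℝ, n ^ τ = T := ⟨Real.logb n T, Real.rpow_logb hn0 hn1.ne' hT⟩
  obtain ⟨ρ, hρ⟩ : ∃ ρ : ℝ, n ^ ρ = r := ⟨Real.logb n r, Real.rpow_logb hn0 hn1.ne' hr⟩
  have hr2 : r ^ 2 = n ^ (2 * ρ) := by
    rw [← hρ, ← Real.rpow_natCast, ← Real.rpow_mul hn0.le]; congr 1; push_cast; ring
  have hτ0 : τ ≤ 0 := by
    rw [← hle, hτ, Real.rpow_zero]; exact hT1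
  have hsq : √(1 / (n * T)) = n ^ ((-1 - τ) / 2) := by
    rw [← hτ, Real.sqrt_eq_rpow, one_div, Real.inv_rpow (by positivity), ← Real.rpow_neg
      (by positivity)]
    have e1 : n * n ^ τ = n ^ (1 + τ) := by rw [Real.rpow_add hn0, Real.rpow_one]
    rw [e1, ← Real.rpow_mul hn0.le]
    congr 1
    ring
  have hxr : x * r ≤ n ^ (-(1 / 6) + a + ρ : ℝ) := by
    rw [Real.rpow_add hn0, hρ]
    exact mul_le_mul_of_nonneg_right hx hr.le
  have hinv : 1 / n = n ^ (-1 : ℝ) := by rw [Real.rpow_neg_one, one_div]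
  -- the exponents
  have H' : -(2 / 3) + e ≤ 2 * ρ + τ := by
    rw [hr2, ← hτ, ← Real.rpow_add hn0] at H
    exact hle.1 H
  have LAM' : ρ ≤ -c' → τ ≤ 2 * a + (-1 - τ) / 2 ∨ τ ≤ 2 * a + (-(1 / 6) + a + ρ) ∨
      τ ≤ 2 * a + 2 * ρ ∨ τ ≤ 2 * a + -1 := by
    intro h
    have h1 := LAM (by rw [← hρ]; exact hle.2 h)
    rcases four_or h1 with h2 | h2 | h2 | h2
    · left
      refine expo hn1 hC h4 (Real.sqrt_nonneg _) hsq.le ?_
      rw [hτ]; exact h2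
    · right; left
      refine expo hn1 hC h4 (by positivity) hxr ?_
      rw [hτ]; exact h2
    · right; right; left
      refine expo hn1 hC h4 (by positivity) hr2.le ?_
      rw [hτ]; exact h2
    · right; right; right
      refine expo hn1 hC h4 (by positivity) hinv.le ?_
      rw [hτ]; exact h2
  have KAP' : τ ≤ -c₀ → ρ < -(1 / 6) + a + c₁ ∨ 2 * ρ ≤ 2 * a + (-1 - τ) / 2 ∨
      2 * ρ ≤ 2 * a + (-(1 / 6) + a + ρ) ∨
      2 * ρ ≤ 2 * a + (-c + 2 * ρ) ∨ 2 * ρ ≤ 2 * a + -1 := by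
    intro h
    by_cases hxr' : n ^ c₁ * x ≤ r
    · right
      have h1 := KAP (by rw [← hτ]; exact hle.2 h) hxr'
      rw [hr2] at h1
      rcases four_or h1 with h2 | h2 | h2 | h2
      · left
        exact expo hn1 hC h4 (Real.sqrt_nonneg _) hsq.le h2
      · right; left
        exact expo hn1 hC h4 (by positivity) hxr h2
      · right; right; left
        refine expo hn1 hC h4 (by positivity) ?_ h2
        rw [← Real.rpow_add hn0]
      · right; right; right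
        exact expo hn1 hC h4 (by positivity) hinv.le h2
    · left
      push Not at hxr'
      rw [← Real.rpow_lt_rpow_left_iff hn1, hρ]
      calc r < n ^ c₁ * x := hxr'
        _ ≤ n ^ c₁ * n ^ (-(1 / 6) + a : ℝ) := by gcongr
        _ = n ^ (-(1 / 6) + a + c₁ : ℝ) := by rw [← Real.rpow_add hn0]; congr 1; ring
  have h7' : -c₀ ≤ τ → 2 * ρ ≤ -b := by
    intro h
    have h1 := h7 (by rw [← hτ]; exact hle.2 h)
    rw [hr2] at h1
    exact hle.1 h1
  -- the cases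
  rcases le_total (-c₀) τ with h0 | h0
  · have h1 := h7' h0
    rcases LAM' (by linarith) with h2 | h2 | h2 | h2 <;> linarith
  · rcases KAP' h0 with h1 | h1 | h1 | h1 | h1
    · rcases LAM' (by linarith) with h2 | h2 | h2 | h2 <;> linarith
    · rcases LAM' (by linarith) with h2 | h2 | h2 | h2 <;> linarith
    · rcases LAM' (by linarith) with h2 | h2 | h2 | h2 <;> linarith
    · linarith
    · linarith

/-- Among the scales `x ∈ [n^{-1/6}, n^{-1/6+α}]` there is one with `G (2 x) ≤ A G x`. -/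
theorem regular_scale2 {C α : ℝ} (hC : 0 < C) (hα : 0 < α) :
    ∃ A : ℝ, 1 ≤ A ∧ ∃ n₀ : ℝ, 1 ≤ n₀ ∧ ∀ n : ℝ, n₀ ≤ n → ∀ G : ℝ → ℝ, (∀ x, 0 < x → 1 ≤ G x) →
      (∀ x, 0 < x → G x ≤ C * n) →
      ∃ x : ℝ, n ^ (-(1 / 6) : ℝ) ≤ x ∧ x ≤ n ^ (-(1 / 6) + α : ℝ) ∧
        G (2 * x) ≤ A * G x := by
  obtain ⟨A, hA⟩ : ∃ A : ℝ, A = (2 : ℝ) ^ (2 / α) := ⟨_, rfl⟩
  have hA1 : 1 ≤ A := by rw [hA]; exact Real.one_le_rpow (by norm_num) (by positivity)
  have hA0 : 0 < A := by linarith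
  refine ⟨A, hA1, max 2 (C * A + 1), (by norm_num : (1 : ℝ) ≤ 2).trans (le_max_left _ _),
    fun n hn G hG1 hG2 => ?_⟩
  have hx2 : (2 : ℝ) ≤ n := (le_max_left _ _).trans hn
  have hx0 : (0 : ℝ) < n := by linarith
  have hCA : C * A < n := by linarith [(le_max_right 2 (C * A + 1)).trans hn]
  by_contra hcon
  push Not at hcon
  obtain ⟨x₀, hx₀⟩ : ∃ x₀, x₀ = n ^ (-(1 / 6) : ℝ) := ⟨_, rfl⟩
  have hx₀0 : 0 < x₀ := by rw [hx₀]; exact Real.rpow_pos_of_pos hx0 _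
  have hlog4 : 0 < Real.log 2 := Real.log_pos (by norm_num)
  have hlogn : 0 < Real.log n := Real.log_pos (by linarith)
  obtain ⟨J, hJ⟩ : ∃ J : ℕ, J = ⌊α * Real.log n / Real.log 2⌋₊ := ⟨_, rfl⟩
  have hJ1 : (J : ℝ) ≤ α * Real.log n / Real.log 2 := by
    rw [hJ]; exact Nat.floor_le (by positivity)
  have hJ2 : α * Real.log n / Real.log 2 < J + 1 := by rw [hJ]; exact Nat.lt_floor_add_one _
  have h4J : (2 : ℝ) ^ J ≤ n ^ α := by
    rw [← Real.rpow_natCast, Real.rpow_def_of_pos (by norm_num), Real.rpow_def_of_pos hx0,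
      Real.exp_le_exp]
    rw [le_div_iff₀ hlog4] at hJ1
    linarith
  have key : ∀ j : ℕ, j ≤ J → A ^ j * G x₀ ≤ G (2 ^ j * x₀) := by
    intro j
    induction j with
    | zero => intro _; simp
    | succ j ih =>
      intro hj
      have h1 := ih (by omega)
      have h2 := hcon (2 ^ j * x₀) (by
        rw [← hx₀]
        exact le_mul_of_one_le_left hx₀0.le (one_le_pow₀ (by norm_num))) (by
        have h3 : (2 : ℝ) ^ j ≤ n ^ α :=
          (pow_le_pow_right₀ (by norm_num) (by omega)).trans h4J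
        calc (2 : ℝ) ^ j * x₀ ≤ n ^ α * x₀ := by gcongr
          _ = n ^ (-(1 / 6) + α : ℝ) := by
              rw [hx₀, ← Real.rpow_add hx0]; congr 1; ring)
      have e : (2 : ℝ) ^ (j + 1) * x₀ = 2 * (2 ^ j * x₀) := by ring
      rw [e]
      refine le_trans ?_ h2.le
      calc A ^ (j + 1) * G x₀ = A * (A ^ j * G x₀) := by ring
        _ ≤ A * G (2 ^ j * x₀) := by gcongr
  have h1 := key J le_rfl
  have h2 := hG2 (2 ^ J * x₀) (by positivity)
  have h3 := hG1 x₀ hx₀0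
  have h4 : A ^ J ≤ C * n := by
    calc A ^ J = A ^ J * 1 := by ring
      _ ≤ A ^ J * G x₀ := by gcongr
      _ ≤ _ := h1.trans h2
  have h5 : n ^ 2 ≤ A ^ (J + 1) := by
    have e1 : A ^ (J + 1) = Real.exp ((J + 1) * (2 / α * Real.log 2)) := by
      rw [hA, ← Real.rpow_natCast, ← Real.rpow_mul (by norm_num),
        Real.rpow_def_of_pos (by norm_num)]
      congr 1
      push_cast
      ring
    have e2 : n ^ 2 = Real.exp (2 * Real.log n) := by
      rw [mul_comm, Real.exp_mul, Real.exp_log hx0]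
      norm_num
    rw [e1, e2, Real.exp_le_exp]
    rw [div_lt_iff₀ hlog4] at hJ2
    have h6 : α * Real.log n / α ≤ ((J : ℝ) + 1) * Real.log 2 / α := by gcongr
    rw [mul_div_cancel_left₀ _ hα.ne'] at h6
    calc 2 * Real.log n ≤ 2 * (((J : ℝ) + 1) * Real.log 2 / α) := by gcongr
      _ = _ := by ring
  rw [pow_succ] at h5
  have h6 : n ^ 2 ≤ C * A * n := by
    calc n ^ 2 ≤ A ^ J * A := h5
      _ ≤ C * n * A := by gcongr
      _ = _ := by ring
  nlinarith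

end Vale.Agent.P146.H737.R1
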