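import Vale.Agent.P146.H737.R1t
import Vale.Agent.P146.H737.R1b

set_option linter.all false

/-!
The choice of the scale and of the window in R1, and the typical times in powers of `n`.
-/

open MeasureTheory Set Filter

namespace Vale.Agent.P146.H737.R1

/-- The window, for real `n`. -/
theorem window' {C n : ℝ} (hC : 0 < C) (hx2 : 2 ≤ n) (hCn : 4 * C ≤ n) {Q : ℝ → ℝ} {G : ℝ}
    (hQ : ∀ t ∈ Set.Icc (0 : ℝ) 1, 0 ≤ Q t ∧ Q t ≤ C * n) (hQi : IntervalIntegrable Q volume 0 1)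
    (hG : ∫ t in (0 : ℝ)..1, Q t = G) (hG1 : 1 ≤ G) :
    ∃ T : ℝ, 1 / n ^ 2 ≤ T ∧ T ≤ 1 ∧ G / (3 * Real.log n) ≤ Q (1 - T) * T := by
  have hx0 : (0 : ℝ) < n := by linarith
  have hlogn : 0 < Real.log n := Real.log_pos (by linarith)
  by_contra hcon
  push Not at hcon
  obtain ⟨δ, hδ⟩ : ∃ δ, δ = 1 / n ^ 2 := ⟨_, rfl⟩
  have hδ0 : 0 < δ := by rw [hδ]; positivity
  have hδ1 : δ ≤ 1 := by
    rw [hδ, div_le_one (by positivity)]
    exact one_le_pow₀ (by linarith)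
  obtain ⟨c, hc⟩ : ∃ c, c = G / (3 * Real.log n) := ⟨_, rfl⟩
  have hc0 : 0 < c := by rw [hc]; positivity
  rw [← hδ, ← hc] at hcon
  have hQ1 : IntervalIntegrable Q volume 0 (1 - δ) :=
    hQi.mono_set (by
      rw [Set.uIcc_of_le (by linarith), Set.uIcc_of_le (by norm_num)]
      exact Set.Icc_subset_Icc le_rfl (by linarith))
  have hQ2 : IntervalIntegrable Q volume (1 - δ) 1 :=
    hQi.mono_set (by
      rw [Set.uIcc_of_le (by linarith), Set.uIcc_of_le (by norm_num)]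
      exact Set.Icc_subset_Icc (by linarith) le_rfl)
  have hsplit := intervalIntegral.integral_add_adjacent_intervals hQ1 hQ2
  have h2 : ∫ t in (1 - δ)..1, Q t ≤ 1 / 4 * G := by
    have h3 : ∫ t in (1 - δ)..1, Q t ≤ ∫ _t in (1 - δ)..1, C * n :=
      intervalIntegral.integral_mono_on (by linarith) hQ2 intervalIntegrable_const
        (fun t ht => (hQ t ⟨by linarith [ht.1], ht.2⟩).2)
    rw [intervalIntegral.integral_const, smul_eq_mul] at h3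
    have h4 : (1 - (1 - δ)) * (C * n) = C / n := by
      rw [hδ]; field_simp; ring
    rw [h4] at h3
    have h5 : C / n ≤ 1 / 4 := by rw [div_le_iff₀ hx0]; linarith
    linarith
  have hinv : IntervalIntegrable (fun t : ℝ => c * (1 - t)⁻¹) volume 0 (1 - δ) := by
    refine ContinuousOn.intervalIntegrable ?_
    rw [Set.uIcc_of_le (by linarith)]
    refine ContinuousOn.mul continuousOn_const (ContinuousOn.inv₀ (by fun_prop) ?_)
    intro t ht
    have : t ≤ 1 - δ := ht.2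
    have : 0 < 1 - t := by linarith
    exact this.ne'
  have h1 : ∫ t in (0 : ℝ)..(1 - δ), Q t ≤ ∫ t in (0 : ℝ)..(1 - δ), c * (1 - t)⁻¹ := by
    refine intervalIntegral.integral_mono_on (by linarith) hQ1 hinv fun t ht => ?_
    have h3 := hcon (1 - t) (by linarith [ht.2]) (by linarith [ht.1])
    have h4 : 0 < 1 - t := by linarith [ht.2]
    rw [sub_sub_cancel] at h3
    rw [← div_eq_mul_inv, le_div_iff₀ h4]
    exact h3.le
  have h3 : ∫ t in (0 : ℝ)..(1 - δ), c * (1 - t)⁻¹ = c * (2 * Real.log n) := by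
    rw [intervalIntegral.integral_const_mul]
    congr 1
    rw [intervalIntegral.integral_comp_sub_left (fun t => t⁻¹) 1, sub_sub_cancel, sub_zero,
      integral_inv_of_pos hδ0 one_pos, hδ, one_div_one_div, Real.log_pow]
    norm_num
  rw [h3] at h1
  have h4 : c * (2 * Real.log n) = 2 / 3 * G := by
    rw [hc]; field_simp
  rw [h4] at h1
  linarith

/-- `A log n ≤ n^δ` for large `n` -/
lemma log_le_pow {A δ : ℝ} (hδ : 0 < δ) :
    ∃ n₀ : ℝ, 2 ≤ n₀ ∧ ∀ n : ℝ, n₀ ≤ n → A * Real.log n ≤ n ^ δ := by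
  have h1 : Tendsto (fun n : ℝ => A * (Real.log n / n ^ δ)) atTop (nhds (A * 0)) :=
    ((isLittleO_log_rpow_atTop hδ).tendsto_div_nhds_zero).const_mul A
  rw [mul_zero] at h1
  obtain ⟨n₀, hn₀⟩ := eventually_atTop.1 (h1.eventually_le_const (show (0 : ℝ) < 1 by norm_num))
  refine ⟨max 2 n₀, le_max_left _ _, fun n hn => ?_⟩
  have h2 := hn₀ n ((le_max_right _ _).trans hn)
  have h3 : 2 ≤ n := (le_max_left _ _).trans hn
  have h4 : 0 < n ^ δ := Real.rpow_pos_of_pos (by linarith) _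
  rw [← mul_div_assoc, div_le_one h4] at h2
  exact h2

/-- **The scale and the window.** -/
theorem frame {C al ε : ℝ} (hC : 0 < C) (hal : 0 < al) (hε : 0 < ε) :
    ∃ A : ℝ, 1 ≤ A ∧ ∃ n₀ : ℝ, 2 ≤ n₀ ∧ ∀ n : ℝ, n₀ ≤ n → ∀ (P : ℝ → ℝ → ℝ) (V : ℝ),
      n ^ (1 / 3 + ε : ℝ) ≤ V → (∀ x, 0 < x → V ≤ ∫ t in (0 : ℝ)..1, P x t) →
      (∀ x, 0 < x → ∀ t ∈ Icc (0 : ℝ) 1, 0 ≤ P x t ∧ P x t ≤ C * n) →
      (∀ x, 0 < x → IntervalIntegrable (P x) volume 0 1) →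
      ∃ x T : ℝ, n ^ (-(1 / 6) : ℝ) ≤ x ∧ x ≤ n ^ (-(1 / 6) + al : ℝ) ∧
        ∫ t in (0 : ℝ)..1, P (2 * x) t ≤ A * ∫ t in (0 : ℝ)..1, P x t ∧
        1 / n ^ 2 ≤ T ∧ T ≤ 1 ∧
        (∫ t in (0 : ℝ)..1, P x t) / (3 * Real.log n) ≤ P x (1 - T) * T ∧
        n ^ (ε - al : ℝ) ≤ x ^ 2 * P x (1 - T) * T := by
  obtain ⟨A, hA, n₁, hn₁, hreg⟩ := regular_scale2 hC hal
  obtain ⟨n₂, hn₂, hlog⟩ := log_le_pow (A := 3) hal
  refine ⟨A, hA, max (max n₁ n₂) (4 * C), hn₂.trans ((le_max_right _ _).trans (le_max_left _ _)),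
    fun n hn P V hV hVG hP hPi => ?_⟩
  have hn1 : n₁ ≤ n := ((le_max_left _ _).trans (le_max_left _ _)).trans hn
  have hn2 : n₂ ≤ n := ((le_max_right _ _).trans (le_max_left _ _)).trans hn
  have h4C : 4 * C ≤ n := (le_max_right _ _).trans hn
  have hx2 : 2 ≤ n := hn₂.trans hn2
  have hx0 : 0 < n := by linarith
  have hV1 : 1 ≤ V := (Real.one_le_rpow (by linarith) (by positivity)).trans hV
  have hup : ∀ x, 0 < x → ∫ t in (0 : ℝ)..1, P x t ≤ C * n := by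
    intro x hx
    have h1 : ∫ t in (0 : ℝ)..1, P x t ≤ ∫ _t in (0 : ℝ)..1, C * n :=
      intervalIntegral.integral_mono_on (by norm_num) (hPi x hx) intervalIntegrable_const
        (fun t ht => (hP x hx t ht).2)
    rw [intervalIntegral.integral_const, smul_eq_mul] at h1
    linarith
  obtain ⟨x, hx1, hx3, hxG⟩ := hreg n hn1 (fun x => ∫ t in (0 : ℝ)..1, P x t)
    (fun x hx => hV1.trans (hVG x hx)) hup
  have hxp : 0 < x := lt_of_lt_of_le (Real.rpow_pos_of_pos hx0 _) hx1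
  obtain ⟨T, hT1, hT2, hT3⟩ := window' hC hx2 h4C (hP x hxp) (hPi x hxp) rfl
    (hV1.trans (hVG x hxp))
  refine ⟨x, T, hx1, hx3, hxG, hT1, hT2, hT3, ?_⟩
  have hlogn : 0 < Real.log n := Real.log_pos (by linarith)
  have h1 : n ^ (-(1 / 3) : ℝ) ≤ x ^ 2 := by
    have h2 : n ^ (-(1 / 3) : ℝ) = (n ^ (-(1 / 6) : ℝ)) ^ 2 := by
      rw [← Real.rpow_natCast, ← Real.rpow_mul hx0.le]; congr 1; push_cast; ring
    rw [h2]
    gcongr
  have h2 : n ^ (1 / 3 + ε : ℝ) / n ^ al ≤ P x (1 - T) * T := by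
    refine le_trans ?_ hT3
    have h3 : 3 * Real.log n ≤ n ^ al := hlog n hn2
    have h4 : n ^ (1 / 3 + ε : ℝ) ≤ ∫ t in (0 : ℝ)..1, P x t := hV.trans (hVG x hxp)
    have h5 : 0 ≤ ∫ t in (0 : ℝ)..1, P x t := by linarith [hVG x hxp]
    gcongr
  have h5 : n ^ (ε - al : ℝ) = n ^ (-(1 / 3) : ℝ) * (n ^ (1 / 3 + ε : ℝ) / n ^ al) := by
    rw [← Real.rpow_sub hx0, ← Real.rpow_add hx0]; congr 1; ring
  rw [h5]
  calc n ^ (-(1 / 3) : ℝ) * (n ^ (1 / 3 + ε : ℝ) / n ^ al) ≤ x ^ 2 * (P x (1 - T) * T) := by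
        gcongr
    _ = _ := by ring

/-- **Typical times**, in powers of `n`. -/
theorem typical_n {A al : ℝ} (hA : 1 ≤ A) (hal : 0 < al) :
    ∃ n₀ : ℝ, 2 ≤ n₀ ∧ ∀ n : ℝ, n₀ ≤ n → ∀ (Q H : ℝ → ℝ) (T ρ G : ℝ), 0 < T → T ≤ 1 → 0 < ρ →
      0 < G → G ≤ 3 * A * Real.log n * (ρ * T) →
      ContinuousOn Q (Icc (1 - T / 2) (1 - T / 4)) →
      (∀ s ∈ Ioo (1 - T / 2) (1 - T / 4), HasDerivAt Q (H s) s) →
      (∀ s ∈ Ioo (1 - T / 2) (1 - T / 4), 0 ≤ H s) →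
      (∀ s ∈ Icc (1 - T / 2) (1 - T / 4), n ^ (-(al / 4)) * ρ ≤ Q s) →
      Q (1 - T / 4) ≤ n ^ (al / 2) * ρ →
      (∀ s ∈ Ioo (1 - T / 2) (1 - T / 4), 5 / 32 * Q s ^ 2 / G ≤ Q s / s + H s) →
      ∃ s1 s2 : ℝ, 1 - T / 2 < s1 ∧ s1 < 1 - T / 2 + T / 16 ∧ s1 + T / 8 ≤ s2 ∧ s2 < 1 - T / 4 ∧
        H s1 ≤ n ^ al * ρ / T ∧ H s2 ≤ n ^ al * ρ / T ∧
        (T ≤ n ^ (-al) → n ^ (-al) * ρ ≤ Q s2 - Q s1) := by
  obtain ⟨n₁, hn₁, hlog⟩ := log_le_pow (A := 400 * A) (δ := al / 4) (by positivity)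
  obtain ⟨n₂, hn₂⟩ := eventually_atTop.1
    ((tendsto_rpow_atTop (show 0 < al / 2 by positivity)).eventually_ge_atTop 16)
  refine ⟨max n₁ n₂, hn₁.trans (le_max_left _ _), fun n hn Q H T ρ G hT hT1 hρ hG hG1 hc hd h0 hl
    hu hst => ?_⟩
  have hx2 : 2 ≤ n := hn₁.trans ((le_max_left _ _).trans hn)
  have hx0 : 0 < n := by linarith
  have hl1 := hlog n ((le_max_left _ _).trans hn)
  have h16 : 16 ≤ n ^ (al / 2) := hn₂ n ((le_max_right _ _).trans hn)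
  have hlogn : 0 < Real.log n := Real.log_pos (by linarith)
  have eT : 1 - T / 4 = 1 - T / 2 + T / 4 := by ring
  rw [eT] at hc hd h0 hl hu hst
  have hn4 : 0 < n ^ (-(al / 4)) := Real.rpow_pos_of_pos hx0 _
  obtain ⟨s1, hs1, s2, hs2, hH1, hH2, hgr⟩ := typical hT (by linarith) hc hd h0
    (lo := n ^ (-(al / 4)) * ρ) (up := n ^ (al / 2) * ρ) (by positivity) hl hu
  have hup : 16 * (n ^ (al / 2) * ρ) / T ≤ n ^ al * ρ / T := by
    have h1 : n ^ al = n ^ (al / 2) * n ^ (al / 2) := by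
      rw [← Real.rpow_add hx0]; congr 1; ring
    have h2 : 16 * (n ^ (al / 2) * ρ) ≤ n ^ al * ρ := by
      rw [h1, ← mul_assoc]
      gcongr
    gcongr
  refine ⟨s1, s2, hs1.1, hs1.2, by linarith [hs1.2, hs2.1], by linarith [hs2.2], hH1.trans hup,
    hH2.trans hup, fun hTn => ?_⟩
  have hpp : ∀ p q : ℝ, n ^ p * n ^ q = n ^ (p + q) := fun p q => (Real.rpow_add hx0 p q).symm
  have h4 : 4 * G ≤ 5 / 32 * (n ^ (-(al / 4)) * ρ) := by
    have h5 : Real.log n * (400 * A) * n ^ (-al) ≤ n ^ (-(al / 4)) := by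
      calc Real.log n * (400 * A) * n ^ (-al) ≤ n ^ (al / 4) * n ^ (-al) := by
            rw [mul_comm (Real.log n)]; gcongr
        _ = n ^ (-(al * 3 / 4)) := by rw [hpp]; congr 1; ring
        _ ≤ n ^ (-(al / 4)) := Real.rpow_le_rpow_of_exponent_le (by linarith) (by linarith)
    have h6 : G ≤ 3 * A * Real.log n * (ρ * n ^ (-al)) := hG1.trans (by gcongr)
    have h7 : 3 * A * Real.log n * (ρ * n ^ (-al)) ≤ 3 / 400 * (n ^ (-(al / 4)) * ρ) := by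
      calc 3 * A * Real.log n * (ρ * n ^ (-al)) =
            3 / 400 * (Real.log n * (400 * A) * n ^ (-al)) * ρ := by ring
        _ ≤ 3 / 400 * n ^ (-(al / 4)) * ρ := by gcongr
        _ = _ := by ring
    have h8 : 0 < n ^ (-(al / 4)) * ρ := by positivity
    nlinarith
  have h5 := hgr (5 / 32) G hG hst h4
  refine le_trans ?_ h5
  rw [le_div_iff₀ (by positivity)]
  have h6 : n ^ (-al) * ρ * (16 * G) ≤ n ^ (-al) * ρ * (16 * (3 * A * Real.log n * (ρ * T))) := by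
    gcongr
  refine h6.trans ?_
  have h7 : (n ^ (-(al / 4)) * ρ) ^ 2 = n ^ (-(al / 2)) * ρ ^ 2 := by
    rw [mul_pow, ← Real.rpow_natCast, ← Real.rpow_mul hx0.le]
    congr 2
    push_cast
    ring
  rw [h7]
  have h8 : 48 * A * Real.log n * n ^ (-al) ≤ 5 / 32 * n ^ (-(al / 2)) := by
    have h9 : A * Real.log n ≤ n ^ (al / 4) / 400 := by
      rw [le_div_iff₀ (by norm_num)]; linarith
    calc 48 * A * Real.log n * n ^ (-al) = 48 * (A * Real.log n) * n ^ (-al) := by ring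
      _ ≤ 48 * (n ^ (al / 4) / 400) * n ^ (-al) := by gcongr
      _ = 48 / 400 * n ^ (-(al * 3 / 4)) := by
          have : n ^ (al / 4) * n ^ (-al) = n ^ (-(al * 3 / 4)) := by rw [hpp]; congr 1; ring
          rw [← this]; ring
      _ ≤ 5 / 32 * n ^ (-(al / 2)) := by
          have h10 : n ^ (-(al * 3 / 4)) ≤ n ^ (-(al / 2)) :=
            Real.rpow_le_rpow_of_exponent_le (by linarith) (by linarith)
          have h11 : 0 < n ^ (-(al / 2)) := Real.rpow_pos_of_pos hx0 _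
          linarith
  calc n ^ (-al) * ρ * (16 * (3 * A * Real.log n * (ρ * T))) =
        (48 * A * Real.log n * n ^ (-al)) * (ρ ^ 2 * T) := by ring
    _ ≤ 5 / 32 * n ^ (-(al / 2)) * (ρ ^ 2 * T) := by gcongr
    _ = _ := by ring

end Vale.Agent.P146.H737.R1
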