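import Vale.Agent.P146.H737.C3
import Vale.Agent.P146.H655.GumSK

set_option linter.all false

/-!
The statements for the hand-ins with the rate `n^{2/3}`: the bounds, and the small balls.
-/

open MeasureTheory ProbabilityTheory Filter Topology

namespace Vale.Agent.P146.H737

open Vale.Agent.P146 Vale.Agent.P146.H605 Vale.Agent.P146.H260.Asm

/-- Small balls at a power scale. -/
theorem small_pow2 {β : ℝ} (hβ : 1 < β) {κ : ℝ} (hκ0 : 0 ≤ κ) (hκ : κ < 1 / 30) :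
    ∀ᶠ n : ℕ in atTop, ∀ y : ℝ,
      (disorder n).real {g | |freeEnergy n β g - y| ≤ (n : ℝ) ^ κ} ≤ (n : ℝ) ^ (-κ) := by
  obtain ⟨γ, hγ⟩ : ∃ γ, γ = (4 * κ + 2 / 15) / 2 := ⟨_, rfl⟩
  have hγ1 : γ < 2 / 15 := by rw [hγ]; linarith
  have hγ2 : 4 * κ < γ := by rw [hγ]; linarith
  have h1 := var_low2 hβ γ hγ1
  have h2 : Tendsto (fun n : ℕ => (n : ℝ) ^ (γ / 2 - 2 * κ)) atTop atTop :=
    (tendsto_rpow_atTop (by linarith)).comp tendsto_natCast_atTop_atTop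
  filter_upwards [h1, h2.eventually_ge_atTop 5220, eventually_ge_atTop 1] with n h3 h4 hn y
  have hn1 : (1 : ℝ) ≤ n := by exact_mod_cast hn
  have hn0 : (0 : ℝ) < n := by linarith
  have hk1 : 1 ≤ (n : ℝ) ^ κ := Real.one_le_rpow hn1 hκ0
  refine (H655.anticoncentration n β y (by positivity)).trans ?_
  have hs : (n : ℝ) ^ (γ / 2) ≤ 1 + √Var[freeEnergy n β; disorder n] := by
    have h5 : (n : ℝ) ^ (γ / 2) = √((n : ℝ) ^ γ) := by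
      rw [Real.sqrt_eq_rpow, ← Real.rpow_mul hn0.le]
      congr 1
      ring
    rw [h5]
    have := Real.sqrt_le_sqrt h3.1
    linarith
  have hg : 0 < (n : ℝ) ^ (γ / 2) := by positivity
  calc 2610 * ((n : ℝ) ^ κ + 1) / (1 + √Var[freeEnergy n β; disorder n])
      ≤ 2610 * ((n : ℝ) ^ κ + (n : ℝ) ^ κ) / (n : ℝ) ^ (γ / 2) := by gcongr
    _ = (5220 * (n : ℝ) ^ (2 * κ)) * (n : ℝ) ^ (-κ) / (n : ℝ) ^ (γ / 2) := by
        rw [mul_assoc, ← Real.rpow_add hn0]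
        rw [show 2 * κ + -κ = κ by ring]
        ring
    _ ≤ ((n : ℝ) ^ (γ / 2 - 2 * κ) * (n : ℝ) ^ (2 * κ)) * (n : ℝ) ^ (-κ) / (n : ℝ) ^ (γ / 2) := by
        gcongr
    _ = (n : ℝ) ^ (-κ) := by
        rw [← Real.rpow_add hn0, show γ / 2 - 2 * κ + 2 * κ = γ / 2 by ring]
        field_simp

/-- The statement of `VarianceBounds2` with the rate `n^{2/3}`. -/
theorem bounds3 :
    ∃ Λ : ℝ → ℝ, Tendsto Λ (𝓝[>] 1) (𝓝 (9 / 5120)) ∧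
    ∀ β : ℝ, 1 < β → 0 < Λ β ∧ ∃ p k D : ℝ, 0 < k ∧
    Tendsto (fun n : ℕ => (∫ g, freeEnergy n β g ∂(disorder n)) / n) atTop (𝓝 p) ∧
    -- the sharp moment law and the sharp upper tail
    (∀ ε : ℝ, 0 < ε → ∀ a : ℝ, a < 1 / 15 → ∃ δ : ℝ, 0 < δ ∧ ∀ᶠ n : ℕ in atTop,
      (∀ x : ℝ, (n : ℝ) ^ (-a) ≤ x → x ≤ δ →
        |Real.log (∫ g, Real.exp (x * (freeEnergy n β g - n * p)) ∂(disorder n)) -
          Λ β * n * x ^ 6| ≤ ε * n * x ^ 6) ∧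
      (∀ s : ℝ, (n : ℝ) ^ (-(5 * a)) ≤ s → s ≤ δ →
        |Real.log ((disorder n).real {g | n * (p + s) ≤ freeEnergy n β g}) +
          5 / 6 * (6 * Λ β) ^ (-(1 / 5) : ℝ) * n * s ^ (6 / 5 : ℝ)| ≤
            ε * n * s ^ (6 / 5 : ℝ))) ∧
    -- upper bounds
    (∀ n : ℕ, 1 ≤ n →
      0 ≤ n * p - ∫ g, freeEnergy n β g ∂(disorder n) ∧
      n * p - ∫ g, freeEnergy n β g ∂(disorder n) ≤
        D * (n : ℝ) ^ (2 / 3 : ℝ) * (1 + Real.log n) ^ 3 ∧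
      Var[freeEnergy n β; disorder n] ≤ D * (n : ℝ) ^ (11 / 15 : ℝ) * (1 + Real.log n) ^ 4 ∧
      (∀ t : ℝ, 0 ≤ t →
        (disorder n).real {g | t * ((n : ℝ) ^ (11 / 30 : ℝ) * (1 + Real.log n) ^ 2) ≤
          |freeEnergy n β g - ∫ g, freeEnergy n β g ∂(disorder n)|} ≤ D * Real.exp (-(k * t))) ∧
      (∀ t : ℝ, 0 ≤ t →
        (disorder n).real {g | freeEnergy n β g ≤ ∫ g, freeEnergy n β g ∂(disorder n) - t} ≤
          Real.exp (-(k * t ^ 2 / ((n : ℝ) ^ (13 / 15 : ℝ) * (1 + Real.log n) ^ 2)))) ∧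
      (∀ t : ℝ, 0 ≤ t → t < 1 →
        (1 - t) * (β ^ 2 / 2 * (n * crossOverlap n β t - 1)) ≤ D * (n : ℝ) ^ (1 / 5 : ℝ) *
          (1 + (n * p - ∫ g, freeEnergy n β g ∂(disorder n))) ^ (4 / 5 : ℝ) ∧
        crossOverlap n β t ≤ D * (n : ℝ) ^ (-(4 / 15) : ℝ) * (1 + Real.log n) ^ 3 / (1 - t)) ∧
      (∀ t : ℝ, 0 ≤ t → t ≤ 1 →
        (1 - 1 / β) ^ 2 - D * (n : ℝ) ^ (-(1 / 6) : ℝ) * (1 + Real.log n) ^ (3 / 2 : ℝ) -
          (1 - t) * (β ^ 2 * n / 2) ≤ crossOverlap n β t) ∧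
      -- the mean through one small exponential moment
      (∀ r : ℝ, 0 < r → r ≤ 1 / (16 * (1 + Real.log n)) →
        n * p - ∫ g, freeEnergy n β g ∂(disorder n) ≤
          2 * (n * p - 1 / r * Real.log (∫ g, Real.exp (r * freeEnergy n β g) ∂(disorder n))) +
            D * n * r ^ 5 * (1 + Real.log n) ^ 5 + D)) ∧
    (∀ n : ℕ, 1 ≤ n → ∀ r : ℝ, 0 < r → r ≤ 1 → 1 ≤ r ^ 6 * n →
        n * p - 1 / r * Real.log (∫ g, Real.exp (r * freeEnergy n β g) ∂(disorder n)) ≤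
          D * (1 + Real.log n) ^ 2 * (n : ℝ) ^ (2 / 3 : ℝ)) ∧
    -- the variance against the finite-size correction of the mean
    (∀ n : ℕ, 1 ≤ n → Var[freeEnergy n β; disorder n] ≤
      D * (1 + Real.log n) * ((n : ℝ) ^ (1 / 5 : ℝ) *
        (1 + (n * p - ∫ g, freeEnergy n β g ∂(disorder n))) ^ (4 / 5 : ℝ))) ∧
    -- lower bounds
    (∀ n : ℕ, 1 ≤ n → ∀ m : ℝ, (n : ℝ) ^ (9 / 16 : ℝ) ≤ m →
      n * p - ∫ g, freeEnergy n β g ∂(disorder n) ≤ m → ∀ y u : ℝ, 0 < u →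
      (disorder n).real {g | |freeEnergy n β g - y| ≤ u} ≤
        D * (u + 1) * (m / n) ^ (1 / 7 : ℝ)) ∧
    (∀ᶠ n : ℕ in atTop, ∀ m : ℝ, (n : ℝ) ^ (9 / 16 : ℝ) ≤ m →
      n * p - ∫ g, freeEnergy n β g ∂(disorder n) ≤ m →
      k * (n / m) ^ (2 / 7 : ℝ) ≤ Var[freeEnergy n β; disorder n]) :=
  bounds3_of (by norm_num) fun β _ => c3 β

/-- The short statement: the sharp moment law and upper tail, the finite-size correction of the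
mean. -/
theorem bounds4 :
    ∃ Λ : ℝ → ℝ, Tendsto Λ (𝓝[>] 1) (𝓝 (9 / 5120)) ∧
    ∀ β : ℝ, 1 < β → 0 < Λ β ∧ ∃ p D : ℝ,
    Tendsto (fun n : ℕ => (∫ g, freeEnergy n β g ∂(disorder n)) / n) atTop (𝓝 p) ∧
    -- the sharp moment law and the sharp upper tail
    (∀ ε : ℝ, 0 < ε → ∀ a : ℝ, a < 1 / 15 → ∃ δ : ℝ, 0 < δ ∧ ∀ᶠ n : ℕ in atTop,
      (∀ x : ℝ, (n : ℝ) ^ (-a) ≤ x → x ≤ δ →
        |Real.log (∫ g, Real.exp (x * (freeEnergy n β g - n * p)) ∂(disorder n)) -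
          Λ β * n * x ^ 6| ≤ ε * n * x ^ 6) ∧
      (∀ s : ℝ, (n : ℝ) ^ (-(5 * a)) ≤ s → s ≤ δ →
        |Real.log ((disorder n).real {g | n * (p + s) ≤ freeEnergy n β g}) +
          5 / 6 * (6 * Λ β) ^ (-(1 / 5) : ℝ) * n * s ^ (6 / 5 : ℝ)| ≤
            ε * n * s ^ (6 / 5 : ℝ))) ∧
    (∀ n : ℕ, 1 ≤ n →
      -- the finite-size correction of the mean
      0 ≤ n * p - ∫ g, freeEnergy n β g ∂(disorder n) ∧
      n * p - ∫ g, freeEnergy n β g ∂(disorder n) ≤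
        D * (n : ℝ) ^ (2 / 3 : ℝ) * (1 + Real.log n) ^ 3 ∧
      -- one small exponential moment
      (∀ r : ℝ, 0 < r → r ≤ 1 → 1 ≤ r ^ 6 * n →
        n * p - 1 / r * Real.log (∫ g, Real.exp (r * freeEnergy n β g) ∂(disorder n)) ≤
          D * (1 + Real.log n) ^ 2 * (n : ℝ) ^ (2 / 3 : ℝ)) ∧
      (∀ r : ℝ, 0 < r → r ≤ 1 / (16 * (1 + Real.log n)) →
        n * p - ∫ g, freeEnergy n β g ∂(disorder n) ≤
          2 * (n * p - 1 / r * Real.log (∫ g, Real.exp (r * freeEnergy n β g) ∂(disorder n))) +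
            D * n * r ^ 5 * (1 + Real.log n) ^ 5 + D) ∧
      -- the overlap near equal disorders
      (∀ t : ℝ, 0 ≤ t → t ≤ 1 →
        (1 - 1 / β) ^ 2 - D * (n : ℝ) ^ (-(1 / 6) : ℝ) * (1 + Real.log n) ^ (3 / 2 : ℝ) -
          (1 - t) * (β ^ 2 * n / 2) ≤ crossOverlap n β t)) := by
  obtain ⟨Λ, hΛ, h⟩ := bounds3
  refine ⟨Λ, hΛ, fun β hβ => ?_⟩
  obtain ⟨h0, p, k, D, -, h1, h2, h3, h4, -⟩ := h β hβ
  refine ⟨h0, p, D, h1, h2, fun n hn => ?_⟩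
  obtain ⟨g1, g2, -, -, -, -, g3, g4⟩ := h3 n hn
  exact ⟨g1, g2, h4 n hn, g4, g3⟩

end Vale.Agent.P146.H737
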