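import Mathlib

set_option linter.all false

/-!
The choice of the parameters of stage 1: `k = ⌈(r n)^{1/3}⌉`, `lam = (r n k)^{-1/2}`,
`q = 4 k² + n`; every term is at most `const · (1 + log n)² n^{2/3} r^{-1/3}`.
-/

namespace Vale.Agent.P146.H737

/-- the size of the error -/
noncomputable def GG (n : ℕ) (r : ℝ) : ℝ := (n : ℝ) ^ (2 / 3 : ℝ) * r ^ (-(1 / 3) : ℝ)

lemma GG_eq {n : ℕ} (hn : 1 ≤ n) {r : ℝ} (hr : 0 < r) :
    GG n r = (n : ℝ) / (r * n) ^ (1 / 3 : ℝ) := by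
  have hx0 : (0 : ℝ) < n := by exact_mod_cast hn
  have h2 : (n : ℝ) ^ (2 / 3 : ℝ) * (n : ℝ) ^ (1 / 3 : ℝ) = n := by
    rw [← Real.rpow_add hx0]; norm_num
  rw [GG, Real.mul_rpow hr.le hx0.le, Real.rpow_neg hr.le]
  have h3 : 0 < (n : ℝ) ^ (1 / 3 : ℝ) := Real.rpow_pos_of_pos hx0 _
  have h4 : 0 < r ^ (1 / 3 : ℝ) := Real.rpow_pos_of_pos hr _
  rw [eq_div_iff (by positivity)]
  calc (n : ℝ) ^ (2 / 3 : ℝ) * (r ^ (1 / 3 : ℝ))⁻¹ * (r ^ (1 / 3 : ℝ) * (n : ℝ) ^ (1 / 3 : ℝ))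
      = (n : ℝ) ^ (2 / 3 : ℝ) * (n : ℝ) ^ (1 / 3 : ℝ) * ((r ^ (1 / 3 : ℝ))⁻¹ * r ^ (1 / 3 : ℝ)) := by
        ring
    _ = n := by rw [inv_mul_cancel₀ h4.ne', mul_one, h2]

/-- the facts on `a = (r n)^{1/3}` -/
structure Fa (x r a : ℝ) : Prop where
  r0 : 0 < r
  r2 : r ≤ 1 / 2
  x1 : 1 ≤ x
  a3 : 3 ≤ a
  cube : a ^ 3 = r * x
  sq : a / r ^ 2 ≤ x / a
  one : 1 ≤ x / a
  sqG : x * a / r = (x / a) ^ 2

lemma fa {x r : ℝ} (hx1 : 1 ≤ x) (hr : 0 < r) (hr2 : r ≤ 1 / 2) (hrn : 1 ≤ r ^ 6 * x) :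
    Fa x r ((r * x) ^ (1 / 3 : ℝ)) := by
  obtain ⟨a, ha⟩ : ∃ a, a = (r * x) ^ (1 / 3 : ℝ) := ⟨_, rfl⟩
  rw [← ha]
  have hx0 : 0 < x := by linarith
  have hrx : 0 < r * x := mul_pos hr hx0
  have ha0 : 0 < a := by rw [ha]; exact Real.rpow_pos_of_pos hrx _
  have ha3 : a ^ 3 = r * x := by
    rw [ha, ← Real.rpow_natCast, ← Real.rpow_mul hrx.le]; norm_num
  clear ha
  have hr5 : r ^ 5 ≤ 1 / 32 := by
    calc r ^ 5 ≤ (1 / 2) ^ 5 := pow_le_pow_left₀ hr.le hr2 5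
      _ = 1 / 32 := by norm_num
  have hrx32 : 32 ≤ r * x := by
    have h1 : r ^ 6 * x = r ^ 5 * (r * x) := by ring
    rw [h1] at hrn
    have h2 : r ^ 5 * (r * x) ≤ 1 / 32 * (r * x) := mul_le_mul_of_nonneg_right hr5 hrx.le
    linarith
  have ha3' : 3 ≤ a := by
    by_contra h
    push Not at h
    have : a ^ 3 < 3 ^ 3 := pow_lt_pow_left₀ h ha0.le (by norm_num)
    linarith
  have hxr4 : 1 ≤ x * r ^ 4 := by
    have h1 : r ^ 6 ≤ r ^ 4 := pow_le_pow_of_le_one hr.le (by linarith) (by norm_num)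
    have h2 : r ^ 6 * x ≤ r ^ 4 * x := mul_le_mul_of_nonneg_right h1 hx0.le
    linarith
  have ha2 : a ^ 2 ≤ x * r ^ 2 := by
    have h1 : (a ^ 2) ^ 3 ≤ (x * r ^ 2) ^ 3 := by
      have e1 : (a ^ 2) ^ 3 = r ^ 2 * x ^ 2 := by
        calc (a ^ 2) ^ 3 = (a ^ 3) ^ 2 := by ring
          _ = _ := by rw [ha3]; ring
      have e2 : (x * r ^ 2) ^ 3 = (r ^ 2 * x ^ 2) * (x * r ^ 4) := by ring
      rw [e1, e2]
      exact le_mul_of_one_le_right (by positivity) hxr4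
    exact le_of_pow_le_pow_left₀ (by norm_num) (by positivity) h1
  have haG : a / r ^ 2 ≤ x / a := by
    rw [div_le_div_iff₀ (by positivity) ha0]
    linarith [ha2, sq a]
  have hG1 : 1 ≤ x / a := by
    refine le_trans ?_ haG
    rw [le_div_iff₀ (by positivity)]
    have : r ^ 2 ≤ 1 := pow_le_one₀ hr.le (by linarith)
    linarith
  refine ⟨hr, hr2, hx1, ha3', ha3, haG, hG1, ?_⟩
  rw [div_pow, div_eq_div_iff hr.ne' (by positivity)]
  have : x * a * a ^ 2 = x * a ^ 3 := by ring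
  rw [this, ha3]; ring

/-- the facts on `s = (r n k)^{1/2}` -/
structure Fs (x r a k s : ℝ) : Prop extends Fa x r a where
  k1 : a ≤ k
  k2 : k ≤ 4 / 3 * a
  s1 : 1 ≤ s
  ss : s ^ 2 = r * x * k
  sr : s / r ≤ 4 / 3 * (x / a)
  sk : s / k ≤ a

lemma fs {x r a k : ℝ} (h : Fa x r a) (hk1 : a ≤ k) (hk2 : k ≤ a + 1) :
    Fs x r a k (√(r * x * k)) := by
  obtain ⟨hr, hr2, hx1, ha3, hc, hsq, hone, hG⟩ := id h
  have hx0 : 0 < x := by linarith
  have ha0 : 0 < a := by linarith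
  have hk0 : 0 < k := by linarith
  have hk2' : k ≤ 4 / 3 * a := by linarith
  obtain ⟨s, hs⟩ : ∃ s, s = √(r * x * k) := ⟨_, rfl⟩
  rw [← hs]
  have hs0 : 0 < s := by rw [hs]; exact Real.sqrt_pos.2 (by positivity)
  have hss : s ^ 2 = r * x * k := by rw [hs, Real.sq_sqrt (by positivity)]
  clear hs
  have hs1 : 1 ≤ s := by
    by_contra h
    push Not at h
    have h1 : s ^ 2 ≤ 1 := pow_le_one₀ hs0.le h.le
    rw [hss, ← hc] at h1
    have h2 : (27 : ℝ) ≤ a ^ 3 := by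
      calc (27 : ℝ) = 3 ^ 3 := by norm_num
        _ ≤ a ^ 3 := pow_le_pow_left₀ (by norm_num) ha3 3
    have h3 : a ^ 3 * 3 ≤ a ^ 3 * k := mul_le_mul_of_nonneg_left (by linarith) (by positivity)
    linarith
  have hG0 : 0 < x / a := by positivity
  have hsr : s / r ≤ 4 / 3 * (x / a) := by
    refine le_of_sq_le_sq ?_ (by positivity)
    calc (s / r) ^ 2 = x * k / r := by rw [div_pow, hss]; field_simp
      _ ≤ x * (4 / 3 * a) / r := by gcongr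
      _ = 4 / 3 * (x * a / r) := by ring
      _ = 4 / 3 * (x / a) ^ 2 := by rw [hG]
      _ ≤ 16 / 9 * (x / a) ^ 2 := mul_le_mul_of_nonneg_right (by norm_num) (by positivity)
      _ = (4 / 3 * (x / a)) ^ 2 := by ring
  have hsk : s / k ≤ a := by
    refine le_of_sq_le_sq ?_ ha0.le
    calc (s / k) ^ 2 = r * x / k := by rw [div_pow, hss]; field_simp
      _ = a ^ 3 / k := by rw [hc]
      _ ≤ a ^ 3 / a := by gcongr
      _ = a ^ 2 := by field_simp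
  exact ⟨h, hk1, hk2', hs1, hss, hsr, hsk⟩

lemma log_four_mul_le {x r a k : ℝ} {s : ℝ} (h : Fs x r a k s) :
    Real.log (4 * k) ≤ 3 * (1 + Real.log x) := by
  have hx0 : 0 < x := by linarith [h.x1]
  have ha := h.a3
  have h2 : a ≤ a ^ 3 := by
    calc a = a * 1 := by ring
      _ ≤ a * a ^ 2 := mul_le_mul_of_nonneg_left (one_le_pow₀ (by linarith)) (by linarith)
      _ = a ^ 3 := by ring
  rw [h.cube] at h2
  have h3 : r * x ≤ 1 / 2 * x := mul_le_mul_of_nonneg_right h.r2 hx0.le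
  have hk := h.k2
  have hk1 := h.k1
  have h4 : 4 * k ≤ 8 * x := by linarith
  calc Real.log (4 * k) ≤ Real.log (8 * x) := Real.log_le_log (by linarith) h4
    _ = Real.log 8 + Real.log x := Real.log_mul (by norm_num) hx0.ne'
    _ ≤ 3 * (1 + Real.log x) := by
        have h8 : Real.log 8 = 3 * Real.log 2 := by
          rw [show (8 : ℝ) = 2 ^ 3 by norm_num, Real.log_pow]; norm_num
        have h2 := Real.log_two_lt_d9
        have h5 := Real.log_nonneg h.x1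
        rw [h8]
        linarith

/-- the five terms -/
lemma terms {x r a k s : ℝ} (h : Fs x r a k s) {L j : ℝ} (hL : 1 ≤ L) (hj : 0 < j)
    (hjk : 1 / j ≤ 12 * L / k) :
    x * (k + 1) * s⁻¹ ≤ 3 * (x / a) ∧
    x / j ≤ 12 * L * (x / a) ∧
    1 / (j * s⁻¹ * r ^ 2) ≤ 12 * L * (x / a) ∧
    √(x / (j * s⁻¹ * r)) ≤ 4 * L * (x / a) ∧
    k / (j * r * s⁻¹) ≤ 24 * L * (x / a) := by
  have hr := h.r0
  have hx0 : 0 < x := by linarith [h.x1]
  have ha0 : 0 < a := by linarith [h.a3]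
  have hk0 : 0 < k := by linarith [h.k1]
  have hs0 : 0 < s := by linarith [h.s1]
  have hL0 : 0 < L := by linarith
  obtain ⟨G, hG⟩ : ∃ G, G = x / a := ⟨_, rfl⟩
  have hG0 : 0 < G := by rw [hG]; positivity
  have hG2 := h.sqG
  have hsr := h.sr
  have hsq := h.sq
  have hsk := h.sk
  rw [← hG] at hG2 hsr hsq ⊢
  refine ⟨?_, ?_, ?_, ?_, ?_⟩
  · have h1 : x * (k + 1) * s⁻¹ ≤ x * (4 / 3 * k) * s⁻¹ := by
      gcongr
      linarith [h.a3, h.k1]
    refine h1.trans ?_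
    have h2 : x * (4 / 3 * k) * s⁻¹ = 4 / 3 * (s / r) := by
      have h3 : x * k = s ^ 2 / r := by rw [h.ss]; field_simp
      calc x * (4 / 3 * k) * s⁻¹ = 4 / 3 * (x * k) * s⁻¹ := by ring
        _ = 4 / 3 * (s / r) := by rw [h3]; field_simp
    rw [h2]
    linarith
  · calc x / j = x * (1 / j) := by ring
      _ ≤ x * (12 * L / k) := by gcongr
      _ ≤ x * (12 * L / a) := by gcongr; exact h.k1
      _ = 12 * L * G := by rw [hG]; ring
  · calc 1 / (j * s⁻¹ * r ^ 2) = 1 / j * (s / r ^ 2) := by field_simp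
      _ ≤ 12 * L / k * (s / r ^ 2) := by gcongr
      _ = 12 * L * (s / k / r ^ 2) := by ring
      _ ≤ 12 * L * (a / r ^ 2) := by gcongr
      _ ≤ 12 * L * G := by gcongr
  · have h1 : x / (j * s⁻¹ * r) ≤ 12 * L * G ^ 2 := by
      calc x / (j * s⁻¹ * r) = 1 / j * (x * s / r) := by field_simp
        _ ≤ 12 * L / k * (x * s / r) := by gcongr
        _ = 12 * L * (x * (s / k) / r) := by ring
        _ ≤ 12 * L * (x * a / r) := by gcongr
        _ = 12 * L * G ^ 2 := by rw [hG2]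
    calc √(x / (j * s⁻¹ * r)) ≤ √((4 * L * G) ^ 2) := by
          refine Real.sqrt_le_sqrt (h1.trans ?_)
          have h3 : L * G ^ 2 ≤ L * (L * G ^ 2) := le_mul_of_one_le_left (by positivity) hL
          calc 12 * L * G ^ 2 = 12 * (L * G ^ 2) := by ring
            _ ≤ 12 * (L * (L * G ^ 2)) := by gcongr
            _ ≤ 16 * (L * (L * G ^ 2)) := by gcongr; norm_num
            _ = (4 * L * G) ^ 2 := by ring
      _ = 4 * L * G := Real.sqrt_sq (by positivity)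
  · calc k / (j * r * s⁻¹) = 1 / j * (k * (s / r)) := by field_simp
      _ ≤ 12 * L / k * (k * (s / r)) := by gcongr
      _ = 12 * L * (s / r) := by field_simp
      _ ≤ 12 * L * (4 / 3 * G) := by gcongr
      _ = 16 * L * G := by ring
      _ ≤ 24 * L * G := by gcongr; norm_num

/-- The choice of the parameters. -/
theorem params {n : ℕ} (hn : 1 ≤ n) {r : ℝ} (hr : 0 < r) (hr2 : r ≤ 1 / 2) (hrn : 1 ≤ r ^ 6 * n) :
    ∃ k q : ℕ, ∃ lam : ℝ, 2 ≤ k ∧ 0 < q ∧ 0 < lam ∧ lam ≤ 1 ∧ (∀ J : ℕ, 0 < J → 4 * k ^ 2 ≤ J * q) ∧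
      (∀ J : ℕ, 0 < J → ∀ N : ℕ, N ≤ n →
        r * ((1 - r) / (((J * q : ℕ) : ℝ) + 1)) * (N * lam) ≤ 1) ∧
      1 ≤ GG n r ∧
      (n : ℝ) * (k + 1) * lam ≤ 3 * GG n r ∧
      ∀ J : ℕ, 0 < J → 1 / (J : ℝ) ≤ 4 * Real.log (4 * k) / k →
        (n : ℝ) / J ≤ 12 * (1 + Real.log n) * GG n r ∧
        1 / (J * lam * r ^ 2) ≤ 12 * (1 + Real.log n) * GG n r ∧
        √(n / (J * lam * r)) ≤ 4 * (1 + Real.log n) * GG n r ∧
        (k : ℝ) / (J * r * lam) ≤ 24 * (1 + Real.log n) * GG n r := by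
  have hx1 : (1 : ℝ) ≤ n := by exact_mod_cast hn
  have hlogn : 0 ≤ Real.log n := Real.log_natCast_nonneg n
  have hL1 : 1 ≤ 1 + Real.log n := by linarith
  have ha := fa hx1 hr hr2 hrn
  rw [GG_eq hn hr]
  obtain ⟨a, had⟩ : ∃ a, a = (r * (n : ℝ)) ^ (1 / 3 : ℝ) := ⟨_, rfl⟩
  rw [← had] at ha ⊢
  clear had
  have ha0 : 0 < a := by linarith [ha.a3]
  obtain ⟨k, hk⟩ : ∃ k : ℕ, k = ⌈a⌉₊ := ⟨_, rfl⟩
  have hk1 : a ≤ k := by rw [hk]; exact Nat.le_ceil a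
  have hk2 : (k : ℝ) ≤ a + 1 := by rw [hk]; exact (Nat.ceil_lt_add_one ha0.le).le
  clear hk
  have hs := fs ha hk1 hk2
  obtain ⟨s, hsd⟩ : ∃ s, s = √(r * n * k) := ⟨_, rfl⟩
  rw [← hsd] at hs
  clear hsd
  have hk0 : (0 : ℝ) < k := by linarith
  have hkN : 2 ≤ k := by
    have : (2 : ℝ) ≤ (k : ℝ) := by linarith [ha.a3]
    exact_mod_cast this
  have hs0 : 0 < s := by linarith [hs.s1]
  have hlog := log_four_mul_le hs
  refine ⟨k, 4 * k ^ 2 + n, s⁻¹, hkN, by positivity, by positivity,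
    inv_le_one_of_one_le₀ hs.s1, fun J hJ => ?_, fun J hJ N hN => ?_, ha.one, ?_,
    fun J hJ hJk => ?_⟩
  · calc 4 * k ^ 2 ≤ 4 * k ^ 2 + n := Nat.le_add_right _ _
      _ ≤ J * (4 * k ^ 2 + n) := Nat.le_mul_of_pos_left _ hJ
  · have hq : (n : ℝ) ≤ ((J * (4 * k ^ 2 + n) : ℕ) : ℝ) := by
      have : n ≤ J * (4 * k ^ 2 + n) :=
        (Nat.le_add_left n (4 * k ^ 2)).trans (Nat.le_mul_of_pos_left _ hJ)
      exact_mod_cast this
    obtain ⟨y, hy⟩ : ∃ y : ℝ, y = ((J * (4 * k ^ 2 + n) : ℕ) : ℝ) := ⟨_, rfl⟩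
    rw [← hy] at hq ⊢
    have hy0 : 0 < y + 1 := by linarith
    have hN' : (N : ℝ) ≤ n := by exact_mod_cast hN
    have h1 : (N : ℝ) * s⁻¹ ≤ n := by
      calc (N : ℝ) * s⁻¹ ≤ N * 1 :=
            mul_le_mul_of_nonneg_left (inv_le_one_of_one_le₀ hs.s1) (Nat.cast_nonneg N)
        _ ≤ n := by rw [mul_one]; exact hN'
    have h2 : r * ((1 - r) / (y + 1)) ≤ 1 / (y + 1) := by
      rw [← mul_div_assoc]
      gcongr
      nlinarith
    have h4 : 0 ≤ (N : ℝ) * s⁻¹ := by positivity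
    calc r * ((1 - r) / (y + 1)) * (N * s⁻¹) ≤ 1 / (y + 1) * n := by
          gcongr
      _ ≤ 1 := by
          rw [one_div, inv_mul_le_iff₀ hy0]
          linarith
  · exact (terms (L := 1 + Real.log n) (j := (k : ℝ) / (12 * (1 + Real.log n))) hs hL1
      (by positivity) (by rw [one_div_div])).1
  · have hJ0 : (0 : ℝ) < J := by exact_mod_cast hJ
    have hJ1 : 1 / (J : ℝ) ≤ 12 * (1 + Real.log n) / k := by
      refine hJk.trans (div_le_div_of_nonneg_right (by linarith) hk0.le)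
    exact (terms hs hL1 hJ0 hJ1).2

end Vale.Agent.P146.H737
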