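import Vale.Agent.P146.H425.Tele
import Vale.Agent.P146.H327.SumN
import Vale.Agent.P146.H737.Num

set_option linter.all false

/-!
The rate of one small exponential moment, `n^{2/3} r^{-1/3}`, from the quadratic form of the
cavity step: the telescope, the average over the exponents and the choice of the parameters.
-/

open MeasureTheory ProbabilityTheory

namespace Vale.Agent.P146.H737

open Vale.Agent.P157 Vale.Agent.P157.Lv Vale.Agent.P157.Lv.Sy
open Vale.Agent.P157.Par (Path Exponents)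
open Vale.Agent.P146 (freeEnergy disorder)
open Vale.Agent.P146.Sk (PSK)
open Vale.Agent.P146.H425 Vale.Agent.P146.Gp.Avg

/-! ### The value `Vx` -/

theorem Vx_le {β r : ℝ} (hβ : 1 ≤ β) {K : ℕ} {m q : ℕ → ℝ} (hm : Exponents K m) (hq : Path K q)
    (hq1 : q K ≤ 1) (hq0 : q 0 = 0) (hr : r ≤ m 1) : Sh.Vx β r ≤ PSK β K m q := by
  refine csInf_le ?_ ⟨K, m, q, hm, hq, hq0, hq1, hr, rfl⟩
  obtain ⟨C₁, hC₁, h1⟩ := Sx.fin_moment5 hβ
  refine ⟨Real.log (∫ g, Real.exp (1 * freeEnergy 1 β g) ∂(disorder 1)) / (1 * ((1 : ℕ) : ℝ)) -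
      Real.log 2 - C₁ * 1 ^ 5, ?_⟩
  rintro y ⟨K, m, q, h1', h2, h3, h4, h5, rfl⟩
  exact h1 1 le_rfl 1 one_pos le_rfl K m q h1' h2 h4

/-! ### Sums over the stages -/

lemma sum_sqrt_le (n : ℕ) : ∑ N ∈ Finset.Ico 1 n, √(1 / (N : ℝ)) ≤ 2 * √n := by
  have h : ∀ n : ℕ, ∑ N ∈ Finset.Ico 1 (n + 1), √(1 / (N : ℝ)) ≤ 2 * √n := by
    intro n
    induction n with
    | zero => simp
    | succ n ih =>
      rw [Finset.sum_Ico_succ_top (by omega)]
      refine (add_le_add ih le_rfl).trans ?_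
      have h0 : (0 : ℝ) < (n : ℝ) + 1 := by positivity
      have h1 : √(1 / ((n + 1 : ℕ) : ℝ)) = 1 / √((n : ℝ) + 1) := by
        rw [Real.sqrt_div zero_le_one, Real.sqrt_one]; push_cast; rfl
      rw [h1]
      push_cast
      obtain ⟨a, ha⟩ : ∃ a, a = √(n : ℝ) := ⟨_, rfl⟩
      obtain ⟨b, hb⟩ : ∃ b, b = √((n : ℝ) + 1) := ⟨_, rfl⟩
      have ha0 : 0 ≤ a := by rw [ha]; positivity
      have hb0 : 0 < b := by rw [hb]; positivity
      have haa : a ^ 2 = n := by rw [ha, Real.sq_sqrt (Nat.cast_nonneg n)]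
      have hbb : b ^ 2 = n + 1 := by rw [hb, Real.sq_sqrt h0.le]
      rw [← ha, ← hb]
      have h2 : 1 / b * b = 1 := by field_simp
      have h3 : (2 * a + 1 / b) * b ≤ 2 * b * b := by
        rw [add_mul, h2]
        nlinarith [sq_nonneg (b - a)]
      exact le_of_mul_le_mul_right h3 hb0
  rcases Nat.eq_zero_or_pos n with rfl | hn
  · simp
  · obtain ⟨m, rfl⟩ : ∃ m, n = m + 1 := ⟨n - 1, by omega⟩
    refine (h m).trans ?_
    have : √(m : ℝ) ≤ √((m + 1 : ℕ) : ℝ) := Real.sqrt_le_sqrt (by push_cast; linarith)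
    linarith

/-- the sum of the averaged errors of the stages -/
lemma sum_stage_le {n k J : ℕ} {r lam : ℝ} (hr : 0 < r) (hlam : 0 < lam) (hJ : 0 < J) :
    ∑ N ∈ Finset.Ico 1 n, (24 / (J : ℝ) + 4 / (J * (N * lam * r ^ 2)) +
        2 * √(5 / (J * (N * lam * r))) + 256 * k / (J * (r * (lam * N)))) ≤
      24 * (n / J) + 4 * (1 / (J * lam * r ^ 2)) * (1 + Real.log n) +
        12 * √(n / (J * lam * r)) + 256 * (k / (J * r * lam)) * (1 + Real.log n) := by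
  have hJ0 : (0 : ℝ) < J := by exact_mod_cast hJ
  have hH := Ub.Ld.sum_one_div_le n
  have hS := sum_sqrt_le n
  have e : ∀ N ∈ Finset.Ico 1 n, (24 / (J : ℝ) + 4 / (J * (N * lam * r ^ 2)) +
        2 * √(5 / (J * (N * lam * r))) + 256 * k / (J * (r * (lam * N)))) =
      24 / J + 4 * (1 / (J * lam * r ^ 2)) * (1 / N) + 2 * √(5 * (1 / (J * lam * r))) * √(1 / N) +
        256 * (k / (J * r * lam)) * (1 / N) := by
    intro N hN
    have hN0 : (0 : ℝ) < N := by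
      rw [Finset.mem_Ico] at hN
      exact_mod_cast (by omega : 0 < N)
    have h1 : 5 / (J * (N * lam * r)) = 5 * (1 / (J * lam * r)) * (1 / N) := by field_simp
    rw [h1, Real.sqrt_mul (by positivity)]
    have h2 : 4 / (J * (N * lam * r ^ 2)) = 4 * (1 / (J * lam * r ^ 2)) * (1 / N) := by field_simp
    have h3 : 256 * k / (J * (r * (lam * N))) = 256 * (k / (J * r * lam)) * (1 / N) := by
      field_simp
    rw [h2, h3]
    ring
  rw [Finset.sum_congr rfl e, Finset.sum_add_distrib, Finset.sum_add_distrib,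
    Finset.sum_add_distrib, ← Finset.mul_sum, ← Finset.mul_sum, ← Finset.mul_sum,
    Finset.sum_const, Nat.card_Ico, nsmul_eq_mul]
  have h1 : ((n - 1 : ℕ) : ℝ) * (24 / J) ≤ 24 * (n / J) := by
    have : ((n - 1 : ℕ) : ℝ) ≤ n := by exact_mod_cast Nat.sub_le n 1
    calc ((n - 1 : ℕ) : ℝ) * (24 / J) ≤ n * (24 / J) := by gcongr
      _ = _ := by ring
  have h2 : 2 * √(5 * (1 / (J * lam * r))) * ∑ i ∈ Finset.Ico 1 n, √(1 / (i : ℝ)) ≤
      12 * √(n / (J * lam * r)) := by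
    have h5 : √(5 : ℝ) ≤ 3 := by
      rw [Real.sqrt_le_left (by norm_num)]; norm_num
    calc 2 * √(5 * (1 / (J * lam * r))) * ∑ i ∈ Finset.Ico 1 n, √(1 / (i : ℝ))
        ≤ 2 * √(5 * (1 / (J * lam * r))) * (2 * √n) := by gcongr
      _ = 4 * √5 * (√(1 / (J * lam * r)) * √n) := by
          rw [Real.sqrt_mul (by norm_num)]; ring
      _ = 4 * √5 * √(n / (J * lam * r)) := by
          rw [← Real.sqrt_mul (by positivity)]; congr 2; ring
      _ ≤ 4 * 3 * √(n / (J * lam * r)) := by gcongr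
      _ = _ := by ring
  have h3 : 4 * (1 / (J * lam * r ^ 2)) * ∑ i ∈ Finset.Ico 1 n, (1 / (i : ℝ)) ≤
      4 * (1 / (J * lam * r ^ 2)) * (1 + Real.log n) := by gcongr
  have h4 : 256 * (k / (J * r * lam)) * ∑ i ∈ Finset.Ico 1 n, (1 / (i : ℝ)) ≤
      256 * (k / (J * r * lam)) * (1 + Real.log n) := by gcongr
  linarith

lemma sum_sl_sq {k : ℕ} {lam : ℝ} (hlam : 0 ≤ lam) :
    ∑ j ∈ Finset.range (k + 1 + 1), sl lam j ^ 2 = (k + 1) * lam := by
  rw [Finset.sum_range_succ', sl_zero]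
  have : ∀ j ∈ Finset.range (k + 1), sl lam (j + 1) ^ 2 = lam := fun j _ => by
    rw [sl_pos (by omega), Real.sq_sqrt hlam]
  rw [Finset.sum_congr rfl this, Finset.sum_const, Finset.card_range, nsmul_eq_mul]
  push_cast
  ring

/-- The rate of one exponential moment with a small exponent. -/
theorem tmh {β : ℝ} (hβ : 1 ≤ β) {C : ℝ} (hC : 0 ≤ C) (hQ : QSt β C) :
    ∃ D : ℝ, 0 ≤ D ∧ ∀ n : ℕ, 1 ≤ n → ∀ r : ℝ, 0 < r → r ≤ 1 / 2 → 1 ≤ r ^ 6 * n →
      n * (Real.log 2 + Sh.Vx β r) ≤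
        1 / r * Real.log (∫ g, Real.exp (r * freeEnergy n β g) ∂(disorder n)) +
          D * (1 + Real.log n) ^ 2 * ((n : ℝ) ^ (2 / 3 : ℝ) * r ^ (-(1 / 3) : ℝ)) := by
  refine ⟨2 + β ^ 2 / 4 + 7000 * C, by positivity, fun n hn r hr hr2 hrn => ?_⟩
  obtain ⟨k, q, lam, hk, hq, hlam, hlam1, -, -, hG1, hfield, hterms⟩ := params hn hr hr2 hrn
  obtain ⟨J, hJ, hJk, hJe, hJl⟩ := exists_J hk
  obtain ⟨t1, t2, t3, t4⟩ := hterms J hJ hJl
  show _ ≤ _ + (2 + β ^ 2 / 4 + 7000 * C) * (1 + Real.log n) ^ 2 * GG n r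
  obtain ⟨G, hG⟩ : ∃ G, G = GG n r := ⟨_, rfl⟩
  obtain ⟨L, hL⟩ : ∃ L, L = 1 + Real.log (n : ℝ) := ⟨_, rfl⟩
  have hlogn : 0 ≤ Real.log (n : ℝ) := Real.log_natCast_nonneg n
  have hL1 : 1 ≤ L := by linarith
  -- the chain inequality
  have hchain : ∀ m : ℕ → ℝ, Exponents (k + 1) m → m 1 = r →
      n * (Real.log 2 + Sh.Vx β r) -
          1 / r * Real.log (∫ g, Real.exp (r * freeEnergy n β g) ∂(disorder n)) ≤
        (n * ((k + 1) * lam) / 2 + β ^ 2 / 4 + C * (1 + Real.log n)) +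
          ∑ N ∈ Finset.Ico 1 n, C * VKd n k m β lam N := by
    intro m hm hm1
    have h1 := tele (s := sl lam) (Lb := Sh.Vx β r) hQ hC (by omega : 1 ≤ k + 1) hm
      (fun l _ => sl_nonneg lam l)
      (fun q hq hq1 hq0 => Vx_le hβ hm hq hq1 hq0 hm1.ge) hn
    rw [sum_sl_sq hlam.le, hm1, Finset.mul_sum] at h1
    have h2 : ∀ N, Vs n (k + 1) m β N (sl lam) = VKd n k m β lam N := fun N => rfl
    simp only [h2] at h1
    linarith
  have h1 := sumN hC hr hr2 hlam hJ hJe hchain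
  rw [← Finset.mul_sum] at h1
  have h2 := mul_le_mul_of_nonneg_left (sum_stage_le (n := n) (k := k) hr hlam hJ) hC
  rw [← hL] at h1 h2 t1 t2 t3 t4 ⊢
  rw [← hG] at hG1 hfield t1 t2 t3 t4 ⊢
  have hLG : L * G ≤ L ^ 2 * G := by
    have : L ≤ L ^ 2 := by nlinarith
    gcongr
  have hG2 : G ≤ L * G := le_mul_of_one_le_left (by linarith) hL1
  have hLG1 : L ≤ L * G := le_mul_of_one_le_right (by linarith) hG1
  have b0 : n * ((k + 1) * lam) / 2 ≤ 3 / 2 * (L ^ 2 * G) := by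
    have : (n : ℝ) * ((k + 1) * lam) = n * (k + 1) * lam := by ring
    rw [this]
    linarith
  have b1 : β ^ 2 / 4 ≤ β ^ 2 / 4 * (L ^ 2 * G) :=
    le_mul_of_one_le_right (by positivity) (by linarith)
  have b2 : C * L ≤ C * (L ^ 2 * G) := mul_le_mul_of_nonneg_left (by linarith) hC
  have b3 : 24 * (n / J) + 4 * (1 / (J * lam * r ^ 2)) * L + 12 * √(n / (J * lam * r)) +
      256 * (k / (J * r * lam)) * L ≤ 6700 * (L ^ 2 * G) := by
    have c1 : 4 * (1 / (J * lam * r ^ 2)) * L ≤ 4 * (12 * L * G) * L := by gcongr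
    have c2 : 256 * (k / (J * r * lam)) * L ≤ 256 * (24 * L * G) * L := by gcongr
    have e1 : 4 * (12 * L * G) * L = 48 * (L ^ 2 * G) := by ring
    have e2 : 256 * (24 * L * G) * L = 6144 * (L ^ 2 * G) := by ring
    have e3 : 12 * L * G = 12 * (L * G) := by ring
    have e4 : 4 * L * G = 4 * (L * G) := by ring
    rw [e3] at t1
    rw [e4] at t3
    linarith
  have b4 := mul_le_mul_of_nonneg_left b3 hC
  have e5 : (2 + β ^ 2 / 4 + 7000 * C) * L ^ 2 * G =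
      2 * (L ^ 2 * G) + β ^ 2 / 4 * (L ^ 2 * G) + 7000 * (C * (L ^ 2 * G)) := by ring
  have e6 : C * (6700 * (L ^ 2 * G)) = 6700 * (C * (L ^ 2 * G)) := by ring
  have hCLG : 0 ≤ C * (L ^ 2 * G) := by positivity
  rw [e5]
  rw [e6] at b4
  linarith

end Vale.Agent.P146.H737
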