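import Vale.Agent.P146.H260.Asm
import Vale.Agent.P146.H737.Tmx

set_option linter.all false

/-!
The bridge: the rate of one exponential moment with an exponent at most `1/2` gives the rate
for all exponents, at the Parisi value.
-/

open MeasureTheory ProbabilityTheory

namespace Vale.Agent.P146.H737

open Vale.Agent.P146 Vale.Agent.P146.Sx Vale.Agent.P146.H260.Asm

/-- `TMx` with `r ≤ 1 / 2`. -/
def TMh (β a c : ℝ) (k : ℕ) : Prop := ∃ D : ℝ, 0 ≤ D ∧ ∀ n : ℕ, 1 ≤ n → ∀ r : ℝ, 0 < r →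
  r ≤ 1 / 2 → 1 ≤ r ^ 6 * n → n * (Real.log 2 + Sh.Vx β r) ≤
    1 / r * Real.log (∫ g, Real.exp (r * freeEnergy n β g) ∂(disorder n)) +
      D * (1 + Real.log n) ^ k * ((n : ℝ) ^ a * r ^ (-c))

theorem TMh.tm {β a c : ℝ} {k : ℕ} (hβ : 1 ≤ β) (ha : 0 ≤ a) (hc : 0 ≤ c) (h : TMh β a c k) :
    TM β a c k := by
  obtain ⟨D, hD, h1⟩ := h
  have hhalf : ∀ n : ℕ, 1 ≤ n → ∀ r : ℝ, 0 < r → r ≤ 1 / 2 → 1 ≤ r ^ 6 * n → n * pv β ≤
      1 / r * Real.log (∫ g, Real.exp (r * freeEnergy n β g) ∂(disorder n)) +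
        D * (1 + Real.log n) ^ k * ((n : ℝ) ^ a * r ^ (-c)) := by
    intro n hn r hr hr2 hr6
    refine le_trans ?_ (h1 n hn r hr hr2 hr6)
    rw [Sh.shfin_pv]
    have := P0_le_Vx hβ (show r ≤ 1 by linarith)
    gcongr
  have h2c : (0 : ℝ) < 2 ^ c := Real.rpow_pos_of_pos two_pos _
  refine ⟨2 ^ c * D + 64 * |pv β| + D, by positivity, fun n hn r hr hr1 hr6 => ?_⟩
  have hn1 : (1 : ℝ) ≤ n := by exact_mod_cast hn
  have hn0 : (0 : ℝ) < n := by linarith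
  have hlog : 0 ≤ Real.log (n : ℝ) := Real.log_nonneg hn1
  have hL : 1 ≤ (1 + Real.log (n : ℝ)) ^ k := one_le_pow₀ (by linarith)
  have hna : 1 ≤ (n : ℝ) ^ a := Real.one_le_rpow hn1 ha
  have hrc : 1 ≤ r ^ (-c) := Real.one_le_rpow_of_pos_of_le_one_of_nonpos hr hr1 (by linarith)
  obtain ⟨Y, hY⟩ : ∃ Y, Y = (1 + Real.log (n : ℝ)) ^ k * ((n : ℝ) ^ a * r ^ (-c)) := ⟨_, rfl⟩
  have hY1 : 1 ≤ Y := by
    rw [hY]
    exact one_le_mul_of_one_le_of_one_le hL (one_le_mul_of_one_le_of_one_le hna hrc)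
  have e : (2 ^ c * D + 64 * |pv β| + D) * (1 + Real.log (n : ℝ)) ^ k * ((n : ℝ) ^ a * r ^ (-c)) =
      2 ^ c * D * Y + 64 * |pv β| * Y + D * Y := by rw [hY]; ring
  rw [e]
  have hP0 : 0 ≤ 64 * |pv β| * Y := by positivity
  have hDY : 0 ≤ D * Y := by positivity
  have h2DY : 0 ≤ 2 ^ c * D * Y := by positivity
  rcases le_or_gt r (1 / 2) with hr2 | hr2
  · have h3 := hhalf n hn r hr hr2 hr6
    have e2 : D * (1 + Real.log (n : ℝ)) ^ k * ((n : ℝ) ^ a * r ^ (-c)) = D * Y := by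
      rw [hY]; ring
    rw [e2] at h3
    linarith
  · rcases lt_or_ge n 64 with h64 | h64
    · have h3 : (n : ℝ) ≤ 64 := by exact_mod_cast h64.le
      have h4 : n * pv β ≤ 64 * |pv β| * Y := by
        calc n * pv β ≤ n * |pv β| := by gcongr; exact le_abs_self _
          _ ≤ 64 * |pv β| := by gcongr
          _ ≤ 64 * |pv β| * Y := le_mul_of_one_le_right (by positivity) hY1
      have h5 := R3.A.phi_nonneg hn β hr
      linarith
    · have h3 := hhalf n hn (1 / 2) (by norm_num) le_rfl (by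
        have : (64 : ℝ) ≤ n := by exact_mod_cast h64
        norm_num
        linarith)
      have h4 := R3.A.phi_mono n β (show (0 : ℝ) < 1 / 2 by norm_num) hr2.le
      have h5 : (1 / 2 : ℝ) ^ (-c) ≤ 2 ^ c * r ^ (-c) := by
        have : (1 / 2 : ℝ) ^ (-c) = 2 ^ c := by
          rw [Real.rpow_neg (by norm_num), one_div, Real.inv_rpow (by norm_num), inv_inv]
        rw [this]
        exact le_mul_of_one_le_right h2c.le hrc
      have h6 : D * (1 + Real.log (n : ℝ)) ^ k * ((n : ℝ) ^ a * (1 / 2) ^ (-c)) ≤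
          2 ^ c * D * Y := by
        calc D * (1 + Real.log (n : ℝ)) ^ k * ((n : ℝ) ^ a * (1 / 2) ^ (-c))
            ≤ D * (1 + Real.log (n : ℝ)) ^ k * ((n : ℝ) ^ a * (2 ^ c * r ^ (-c))) := by gcongr
          _ = 2 ^ c * D * Y := by rw [hY]; ring
      linarith

/-- **Stage 1.** The rates, from the quadratic form of the cavity step. -/
theorem tmh_of_QSt {β : ℝ} (hβ : 1 ≤ β) {C : ℝ} (hC : 0 ≤ C) (hQ : H425.QSt β C) :
    TMh β (2 / 3) (1 / 3) 2 := by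
  obtain ⟨D, hD, h⟩ := tmh hβ hC hQ
  exact ⟨D, hD, fun n hn r hr hr2 hr6 => h n hn r hr hr2 hr6⟩

theorem tm_of_QSt {β : ℝ} (hβ : 1 ≤ β) {C : ℝ} (hC : 0 ≤ C) (hQ : H425.QSt β C) :
    TM β (2 / 3) (1 / 3) 2 :=
  (tmh_of_QSt hβ hC hQ).tm hβ (by norm_num) (by norm_num)

end Vale.Agent.P146.H737
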