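import Vale.Agent.P146.H784.Cav
import Vale.Agent.P146.H737.Tm

set_option linter.all false

/-!
**Stage 1.** The rate of one small exponential moment: `n^{2/3} r^{-1/3}`.
-/

namespace Vale.Agent.P146.H737

open Vale.Agent.P146.H260.Asm

/-- the quadratic form of the cavity step -/
theorem qst {β : ℝ} (hβ : 0 ≤ β) : H425.QSt β (H784.Cq β) := by
  intro n K N m s hN h0 hm hK hs
  obtain ⟨R, h1, h2, h3, h4⟩ := H784.qstep_ex (β := β) hK hN h0 hm hβ hs
  exact ⟨R, h1, h2, h3 0 (by omega), h4⟩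

theorem tmh1 {β : ℝ} (hβ : 1 ≤ β) : TMh β (2 / 3) (1 / 3) 2 :=
  tmh_of_QSt hβ (H784.Cq_nonneg β) (qst (by linarith))

theorem tm1 {β : ℝ} (hβ : 1 ≤ β) : TM β (2 / 3) (1 / 3) 2 :=
  tm_of_QSt hβ (H784.Cq_nonneg β) (qst (by linarith))

end Vale.Agent.P146.H737
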