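import Mathlib

set_option linter.all false

/-!
The choice of the parameters for the strengths which depend on the level: `k = ⌈n^{1/3}⌉`,
`lam = 1 / k ^ 2`; every term is at most `const · (1 + log n)² n^{2/3}`.
-/

namespace Vale.Agent.P146.H737

/-- the facts on `a = n^{1/3}` -/
lemma cube_root {n : ℕ} (hn : 1 ≤ n) {r : ℝ} (hr : 0 < r) (hr2 : r ≤ 1 / 2) (hrn : 1 ≤ r ^ 3 * n) :
    ∃ a : ℝ, 2 ≤ a ∧ a ^ 3 = n ∧ a ^ 2 = (n : ℝ) ^ (2 / 3 : ℝ) ∧ 1 / r ≤ a := by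
  have hn1 : (1 : ℝ) ≤ n := by exact_mod_cast hn
  have hn0 : (0 : ℝ) < n := by linarith
  obtain ⟨a, ha⟩ : ∃ a : ℝ, a = (n : ℝ) ^ (1 / 3 : ℝ) := ⟨_, rfl⟩
  have ha0 : 0 < a := by rw [ha]; positivity
  have h3 : a ^ 3 = n := by
    rw [ha, ← Real.rpow_natCast, ← Real.rpow_mul hn0.le]; norm_num
  have h2 : a ^ 2 = (n : ℝ) ^ (2 / 3 : ℝ) := by
    rw [ha, ← Real.rpow_natCast, ← Real.rpow_mul hn0.le]; norm_num
  have hra : 1 / r ≤ a := by
    rw [div_le_iff₀ hr]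
    by_contra h
    push Not at h
    have h4 : (a * r) ^ 3 < 1 := pow_lt_one₀ (by positivity) h (by norm_num)
    have h5 : (a * r) ^ 3 = r ^ 3 * n := by rw [mul_pow, h3]; ring
    linarith
  have ha2 : 2 ≤ a := by
    refine le_trans ?_ hra
    rw [le_div_iff₀ hr]
    linarith
  exact ⟨a, ha2, h3, h2, hra⟩

/-- The choice of the parameters. -/
theorem params2 {n : ℕ} (hn : 1 ≤ n) {r : ℝ} (hr : 0 < r) (hr2 : r ≤ 1 / 2)
    (hrn : 1 ≤ r ^ 3 * n) :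
    ∃ k : ℕ, 2 ≤ k ∧ ∃ lam : ℝ, lam = 1 / (k : ℝ) ^ 2 ∧ 0 < lam ∧ lam ≤ 1 ∧
      1 ≤ (n : ℝ) ^ (2 / 3 : ℝ) ∧ (k : ℝ) ≤ 2 * (n : ℝ) ^ (1 / 3 : ℝ) ∧
      (n : ℝ) * (lam * (2 / r + 32 * k * (1 + Real.log k))) ≤
        66 * (1 + Real.log n) * (n : ℝ) ^ (2 / 3 : ℝ) ∧
      (1 + Real.log k ≤ 2 * (1 + Real.log n)) ∧
      ∀ J : ℕ, 0 < J → 1 / (J : ℝ) ≤ 4 * Real.log (4 * k) / k →
        (n : ℝ) / J ≤ 12 * (1 + Real.log n) * (n : ℝ) ^ (2 / 3 : ℝ) ∧
        1 / (J * lam * r) ≤ 24 * (1 + Real.log n) * (n : ℝ) ^ (2 / 3 : ℝ) ∧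
        n / (J * lam) ≤ 24 * (1 + Real.log n) * ((n : ℝ) ^ (2 / 3 : ℝ)) ^ 2 ∧
        (k : ℝ) / (J * lam) ≤ 48 * (1 + Real.log n) * (n : ℝ) ^ (2 / 3 : ℝ) := by
  have hn1 : (1 : ℝ) ≤ n := by exact_mod_cast hn
  have hn0 : (0 : ℝ) < n := by linarith
  have hlogn : 0 ≤ Real.log n := Real.log_natCast_nonneg n
  obtain ⟨a, ha2, ha3, hG, hra⟩ := cube_root hn hr hr2 hrn
  have ha0 : 0 < a := by linarith
  have haa : (n : ℝ) ^ (1 / 3 : ℝ) = a := by
    have h1 : a ^ 3 = n := ha3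
    rw [← h1, ← Real.rpow_natCast, ← Real.rpow_mul ha0.le]
    norm_num
  rw [← hG, haa]
  obtain ⟨k, hk⟩ : ∃ k : ℕ, k = ⌈a⌉₊ := ⟨_, rfl⟩
  have hk1 : a ≤ k := by rw [hk]; exact Nat.le_ceil a
  have hk2 : (k : ℝ) ≤ a + 1 := by rw [hk]; exact (Nat.ceil_lt_add_one ha0.le).le
  clear hk
  have hk2a : (k : ℝ) ≤ 2 * a := by linarith
  have hk0 : (0 : ℝ) < k := by linarith
  have hkN : 2 ≤ k := by
    have : (2 : ℝ) ≤ (k : ℝ) := by linarith
    exact_mod_cast this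
  obtain ⟨L, hL⟩ : ∃ L, L = 1 + Real.log (n : ℝ) := ⟨_, rfl⟩
  have hL1 : 1 ≤ L := by linarith
  have hlogn' : Real.log n = 3 * Real.log a := by
    rw [← ha3, Real.log_pow]; norm_num
  have hloga : 0 ≤ Real.log a := Real.log_nonneg (by linarith)
  have hl2 := Real.log_two_lt_d9
  have hl2' := Real.log_two_gt_d9
  have hlogk : Real.log k ≤ Real.log 2 + Real.log a := by
    rw [← Real.log_mul (by norm_num) ha0.ne']
    exact Real.log_le_log hk0 hk2a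
  have hlog4k : Real.log (4 * k) ≤ 3 * L := by
    rw [Real.log_mul (by norm_num) hk0.ne', show (4 : ℝ) = 2 ^ 2 by norm_num, Real.log_pow]
    push_cast
    rw [hL, hlogn']
    linarith
  have hlogk2 : 1 + Real.log k ≤ 2 * L := by
    rw [hL, hlogn']
    linarith
  rw [← hL]
  have hlam0 : (0 : ℝ) < 1 / (k : ℝ) ^ 2 := by positivity
  have hlam1 : 1 / (k : ℝ) ^ 2 ≤ 1 := by
    rw [div_le_one (by positivity)]
    exact one_le_pow₀ (by linarith)
  have hnl : (n : ℝ) * (1 / (k : ℝ) ^ 2) ≤ a := by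
    rw [mul_one_div, div_le_iff₀ (by positivity), ← ha3]
    calc a ^ 3 = a * a ^ 2 := by ring
      _ ≤ a * (k : ℝ) ^ 2 := by gcongr
  have hnk : (n : ℝ) * (1 / (k : ℝ)) ≤ a ^ 2 := by
    rw [mul_one_div, div_le_iff₀ hk0, ← ha3]
    calc a ^ 3 = a ^ 2 * a := by ring
      _ ≤ a ^ 2 * k := by gcongr
  refine ⟨k, hkN, 1 / (k : ℝ) ^ 2, rfl, hlam0, hlam1, one_le_pow₀ (by linarith), hk2a, ?_,
    hlogk2, fun J hJ hJk => ?_⟩
  · have e : (n : ℝ) * (1 / (k : ℝ) ^ 2 * (2 / r + 32 * k * (1 + Real.log k))) =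
        2 * (n * (1 / (k : ℝ) ^ 2)) * (1 / r) + 32 * (n * (1 / (k : ℝ))) * (1 + Real.log k) := by
      field_simp
    rw [e]
    have h1 : 2 * (n * (1 / (k : ℝ) ^ 2)) * (1 / r) ≤ 2 * a * a := by gcongr
    have h2 : 32 * (n * (1 / (k : ℝ))) * (1 + Real.log k) ≤ 32 * a ^ 2 * (2 * L) := by gcongr
    have h3 : a ^ 2 ≤ L * a ^ 2 := le_mul_of_one_le_left (by positivity) hL1
    nlinarith
  · have hJ0 : (0 : ℝ) < J := by exact_mod_cast hJ
    have hJ1 : 1 / (J : ℝ) ≤ 12 * L / k := by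
      refine hJk.trans (div_le_div_of_nonneg_right (by linarith) hk0.le)
    have hJ2 : (k : ℝ) * (1 / (J : ℝ)) ≤ 12 * L := by
      calc (k : ℝ) * (1 / (J : ℝ)) ≤ k * (12 * L / k) := by gcongr
        _ = 12 * L := by field_simp
    refine ⟨?_, ?_, ?_, ?_⟩
    · calc (n : ℝ) / J = n * (1 / (J : ℝ)) := by ring
        _ ≤ n * (12 * L / k) := by gcongr
        _ = 12 * L * (n * (1 / (k : ℝ))) := by ring
        _ ≤ 12 * L * a ^ 2 := by gcongr
    · calc 1 / (J * (1 / (k : ℝ) ^ 2) * r) = k * (1 / (J : ℝ)) * k * (1 / r) := by field_simp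
        _ ≤ 12 * L * (2 * a) * a := by gcongr
        _ = 24 * L * a ^ 2 := by ring
    · calc n / (J * (1 / (k : ℝ) ^ 2)) = n * (k * (1 / (J : ℝ)) * k) := by field_simp
        _ ≤ n * (12 * L * (2 * a)) := by gcongr
        _ = 24 * L * (a ^ 2) ^ 2 := by rw [← ha3]; ring
    · calc (k : ℝ) / (J * (1 / (k : ℝ) ^ 2)) = k * (1 / (J : ℝ)) * k * k := by field_simp
        _ ≤ 12 * L * (2 * a) * (2 * a) := by gcongr
        _ = 48 * L * a ^ 2 := by ring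

/-- the sums over the stages -/
lemma sum_sqrt_le2 (n : ℕ) : ∑ N ∈ Finset.Ico 1 n, √(1 / (N : ℝ)) ≤ 2 * √n := by
  have h : ∀ n : ℕ, ∑ N ∈ Finset.Ico 1 (n + 1), √(1 / (N : ℝ)) ≤ 2 * √n := by
    intro n
    induction n with
    | zero => simp
    | succ n ih =>
      rw [Finset.sum_Ico_succ_top (by omega)]
      refine (add_le_add ih le_rfl).trans ?_
      have h0 : (0 : ℝ) < (n : ℝ) + 1 := by positivity
      have h1 : √(1 / ((n + 1 : ℕ) : ℝ)) = 1 / √((n : ℝ) + 1) := by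
        rw [Real.sqrt_div zero_le_one, Real.sqrt_one]; push_cast; rfl
      rw [h1]
      push_cast
      obtain ⟨a, ha⟩ : ∃ a, a = √(n : ℝ) := ⟨_, rfl⟩
      obtain ⟨b, hb⟩ : ∃ b, b = √((n : ℝ) + 1) := ⟨_, rfl⟩
      have ha0 : 0 ≤ a := by rw [ha]; positivity
      have hb0 : 0 < b := by rw [hb]; positivity
      have haa : a ^ 2 = n := by rw [ha, Real.sq_sqrt (Nat.cast_nonneg n)]
      have hbb : b ^ 2 = n + 1 := by rw [hb, Real.sq_sqrt h0.le]
      rw [← ha, ← hb]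
      have h2 : 1 / b * b = 1 := by field_simp
      have h3 : (2 * a + 1 / b) * b ≤ 2 * b * b := by
        rw [add_mul, h2]
        nlinarith [sq_nonneg (b - a)]
      exact le_of_mul_le_mul_right h3 hb0
  rcases Nat.eq_zero_or_pos n with rfl | hn
  · simp
  · obtain ⟨m, rfl⟩ : ∃ m, n = m + 1 := ⟨n - 1, by omega⟩
    refine (h m).trans ?_
    have : √(m : ℝ) ≤ √((m + 1 : ℕ) : ℝ) := Real.sqrt_le_sqrt (by push_cast; linarith)
    linarith

/-- the sum of errors of the form `A + B / N + 2 √(D / N)` over the stages; `hH` is the bound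
of the harmonic sum. -/
lemma sum_stage2 {n : ℕ} {A B D L : ℝ} (hA : 0 ≤ A) (hB : 0 ≤ B) (hD : 0 ≤ D)
    (hH : ∑ N ∈ Finset.Ico 1 n, (1 / (N : ℝ)) ≤ L) :
    ∑ N ∈ Finset.Ico 1 n, (A + B / N + 2 * √(D / N)) ≤ n * A + B * L + 4 * √(D * n) := by
  have hS := sum_sqrt_le2 n
  have e : ∀ N ∈ Finset.Ico 1 n, (A + B / N + 2 * √(D / N)) =
      A + B * (1 / (N : ℝ)) + 2 * √D * √(1 / (N : ℝ)) := by
    intro N hN
    have h1 : D / N = D * (1 / (N : ℝ)) := by ring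
    rw [h1, Real.sqrt_mul hD]
    ring
  rw [Finset.sum_congr rfl e, Finset.sum_add_distrib, Finset.sum_add_distrib, ← Finset.mul_sum,
    ← Finset.mul_sum, Finset.sum_const, Nat.card_Ico, nsmul_eq_mul]
  have h1 : ((n - 1 : ℕ) : ℝ) * A ≤ n * A := by
    have : ((n - 1 : ℕ) : ℝ) ≤ n := by exact_mod_cast Nat.sub_le n 1
    gcongr
  have h2 : B * ∑ N ∈ Finset.Ico 1 n, (1 / (N : ℝ)) ≤ B * L := by gcongr
  have h3 : 2 * √D * ∑ N ∈ Finset.Ico 1 n, √(1 / (N : ℝ)) ≤ 4 * √(D * n) := by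
    calc 2 * √D * ∑ N ∈ Finset.Ico 1 n, √(1 / (N : ℝ)) ≤ 2 * √D * (2 * √n) := by gcongr
      _ = 4 * (√D * √n) := by ring
      _ = 4 * √(D * n) := by rw [Real.sqrt_mul hD]
  linarith

/-- the cost of the fields with the strengths `lam / (r + (l - 2) / (32 k))` -/
lemma sum_strength {k : ℕ} (hk : 1 ≤ k) {r lam : ℝ} (hr : 0 < r) (hlam : 0 ≤ lam) :
    ∑ l ∈ Finset.Ico 1 (k + 2), lam / (r + ((l - 2 : ℕ) : ℝ) / (32 * k)) ≤
      lam * (2 / r + 32 * k * (1 + Real.log k)) := by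
  have hk0 : (0 : ℝ) < k := by exact_mod_cast hk
  have h1 : ∀ K : ℕ, 1 ≤ K → ∑ l ∈ Finset.Ico 1 (K + 2), lam / (r + ((l - 2 : ℕ) : ℝ) / (32 * k)) ≤
      lam * (2 / r + 32 * k * (1 + Real.log K)) := by
    intro K hK
    have h2 : ∑ l ∈ Finset.Ico 1 (K + 2), lam / (r + ((l - 2 : ℕ) : ℝ) / (32 * k)) ≤
        lam * (2 / r) + lam * (32 * k) * ∑ j ∈ Finset.range (K - 1), (1 / ((j : ℝ) + 1)) := by
      obtain ⟨m, rfl⟩ : ∃ m, K = m + 1 := ⟨K - 1, by omega⟩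
      clear hK
      induction m with
      | zero =>
        rw [show Finset.Ico 1 (0 + 1 + 2) = {1, 2} by rfl]
        rw [Finset.sum_pair (by norm_num)]
        simp
        rw [← two_mul]
        apply le_of_eq
        ring
      | succ m ih =>
        rw [show m + 1 + 1 + 2 = (m + 1 + 2) + 1 by ring, Finset.sum_Ico_succ_top (by omega)]
        rw [show m + 1 + 1 - 1 = (m + 1 - 1) + 1 by omega, Finset.sum_range_succ]
        have e1 : m + 1 + 2 - 2 = m + 1 := by omega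
        have e2 : m + 1 - 1 = m := by omega
        rw [e1]
        rw [e2] at ih ⊢
        have h3 : lam / (r + ((m + 1 : ℕ) : ℝ) / (32 * k)) ≤
            lam * (32 * k) * (1 / ((m : ℝ) + 1)) := by
          have h4 : lam / (r + ((m + 1 : ℕ) : ℝ) / (32 * k)) ≤
              lam / (((m + 1 : ℕ) : ℝ) / (32 * k)) := by
            refine div_le_div_of_nonneg_left hlam (by positivity) (by linarith)
          refine h4.trans (le_of_eq ?_)
          push_cast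
          field_simp
        linarith
    refine h2.trans ?_
    have h5 : ∑ j ∈ Finset.range (K - 1), (1 / ((j : ℝ) + 1)) ≤ 1 + Real.log K := by
      have h6 : ∑ j ∈ Finset.range (K - 1), (1 / ((j : ℝ) + 1)) ≤
          ∑ j ∈ Finset.range K, (1 / ((j : ℝ) + 1)) := by
        refine Finset.sum_le_sum_of_subset_of_nonneg
          (Finset.range_mono (Nat.sub_le K 1)) fun i _ _ => by positivity
      refine h6.trans ?_
      have h7 := harmonic_le_one_add_log K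
      have h8 : ((harmonic K : ℚ) : ℝ) = ∑ j ∈ Finset.range K, (1 / ((j : ℝ) + 1)) := by
        simp [harmonic, one_div]
      rw [← h8]
      exact h7
    have h9 : lam * (32 * k) * ∑ j ∈ Finset.range (K - 1), (1 / ((j : ℝ) + 1)) ≤
        lam * (32 * k) * (1 + Real.log K) := by gcongr
    linarith
  exact h1 k hk

end Vale.Agent.P146.H737
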