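import Vale.Agent.P146.H425.Tele
import Vale.Agent.P146.H327.SumN
import Vale.Agent.P146.H737.Tmx
import Vale.Agent.P146.H737.Num2

set_option linter.all false

/-!
The rate of one small exponential moment, `n^{2/3}` without any power of the exponent, from the
quadratic form of the cavity step and the averaged errors of the stages with the strengths which
depend on the level.
-/

open MeasureTheory ProbabilityTheory

namespace Vale.Agent.P146.H737

open Vale.Agent.P157 Vale.Agent.P157.Lv Vale.Agent.P157.Lv.Sy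
open Vale.Agent.P157.Par (Path Exponents)
open Vale.Agent.P146 (freeEnergy disorder)
open Vale.Agent.P146.Sk (PSK)
open Vale.Agent.P146.H425 Vale.Agent.P146.Gp.Avg

/-- The strengths of the fields. -/
noncomputable def svx (lam r : ℝ) (k : ℕ) : ℕ → ℝ := fun l =>
  if l = 0 then 0 else √(lam / (r + ((l - 2 : ℕ) : ℝ) / (32 * k)))

theorem svx_nonneg (lam r : ℝ) (k l : ℕ) : 0 ≤ svx lam r k l := by
  unfold svx
  split_ifs
  · exact le_rfl
  · exact Real.sqrt_nonneg _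

theorem sum_svx_sq {k : ℕ} {lam r : ℝ} (hk : 1 ≤ k) (hlam : 0 ≤ lam) (hr : 0 < r) :
    ∑ j ∈ Finset.range (k + 1 + 1), svx lam r k j ^ 2 ≤
      lam * (2 / r + 32 * k * (1 + Real.log k)) := by
  refine le_trans (le_of_eq ?_) (sum_strength hk hr hlam)
  rw [Finset.sum_range_succ', Finset.sum_Ico_eq_sum_range]
  have h0 : svx lam r k 0 ^ 2 = 0 := by simp [svx]
  rw [h0, add_zero]
  refine Finset.sum_congr (by congr 1) fun j _ => ?_
  unfold svx
  rw [if_neg (by omega), Real.sq_sqrt (by positivity), add_comm j 1]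

/-- The averaged errors of the stages, `K0` a constant. -/
def C3 (β K0 : ℝ) : Prop := ∀ (n k J : ℕ) (r lam G C0 C : ℝ), 0 ≤ C → 0 < r → r ≤ 1 / 2 →
  0 < lam → 0 < J → 4 * (J : ℝ) * Real.exp (-((k : ℝ) / J)) ≤ 1 →
  (∀ m : ℕ → ℝ, Exponents (k + 1) m → m 1 = r →
    G ≤ C0 + ∑ N ∈ Finset.Ico 1 n, C * Vs n (k + 1) m β N (svx lam r k)) →
  G ≤ C0 + ∑ N ∈ Finset.Ico 1 n, C * (24 / J + 4 / (J * (N * lam * r)) +
    2 * √(5 * Real.log (1 / r) / (J * (N * lam))) + K0 * k / (J * (lam * N)))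

/-- The rate of one exponential moment, without any power of the exponent. -/
theorem tmz {β : ℝ} (hβ : 1 ≤ β) {C : ℝ} (hC : 0 ≤ C) (hQ : QSt β C) {K0 : ℝ} (hK0 : 0 ≤ K0)
    (h3 : C3 β K0) :
    ∃ D : ℝ, 0 ≤ D ∧ ∀ n : ℕ, 1 ≤ n → ∀ r : ℝ, 0 < r → r ≤ 1 / 2 → 1 ≤ r ^ 3 * n →
      n * (Real.log 2 + Sh.Vx β r) ≤
        1 / r * Real.log (∫ g, Real.exp (r * freeEnergy n β g) ∂(disorder n)) +
          D * (1 + Real.log n) ^ 2 * (n : ℝ) ^ (2 / 3 : ℝ) := by
  refine ⟨33 + β ^ 2 / 4 + C * (1000 + 48 * K0), by positivity, fun n hn r hr hr2 hrn => ?_⟩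
  obtain ⟨k, hk, lam, -, hlam, hlam1, hG1, -, hfield, -, hterms⟩ := params2 hn hr hr2 hrn
  obtain ⟨J, hJ, hJk, hJe, hJl⟩ := exists_J hk
  obtain ⟨t1, t2, t3, t4⟩ := hterms J hJ hJl
  obtain ⟨G, hG⟩ : ∃ G, G = (n : ℝ) ^ (2 / 3 : ℝ) := ⟨_, rfl⟩
  obtain ⟨L, hL⟩ : ∃ L, L = 1 + Real.log (n : ℝ) := ⟨_, rfl⟩
  have hn1 : (1 : ℝ) ≤ n := by exact_mod_cast hn
  have hn0 : (0 : ℝ) < n := by linarith
  have hlogn : 0 ≤ Real.log (n : ℝ) := Real.log_natCast_nonneg n
  have hL1 : 1 ≤ L := by linarith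
  have hJ0 : (0 : ℝ) < J := by exact_mod_cast hJ
  have hk0 : (0 : ℝ) < k := by
    have : 0 < k := by omega
    exact_mod_cast this
  -- the chain inequality
  have hchain : ∀ m : ℕ → ℝ, Exponents (k + 1) m → m 1 = r →
      n * (Real.log 2 + Sh.Vx β r) -
          1 / r * Real.log (∫ g, Real.exp (r * freeEnergy n β g) ∂(disorder n)) ≤
        (n * (lam * (2 / r + 32 * k * (1 + Real.log k))) / 2 + β ^ 2 / 4 +
          C * (1 + Real.log n)) +
          ∑ N ∈ Finset.Ico 1 n, C * Vs n (k + 1) m β N (svx lam r k) := by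
    intro m hm hm1
    have h1 := tele (s := svx lam r k) (Lb := Sh.Vx β r) hQ hC (by omega : 1 ≤ k + 1) hm
      (fun l _ => svx_nonneg lam r k l)
      (fun q hq hq1 hq0 => Vx_le hβ hm hq hq1 hq0 hm1.ge) hn
    rw [hm1] at h1
    rw [← Finset.mul_sum]
    have h2 := sum_svx_sq (k := k) (by omega) hlam.le hr
    have h4 : n * (∑ j ∈ Finset.range (k + 1 + 1), svx lam r k j ^ 2) / 2 ≤
        n * (lam * (2 / r + 32 * k * (1 + Real.log k))) / 2 := by gcongr
    linarith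
  have h1 := h3 n k J r lam _ _ C hC hr hr2 hlam hJ hJe hchain
  -- the sum over the stages
  have hlr : Real.log (1 / r) ≤ L := by
    have e1 : 1 / r ≤ n := by
      rw [div_le_iff₀ hr]
      have : r ^ 3 ≤ r := by
        calc r ^ 3 = r * r ^ 2 := by ring
          _ ≤ r * 1 := mul_le_mul_of_nonneg_left (pow_le_one₀ hr.le (by linarith)) hr.le
          _ = r := mul_one r
      nlinarith
    have := Real.log_le_log (by positivity) e1
    linarith
  have hlr0 : 0 ≤ Real.log (1 / r) := by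
    refine Real.log_nonneg ?_
    rw [le_div_iff₀ hr]
    linarith
  have hH : ∑ N ∈ Finset.Ico 1 n, (1 / (N : ℝ)) ≤ L := by
    rw [hL]
    exact Ub.Ld.sum_one_div_le n
  have h2 := sum_stage2 (n := n) (A := 24 / J) (B := 4 / (J * lam * r) + K0 * k / (J * lam))
    (D := 5 * Real.log (1 / r) / (J * lam)) (by positivity) (by positivity) (by positivity) hH
  have e : ∀ N ∈ Finset.Ico 1 n, C * (24 / (J : ℝ) + 4 / (J * (N * lam * r)) +
      2 * √(5 * Real.log (1 / r) / (J * (N * lam))) + K0 * k / (J * (lam * N))) =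
      C * (24 / J + (4 / (J * lam * r) + K0 * k / (J * lam)) / N +
        2 * √(5 * Real.log (1 / r) / (J * lam) / N)) := by
    intro N hN
    have hN0 : (0 : ℝ) < N := by
      rw [Finset.mem_Ico] at hN
      exact_mod_cast (by omega : 0 < N)
    have a1 : 5 * Real.log (1 / r) / (J * (N * lam)) = 5 * Real.log (1 / r) / (J * lam) / N := by
      field_simp
    have a2 : 4 / (J * (N * lam * r)) + K0 * k / (J * (lam * N)) =
        (4 / (J * lam * r) + K0 * k / (J * lam)) / N := by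
      field_simp
    rw [a1, ← a2]
    ring
  rw [Finset.sum_congr rfl e, ← Finset.mul_sum] at h1
  have h5 := mul_le_mul_of_nonneg_left h2 hC
  rw [← hL] at h1 hfield t1 t2 t3 t4 ⊢
  rw [← hG] at hG1 hfield t1 t2 t3 t4 ⊢
  have hG0 : 0 < G := by linarith
  have hLG : L * G ≤ L ^ 2 * G := by
    have : L ≤ L ^ 2 := by nlinarith
    gcongr
  have hLL : L ≤ L ^ 2 * G := by
    have : L ≤ L * G := le_mul_of_one_le_right (by linarith) hG1
    linarith
  have hP1 : 1 ≤ L ^ 2 * G := by linarith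
  have b1 : (n : ℝ) * (24 / J) ≤ 288 * (L ^ 2 * G) := by
    have : (n : ℝ) * (24 / J) = 24 * (n / J) := by ring
    rw [this]
    linarith
  have b2 : (4 / (J * lam * r) + K0 * k / (J * lam)) * L ≤ (96 + 48 * K0) * (L ^ 2 * G) := by
    have c1 : 4 / (J * lam * r) = 4 * (1 / (J * lam * r)) := by ring
    have c2 : K0 * k / (J * lam) = K0 * (k / (J * lam)) := by ring
    rw [c1, c2]
    calc (4 * (1 / (J * lam * r)) + K0 * (k / (J * lam))) * L ≤
          (4 * (24 * L * G) + K0 * (48 * L * G)) * L := by gcongr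
      _ = (96 + 48 * K0) * (L ^ 2 * G) := by ring
  have b3 : 4 * √(5 * Real.log (1 / r) / (J * lam) * n) ≤ 44 * (L ^ 2 * G) := by
    have c1 : 5 * Real.log (1 / r) / (J * lam) * n ≤ (11 * (L * G)) ^ 2 := by
      calc 5 * Real.log (1 / r) / (J * lam) * n = 5 * Real.log (1 / r) * (n / (J * lam)) := by ring
        _ ≤ 5 * L * (24 * L * G ^ 2) := by gcongr
        _ = 120 * (L * G) ^ 2 := by ring
        _ ≤ 121 * (L * G) ^ 2 := mul_le_mul_of_nonneg_right (by norm_num) (by positivity)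
        _ = (11 * (L * G)) ^ 2 := by ring
    have c2 := Real.sqrt_le_sqrt c1
    rw [Real.sqrt_sq (by positivity)] at c2
    linarith
  have b4 : n * (lam * (2 / r + 32 * k * (1 + Real.log k))) / 2 ≤ 33 * (L ^ 2 * G) := by
    linarith
  have b5 : β ^ 2 / 4 ≤ β ^ 2 / 4 * (L ^ 2 * G) := le_mul_of_one_le_right (by positivity) hP1
  have b6 : C * L ≤ C * (L ^ 2 * G) := mul_le_mul_of_nonneg_left hLL hC
  have b7 : C * (n * (24 / J) + (4 / (J * lam * r) + K0 * k / (J * lam)) * L +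
      4 * √(5 * Real.log (1 / r) / (J * lam) * n)) ≤
      C * (288 * (L ^ 2 * G) + (96 + 48 * K0) * (L ^ 2 * G) + 44 * (L ^ 2 * G)) := by gcongr
  have hP0 : 0 ≤ C * (L ^ 2 * G) := by positivity
  have e5 : (33 + β ^ 2 / 4 + C * (1000 + 48 * K0)) * L ^ 2 * G =
      33 * (L ^ 2 * G) + β ^ 2 / 4 * (L ^ 2 * G) +
        (1000 * (C * (L ^ 2 * G)) + 48 * (K0 * (C * (L ^ 2 * G)))) := by ring
  have e6 : C * (288 * (L ^ 2 * G) + (96 + 48 * K0) * (L ^ 2 * G) + 44 * (L ^ 2 * G)) =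
      428 * (C * (L ^ 2 * G)) + 48 * (K0 * (C * (L ^ 2 * G))) := by ring
  rw [e5]
  rw [e6] at b7
  linarith

/-- **Stage 1**, without any power of the exponent. -/
theorem tmh_of_C3 {β : ℝ} (hβ : 1 ≤ β) {C : ℝ} (hC : 0 ≤ C) (hQ : QSt β C) {K0 : ℝ}
    (hK0 : 0 ≤ K0) (h3 : C3 β K0) :
    ∃ D : ℝ, 0 ≤ D ∧ ∀ n : ℕ, 1 ≤ n → ∀ r : ℝ, 0 < r → r ≤ 1 / 2 → 1 ≤ r ^ 6 * n →
      n * (Real.log 2 + Sh.Vx β r) ≤
        1 / r * Real.log (∫ g, Real.exp (r * freeEnergy n β g) ∂(disorder n)) +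
          D * (1 + Real.log n) ^ 2 * ((n : ℝ) ^ (2 / 3 : ℝ) * r ^ (-(0 : ℝ))) := by
  obtain ⟨D, hD, h⟩ := tmz hβ hC hQ hK0 h3
  refine ⟨D, hD, fun n hn r hr hr2 hr6 => ?_⟩
  have h1 : r ^ 6 ≤ r ^ 3 := pow_le_pow_of_le_one hr.le (by linarith) (by norm_num)
  have h2 : r ^ 6 * n ≤ r ^ 3 * n := mul_le_mul_of_nonneg_right h1 (Nat.cast_nonneg n)
  have h3 := h n hn r hr hr2 (by linarith)
  rw [neg_zero, Real.rpow_zero, mul_one]
  exact h3

end Vale.Agent.P146.H737
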