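import Vale.Agent.P146.H260.Asm5
import Vale.Agent.P146.H260.XQ7U
import Vale.Agent.P146.H737.Fin
import Vale.Agent.P146.H737.Tmy

set_option linter.all false

/-!
The end assembly with the rate `n^{2/3}` of one small exponential moment (no power of the
exponent), from the averaged errors of the stages.
-/

open MeasureTheory ProbabilityTheory Filter Topology

namespace Vale.Agent.P146.H737

open Vale.Agent.P146 Vale.Agent.P146.H605 Vale.Agent.P146.H260.Asm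

theorem tmh2_of {β : ℝ} (hβ : 1 ≤ β) {K0 : ℝ} (hK0 : 0 ≤ K0) (h3 : C3 β K0) :
    TMh β (2 / 3) 0 2 :=
  tmh_of_C3 hβ (H784.Cq_nonneg β) (qst (by linarith)) hK0 h3

theorem tm2_of {β : ℝ} (hβ : 1 ≤ β) {K0 : ℝ} (hK0 : 0 ≤ K0) (h3 : C3 β K0) :
    TM β (2 / 3) 0 2 :=
  (tmh2_of hβ hK0 h3).tm hβ (by norm_num) le_rfl

/-- **The end assembly with the rate `n^{2/3}`.** -/
theorem final2_of {K0 : ℝ} (hK0 : 0 ≤ K0) (h3 : ∀ β : ℝ, 1 < β → C3 β K0) :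
    ∃ Λ : ℝ → ℝ, Tendsto Λ (𝓝[>] 1) (𝓝 (9 / 5120)) ∧ ∀ β : ℝ, 1 < β → 0 < Λ β ∧
      ∃ p κ₀ C : ℝ, 0 < κ₀ ∧ AllG β (1 / 15) (2 / 3) 0 2 7 (9 / 16) (Λ β) p κ₀ C :=
  final_g (θ := 1 / 15) (a := 2 / 3) (c := 0) (w := 9 / 16) (k := 2) (D := 7) le_rfl
    (by norm_num) (by norm_num) (by norm_num) (by norm_num) (by norm_num) (by norm_num)
    (fun β hβ => tmh2_of hβ.le hK0 (h3 β hβ)) (fun β hβ => tm2_of hβ.le hK0 (h3 β hβ))
    fun β hβ => Vale.Agent.P146.H260.XQ7.lowD7 hβ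

end Vale.Agent.P146.H737
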