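import Vale.Agent.P146.H425.LowA
import Vale.Agent.P146.H641.Flat
import Vale.Agent.P146.H737.Asm6

set_option linter.all false

/-!
The variance grows faster than `n ^ γ` for every `γ < 2 / 15`, and the bounds with the rate
`n^{2/3}`, from the averaged errors of the stages.
-/

open MeasureTheory ProbabilityTheory Filter Topology

namespace Vale.Agent.P146.H737

open Vale.Agent.P146 Vale.Agent.P146.H605 Vale.Agent.P146.H260.Asm Vale.Agent.P146.H425.LowT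
open Vale.Agent.P146.H425.LowA (var_of_moment)

/-- **The variance grows faster than `n ^ γ` for every `γ < 2 / 15`, at every temperature below
the critical one**, and so does the chaos profile. -/
theorem var_low2_of {K0 : ℝ} (hK0 : 0 ≤ K0) (h3 : ∀ β : ℝ, 1 < β → C3 β K0)
    (hF : ∃ c : ℝ, 0 < c ∧ Flat c) {β : ℝ} (hβ : 1 < β) (γ : ℝ) (hγ : γ < 2 / 15) :
    ∀ᶠ n : ℕ in atTop, (n : ℝ) ^ γ ≤ Var[freeEnergy n β; disorder n] ∧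
      ∃ t : ℝ, 0 ≤ t ∧ t < 1 ∧ (n : ℝ) ^ γ ≤ n * (1 - t) * crossOverlap n β t := by
  obtain ⟨c, hc, hF⟩ := hF
  obtain ⟨Λ, -, h⟩ := final2_of hK0 h3
  obtain ⟨h0, p, k, D, -, -, h2, h4, -⟩ := h β hβ
  have hV : ∀ γ : ℝ, γ < 2 / 15 → ∀ᶠ n : ℕ in atTop,
      (n : ℝ) ^ γ ≤ Var[freeEnergy n β; disorder n] := fun γ hγ =>
    var_of_moment hc hF (by linarith) h0 (θ := 1 / 15) (by norm_num) (by norm_num)
      (fun n hn => (h4 n hn).1) (fun ε hε a ha => by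
        obtain ⟨δ, hδ, h5⟩ := h2 ε hε a ha
        exact ⟨δ, hδ, h5.mono fun n hn => hn.1⟩) γ (by linarith)
  filter_upwards [hV γ hγ, Tb.prof_grow (by norm_num : (0 : ℝ) < 2 / 15) hV γ hγ] with n h5 h6
  exact ⟨h5, h6⟩

/-- The statement of `VarianceBounds2` with the rate `n^{2/3}`. -/
theorem bounds3_of {K0 : ℝ} (hK0 : 0 ≤ K0) (hC3 : ∀ β : ℝ, 1 < β → C3 β K0) :
    ∃ Λ : ℝ → ℝ, Tendsto Λ (𝓝[>] 1) (𝓝 (9 / 5120)) ∧
    ∀ β : ℝ, 1 < β → 0 < Λ β ∧ ∃ p k D : ℝ, 0 < k ∧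
    Tendsto (fun n : ℕ => (∫ g, freeEnergy n β g ∂(disorder n)) / n) atTop (𝓝 p) ∧
    -- the sharp moment law and the sharp upper tail
    (∀ ε : ℝ, 0 < ε → ∀ a : ℝ, a < 1 / 15 → ∃ δ : ℝ, 0 < δ ∧ ∀ᶠ n : ℕ in atTop,
      (∀ x : ℝ, (n : ℝ) ^ (-a) ≤ x → x ≤ δ →
        |Real.log (∫ g, Real.exp (x * (freeEnergy n β g - n * p)) ∂(disorder n)) -
          Λ β * n * x ^ 6| ≤ ε * n * x ^ 6) ∧
      (∀ s : ℝ, (n : ℝ) ^ (-(5 * a)) ≤ s → s ≤ δ →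
        |Real.log ((disorder n).real {g | n * (p + s) ≤ freeEnergy n β g}) +
          5 / 6 * (6 * Λ β) ^ (-(1 / 5) : ℝ) * n * s ^ (6 / 5 : ℝ)| ≤
            ε * n * s ^ (6 / 5 : ℝ))) ∧
    -- upper bounds
    (∀ n : ℕ, 1 ≤ n →
      0 ≤ n * p - ∫ g, freeEnergy n β g ∂(disorder n) ∧
      n * p - ∫ g, freeEnergy n β g ∂(disorder n) ≤
        D * (n : ℝ) ^ (2 / 3 : ℝ) * (1 + Real.log n) ^ 3 ∧
      Var[freeEnergy n β; disorder n] ≤ D * (n : ℝ) ^ (11 / 15 : ℝ) * (1 + Real.log n) ^ 4 ∧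
      (∀ t : ℝ, 0 ≤ t →
        (disorder n).real {g | t * ((n : ℝ) ^ (11 / 30 : ℝ) * (1 + Real.log n) ^ 2) ≤
          |freeEnergy n β g - ∫ g, freeEnergy n β g ∂(disorder n)|} ≤ D * Real.exp (-(k * t))) ∧
      (∀ t : ℝ, 0 ≤ t →
        (disorder n).real {g | freeEnergy n β g ≤ ∫ g, freeEnergy n β g ∂(disorder n) - t} ≤
          Real.exp (-(k * t ^ 2 / ((n : ℝ) ^ (13 / 15 : ℝ) * (1 + Real.log n) ^ 2)))) ∧
      (∀ t : ℝ, 0 ≤ t → t < 1 →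
        (1 - t) * (β ^ 2 / 2 * (n * crossOverlap n β t - 1)) ≤ D * (n : ℝ) ^ (1 / 5 : ℝ) *
          (1 + (n * p - ∫ g, freeEnergy n β g ∂(disorder n))) ^ (4 / 5 : ℝ) ∧
        crossOverlap n β t ≤ D * (n : ℝ) ^ (-(4 / 15) : ℝ) * (1 + Real.log n) ^ 3 / (1 - t)) ∧
      (∀ t : ℝ, 0 ≤ t → t ≤ 1 →
        (1 - 1 / β) ^ 2 - D * (n : ℝ) ^ (-(1 / 6) : ℝ) * (1 + Real.log n) ^ (3 / 2 : ℝ) -
          (1 - t) * (β ^ 2 * n / 2) ≤ crossOverlap n β t) ∧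
      -- the mean through one small exponential moment
      (∀ r : ℝ, 0 < r → r ≤ 1 / (16 * (1 + Real.log n)) →
        n * p - ∫ g, freeEnergy n β g ∂(disorder n) ≤
          2 * (n * p - 1 / r * Real.log (∫ g, Real.exp (r * freeEnergy n β g) ∂(disorder n))) +
            D * n * r ^ 5 * (1 + Real.log n) ^ 5 + D)) ∧
    (∀ n : ℕ, 1 ≤ n → ∀ r : ℝ, 0 < r → r ≤ 1 → 1 ≤ r ^ 6 * n →
        n * p - 1 / r * Real.log (∫ g, Real.exp (r * freeEnergy n β g) ∂(disorder n)) ≤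
          D * (1 + Real.log n) ^ 2 * (n : ℝ) ^ (2 / 3 : ℝ)) ∧
    -- the variance against the finite-size correction of the mean
    (∀ n : ℕ, 1 ≤ n → Var[freeEnergy n β; disorder n] ≤
      D * (1 + Real.log n) * ((n : ℝ) ^ (1 / 5 : ℝ) *
        (1 + (n * p - ∫ g, freeEnergy n β g ∂(disorder n))) ^ (4 / 5 : ℝ))) ∧
    -- lower bounds
    (∀ n : ℕ, 1 ≤ n → ∀ m : ℝ, (n : ℝ) ^ (9 / 16 : ℝ) ≤ m →
      n * p - ∫ g, freeEnergy n β g ∂(disorder n) ≤ m → ∀ y u : ℝ, 0 < u →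
      (disorder n).real {g | |freeEnergy n β g - y| ≤ u} ≤
        D * (u + 1) * (m / n) ^ (1 / 7 : ℝ)) ∧
    (∀ᶠ n : ℕ in atTop, ∀ m : ℝ, (n : ℝ) ^ (9 / 16 : ℝ) ≤ m →
      n * p - ∫ g, freeEnergy n β g ∂(disorder n) ≤ m →
      k * (n / m) ^ (2 / 7 : ℝ) ≤ Var[freeEnergy n β; disorder n]) := by
  obtain ⟨Λ, hΛ, h⟩ := final2_of hK0 hC3
  refine ⟨Λ, hΛ, fun β hβ => ?_⟩
  obtain ⟨h0, p, k, D, hk, h1, h2, h3, h4, h5, h6, h7, -, -⟩ := h β hβ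
  refine ⟨h0, p, k, D, hk, h1, h2, fun n hn => ?_, fun n hn r hr hr1 hr6 => ?_, h5, ?_, ?_⟩
  · have g := h3 n hn
    have e1 : (1 : ℝ) - 5 * (1 / 15) = 2 / 3 := by norm_num
    have e2 : (1 : ℝ) - 4 * (1 / 15) = 11 / 15 := by norm_num
    have e3 : (11 : ℝ) / 15 / 2 = 11 / 30 := by norm_num
    have e4 : (1 : ℝ) - 2 * (1 / 15) = 13 / 15 := by norm_num
    have e5 : (4 : ℝ) * (1 / 15) = 4 / 15 := by norm_num
    have e5' : (1 : ℝ) - 4 / 15 = 11 / 15 := by norm_num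
    have e6 : (5 : ℝ) * (1 / 15) / 2 = 1 / 6 := by norm_num
    have e7 : (((2 + 1 : ℕ) : ℝ) + 1) / 2 = ((2 : ℕ) : ℝ) := by norm_num
    have e8 : ((2 + 1 : ℕ) : ℝ) / 2 = 3 / 2 := by norm_num
    simp only [e1, e2, e3, e4, e5, e5', e6, e7, e8, Real.rpow_natCast] at g
    exact g
  · have h8 := h4 n hn r hr hr1 hr6
    rwa [neg_zero, Real.rpow_zero, mul_one] at h8
  · have e1 : (1 : ℝ) / ((7 : ℕ) : ℝ) = 1 / 7 := by norm_num
    simp only [e1] at h6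
    exact h6
  · have e1 : (2 : ℝ) / ((7 : ℕ) : ℝ) = 2 / 7 := by norm_num
    simp only [e1] at h7
    exact h7

end Vale.Agent.P146.H737
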