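import Vale.Agent.P146.H391.Fin
import Vale.Agent.P146.H737.LowC

set_option linter.all false

/-!
The rate `n^{2/3}`, the sharp moment law down to `n^{-1/15}`, and the variance above `n^{2/15}`,
without any hypothesis.
-/

open MeasureTheory ProbabilityTheory Filter Topology

namespace Vale.Agent.P146.H737

open Vale.Agent.P146 Vale.Agent.P146.H605 Vale.Agent.P146.H260.Asm

/-- The averaged errors of the stages. -/
theorem c3 (β : ℝ) : C3 β 6400 := by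
  intro n k J r lam G C0 C hC hr hr1 hlam hJ h2 chain
  exact H391.sumN3 hC hr hr1 hlam hJ h2 chain

/-- The rate of one small exponential moment: `n^{2/3}`. -/
theorem tmh2 {β : ℝ} (hβ : 1 ≤ β) : TMh β (2 / 3) 0 2 := tmh2_of hβ (by norm_num) (c3 β)

theorem tm2 {β : ℝ} (hβ : 1 ≤ β) : TM β (2 / 3) 0 2 := tm2_of hβ (by norm_num) (c3 β)

/-- **The end assembly with the rate `n^{2/3}`.** -/
theorem final2 : ∃ Λ : ℝ → ℝ, Tendsto Λ (𝓝[>] 1) (𝓝 (9 / 5120)) ∧ ∀ β : ℝ, 1 < β → 0 < Λ β ∧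
    ∃ p κ₀ C : ℝ, 0 < κ₀ ∧ AllG β (1 / 15) (2 / 3) 0 2 7 (9 / 16) (Λ β) p κ₀ C :=
  final2_of (by norm_num) fun β _ => c3 β

/-- **The variance grows faster than `n ^ γ` for every `γ < 2 / 15`.** -/
theorem var_low2 {β : ℝ} (hβ : 1 < β) (γ : ℝ) (hγ : γ < 2 / 15) :
    ∀ᶠ n : ℕ in atTop, (n : ℝ) ^ γ ≤ Var[freeEnergy n β; disorder n] ∧
      ∃ t : ℝ, 0 ≤ t ∧ t < 1 ∧ (n : ℝ) ^ γ ≤ n * (1 - t) * crossOverlap n β t :=
  var_low2_of (by norm_num) (fun β _ => c3 β) H641.flat' hβ γ hγ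

end Vale.Agent.P146.H737
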