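import Vale.Agent.P146.H737.GMd

/-!
The flatness of a random positive semidefinite matrix which is concentrated near the upper edge of
the matrix of the couplings.
-/

open MeasureTheory ProbabilityTheory

namespace Vale.Agent.P146.H737

open Vale.Agent.P157.Lv Matrix
open Vale.Agent.P146.H332 (diag_sym Psd)
open Vale.Agent.P146.H499 (Zm)

set_option linter.unusedSectionVars false

variable {n : ℕ}

lemma bern (x : ℝ) (p : ℕ) : 1 + 2 * p * (x - 1) ≤ x ^ (2 * p) := by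
  have e1 : x ^ (2 * p) = |x| ^ (2 * p) := by rw [pow_mul, pow_mul, sq_abs]
  have h1 := one_add_mul_le_pow (a := |x| - 1) (by linarith [abs_nonneg x]) (2 * p)
  have h2 : 2 * (p : ℝ) * (x - 1) ≤ 2 * (p : ℝ) * (|x| - 1) :=
    mul_le_mul_of_nonneg_left (by linarith [le_abs_self x]) (by positivity)
  rw [e1]
  push_cast at h1
  rw [show (1 : ℝ) + (|x| - 1) = |x| by ring] at h1
  linarith

/-- Bernoulli's inequality in the weight of a positive semidefinite matrix -/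
lemma psd_bern {Q X : Matrix (Fin n) (Fin n) ℝ} (hQ : Psd Q) (hX : Xᵀ = X) (p : ℕ) :
    (∑ i, ∑ j, Q i j * (X ^ 0) i j) + 2 * p * ((∑ i, ∑ j, Q i j * X i j) -
      ∑ i, ∑ j, Q i j * (X ^ 0) i j) ≤ ∑ i, ∑ j, Q i j * (X ^ (2 * p)) i j := by
  obtain ⟨U, l, u1, u2, u3⟩ := diag_sym hX
  have e1 : ∀ k, ∑ i, ∑ j, Q i j * (X ^ k) i j =
      ∑ a, l a ^ k * ∑ i, ∑ j, U i a * U j a * Q i j := by
    intro k
    simp only [pow_ent u2 u1 u3, Finset.mul_sum]
    calc ∑ i, ∑ j, ∑ a, Q i j * (l a ^ k * (U i a * U j a)) =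
        ∑ i, ∑ a, ∑ j, Q i j * (l a ^ k * (U i a * U j a)) :=
          Finset.sum_congr rfl fun i _ => Finset.sum_comm
      _ = ∑ a, ∑ i, ∑ j, Q i j * (l a ^ k * (U i a * U j a)) := Finset.sum_comm
      _ = _ := Finset.sum_congr rfl fun a _ => Finset.sum_congr rfl fun i _ =>
          Finset.sum_congr rfl fun j _ => by ring
  have e2 := e1 1
  simp only [pow_one] at e2
  rw [e1 0, e1 (2 * p), e2, ← Finset.sum_sub_distrib, Finset.mul_sum, ← Finset.sum_add_distrib]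
  refine Finset.sum_le_sum fun a _ => ?_
  have h1 := mul_le_mul_of_nonneg_right (bern (l a) p) (hQ.2 fun i => U i a)
  simp only [pow_zero, one_mul]
  linarith

lemma cs_mat {Q B : (Pair n → ℝ) → Matrix (Fin n) (Fin n) ℝ} (hQ : ∀ i j, EG fun z => Q z i j)
    (hB : ∀ i j, EG fun z => B z i j) :
    (∫ z, ∑ i, ∑ j, Q z i j * B z i j ∂(gI (Pair n))) ^ 2 ≤
      (∫ z, ∑ i, ∑ j, Q z i j ^ 2 ∂(gI (Pair n))) *
        ∫ z, ∑ i, ∑ j, B z i j ^ 2 ∂(gI (Pair n)) := by
  have q1 : EG fun z => ∑ i, ∑ j, Q z i j ^ 2 :=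
    EG.sum _ fun i _ => EG.sum _ fun j _ => (hQ i j).pow 2
  have q2 : EG fun z => ∑ i, ∑ j, B z i j ^ 2 :=
    EG.sum _ fun i _ => EG.sum _ fun j _ => (hB i j).pow 2
  have q3 : EG fun z => ∑ i, ∑ j, Q z i j * B z i j :=
    EG.sum _ fun i _ => EG.sum _ fun j _ => (hQ i j).mul (hB i j)
  have h0 : ∀ t : ℝ, 0 ≤ (∫ z, ∑ i, ∑ j, Q z i j ^ 2 ∂(gI (Pair n))) * (t * t) +
      (2 * ∫ z, ∑ i, ∑ j, Q z i j * B z i j ∂(gI (Pair n))) * t +
      ∫ z, ∑ i, ∑ j, B z i j ^ 2 ∂(gI (Pair n)) := by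
    intro t
    have h1 : 0 ≤ ∫ z, ∑ i, ∑ j, (t * Q z i j + B z i j) ^ 2 ∂(gI (Pair n)) :=
      integral_nonneg fun z => Finset.sum_nonneg fun i _ => Finset.sum_nonneg fun j _ =>
        sq_nonneg _
    have e : (fun z => ∑ i, ∑ j, (t * Q z i j + B z i j) ^ 2) = fun z =>
        (t * t) * (∑ i, ∑ j, Q z i j ^ 2) + ((2 * t) * (∑ i, ∑ j, Q z i j * B z i j) +
          ∑ i, ∑ j, B z i j ^ 2) := by
      funext z
      simp only [Finset.mul_sum, ← Finset.sum_add_distrib]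
      exact Finset.sum_congr rfl fun i _ => Finset.sum_congr rfl fun j _ => by ring
    rw [e, integral_add (q1.const_mul _).integrable ((q3.const_mul _).add q2).integrable,
      integral_add (q3.const_mul _).integrable q2.integrable,
      integral_const_mul, integral_const_mul] at h1
    linarith
  have h3 := discrim_le_zero h0
  unfold discrim at h3
  linarith

lemma sum_sq_eq (X : Matrix (Fin n) (Fin n) ℝ) (hX : Xᵀ = X) (m : ℕ) :
    ∑ i, ∑ j, (X ^ m) i j ^ 2 = (X ^ (2 * m)).trace := by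
  have h1 : (X ^ m)ᵀ = X ^ m := by rw [transpose_pow, hX]
  rw [two_mul, pow_add]
  unfold Matrix.trace
  refine Finset.sum_congr rfl fun i _ => ?_
  rw [diag_apply, mul_apply]
  refine Finset.sum_congr rfl fun j _ => ?_
  have : (X ^ m) j i = (X ^ m) i j := by
    conv_lhs => rw [← h1]
    rw [transpose_apply]
  rw [this, sq]

/-- **Flatness.** -/
theorem fl0 (hn : 0 < n) {Q : (Pair n → ℝ) → Matrix (Fin n) (Fin n) ℝ} (hQ : ∀ z, Psd (Q z))
    (hE : ∀ i j, EG fun z => Q z i j) {t0 θ : ℝ} (h0 : 0 ≤ t0) (h1 : t0 ≤ 1) {p : ℕ}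
    (hr : 48 * ((2 * p : ℕ) : ℝ) ^ 4 / n ^ 2 + 12 * ((2 * p : ℕ) : ℝ) ^ 2 / n ≤ 1 / 2)
    (hθ : 4 * p * θ ≤ 1)
    (hm : ∫ z, ((Q z).trace - √t0 / (2 * √(n : ℝ)) * ∑ i, ∑ j, Q z i j * Zm z i j)
      ∂(gI (Pair n)) ≤ θ * ∫ z, (Q z).trace ∂(gI (Pair n))) :
    (∫ z, (Q z).trace ∂(gI (Pair n))) ^ 2 ≤
      8 * n * (((2 * p : ℕ) : ℝ) + 1) ^ (-(3 / 2) : ℝ) *
        ∫ z, ∑ i, ∑ j, Q z i j ^ 2 ∂(gI (Pair n)) := by
  have hn' : (0 : ℝ) < n := by exact_mod_cast hn
  set c : ℝ := √t0 / (2 * √(n : ℝ)) with hc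
  set X : (Pair n → ℝ) → Matrix (Fin n) (Fin n) ℝ := fun z => c • Zm z with hX
  have hXt : ∀ z, (X z)ᵀ = X z := fun z => by rw [hX]; simp only [transpose_smul, Zm_tr]
  have hpow : ∀ (k : ℕ) z, X z ^ k = c ^ k • Zm z ^ k := fun k z => smul_pow _ _ _
  have egX : ∀ k i j, EG fun z => (X z ^ k) i j := by
    intro k i j
    simp only [hpow, Matrix.smul_apply, smul_eq_mul]
    exact (eg_pow k i j).const_mul _
  have egT : EG fun z => (Q z).trace := by
    unfold Matrix.trace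
    simp only [diag_apply]
    exact EG.sum _ fun i _ => hE i i
  have egP : ∀ k, EG fun z => ∑ i, ∑ j, Q z i j * (X z ^ k) i j := fun k =>
    EG.sum _ fun i _ => EG.sum _ fun j _ => (hE i j).mul (egX k i j)
  have t0Q : ∀ z, ∑ i, ∑ j, Q z i j * (X z ^ 0) i j = (Q z).trace := by
    intro z
    unfold Matrix.trace
    refine Finset.sum_congr rfl fun i _ => ?_
    rw [pow_zero, Finset.sum_eq_single i]
    · rw [one_apply_eq, mul_one, diag_apply]
    · intro j _ hj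
      rw [one_apply_ne hj.symm, mul_zero]
    · intro h; exact absurd (Finset.mem_univ i) h
  have t1Q : ∀ z, ∑ i, ∑ j, Q z i j * X z i j = c * ∑ i, ∑ j, Q z i j * Zm z i j := by
    intro z
    rw [Finset.mul_sum]
    refine Finset.sum_congr rfl fun i _ => ?_
    rw [Finset.mul_sum]
    refine Finset.sum_congr rfl fun j _ => ?_
    rw [hX]
    simp only [Matrix.smul_apply, smul_eq_mul]
    ring
  set T := ∫ z, (Q z).trace ∂(gI (Pair n)) with hT
  have hT0 : 0 ≤ T := by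
    refine integral_nonneg fun z => ?_
    unfold Matrix.trace
    refine Finset.sum_nonneg fun i _ => ?_
    have := (hQ z).2 (Pi.single i 1)
    rw [Finset.sum_eq_single i, Finset.sum_eq_single i] at this
    · simpa using this
    · intro j _ hj; simp [hj]
    · simp
    · intro j _ hj; simp [hj]
    · simp
  -- the lower bound
  have hlow : T / 2 ≤ ∫ z, ∑ i, ∑ j, Q z i j * (X z ^ (2 * p)) i j ∂(gI (Pair n)) := by
    have a1 : ∫ z, ((Q z).trace - 2 * p * ((Q z).trace - c * ∑ i, ∑ j, Q z i j * Zm z i j))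
        ∂(gI (Pair n)) ≤ ∫ z, ∑ i, ∑ j, Q z i j * (X z ^ (2 * p)) i j ∂(gI (Pair n)) := by
      have egZ : EG fun z => ∑ i, ∑ j, Q z i j * Zm z i j :=
        EG.sum _ fun i _ => EG.sum _ fun j _ => (hE i j).mul (eg_Zm i j)
      refine integral_mono ?_ (egP (2 * p)).integrable fun z => ?_
      · exact (egT.sub ((egT.sub (egZ.const_mul c)).const_mul _)).integrable
      · have := psd_bern (hQ z) (hXt z) p
        rw [t0Q z, t1Q z] at this
        simp only
        linarith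
    have egZ : EG fun z => ∑ i, ∑ j, Q z i j * Zm z i j :=
      EG.sum _ fun i _ => EG.sum _ fun j _ => (hE i j).mul (eg_Zm i j)
    rw [integral_sub egT.integrable ((egT.sub (egZ.const_mul c)).const_mul _).integrable,
      integral_const_mul] at a1
    have a2 : 2 * (p : ℝ) * ∫ z, ((Q z).trace - c * ∑ i, ∑ j, Q z i j * Zm z i j)
        ∂(gI (Pair n)) ≤ 2 * p * (θ * T) := mul_le_mul_of_nonneg_left hm (by positivity)
    have a3 : 2 * (p : ℝ) * (θ * T) ≤ T / 2 := by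
      have := mul_le_mul_of_nonneg_right hθ hT0
      linarith
    linarith
  have hcs := cs_mat (Q := Q) (B := fun z => X z ^ (2 * p)) hE (egX (2 * p))
  have hB : ∫ z, ∑ i, ∑ j, (X z ^ (2 * p)) i j ^ 2 ∂(gI (Pair n)) ≤
      2 * n * (((2 * p : ℕ) : ℝ) + 1) ^ (-(3 / 2) : ℝ) := by
    refine le_trans ?_ (gm' (q := 2 * p) hn hr)
    simp only [sum_sq_eq _ (hXt _)]
    refine integral_mono ?_ ?_ fun z => ?_
    · simp only [hpow, Matrix.trace_smul, smul_eq_mul]
      exact ((eg_tr _).const_mul _).integrable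
    · simp only [smul_pow, Matrix.trace_smul, smul_eq_mul]
      exact ((eg_tr _).const_mul _).integrable
    · simp only [hpow, smul_pow, Matrix.trace_smul, smul_eq_mul]
      refine mul_le_mul_of_nonneg_right ?_ (tr_even_nonneg z (2 * p))
      refine pow_le_pow_left₀ (by positivity) ?_ _
      rw [hc]
      have : √t0 ≤ 1 := Real.sqrt_le_one.2 h1
      gcongr
  have hq0 : 0 ≤ ∫ z, ∑ i, ∑ j, Q z i j ^ 2 ∂(gI (Pair n)) :=
    integral_nonneg fun z => Finset.sum_nonneg fun i _ => Finset.sum_nonneg fun j _ => sq_nonneg _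
  have h5 : (T / 2) ^ 2 ≤ (∫ z, ∑ i, ∑ j, Q z i j * (X z ^ (2 * p)) i j ∂(gI (Pair n))) ^ 2 :=
    pow_le_pow_left₀ (by positivity) hlow 2
  have h6 := mul_le_mul_of_nonneg_left hB hq0
  have h7 := h5.trans (hcs.trans h6)
  linarith

end Vale.Agent.P146.H737
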