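import Vale.Agent.P146.H546.Rb0
import Vale.Agent.P146.H785.Star

/-!
The covariance of two functions of a Gaussian vector: an upper bound by the gradients at two
correlated points.
-/

open MeasureTheory ProbabilityTheory

namespace Vale.Agent.P146.H737

open Vale.Agent.P157.Lv Vale.Agent.P146.R1C
open Vale.Agent.P146.H785 (lf lf_apply)

set_option linter.unusedSectionVars false

variable {κ : Type} [Fintype κ] [DecidableEq κ] {f g : (κ → ℝ) → ℝ}
  {f' g' : κ → (κ → ℝ) → ℝ}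

/-- an integral over two blocks -/
lemma int_bb {Φ : (κ → ℝ) → (κ → ℝ) → ℝ}
    (hΦ : EG fun w : κ ⊕ κ → ℝ => Φ (bl w) (br w)) :
    ∫ w : κ ⊕ κ → ℝ, Φ (bl w) (br w) ∂(gI (κ ⊕ κ)) =
      ∫ a, (∫ g, Φ a g ∂(gI κ)) ∂(gI κ) := by
  classical
  have h1 := MeasureTheory.measurePreserving_sumPiEquivProdPi_symm (ι := κ) (ι' := κ)
    (X := fun _ => ℝ) (fun _ => gaussianReal 0 1)
  have h2 := h1.integral_comp' (fun w : κ ⊕ κ → ℝ => Φ (bl w) (br w))
  rw [← integral_prod (fun q : (κ → ℝ) × (κ → ℝ) => Φ q.1 q.2) (integrable_pair hΦ)]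
  exact h2.symm

lemma eg_lin2 {h : (κ → ℝ) → ℝ} (hh : EG h) (c s : ℝ) :
    EG fun w : κ ⊕ κ → ℝ => h (c • bl w + s • br w) := by
  refine eg_compK hh (K := 0) (C := |c| + |s|) ?_ (by positivity) fun w => ?_
  · have h1 := meas_bl (κ := κ)
    have h2 := meas_br (κ := κ)
    fun_prop
  · refine (norm_add_le _ _).trans ?_
    rw [norm_smul, norm_smul, Real.norm_eq_abs, Real.norm_eq_abs]
    have h1 := mul_le_mul_of_nonneg_left (norm_bl w) (abs_nonneg c)
    have h2 := mul_le_mul_of_nonneg_left (norm_br w) (abs_nonneg s)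
    linarith

lemma eg_lin2' {h : (κ → ℝ) → ℝ} (hh : EG h) (c s : ℝ) :
    EG fun w : κ ⊕ κ → ℝ => h (c • br w - s • bl w) := by
  refine eg_compK hh (K := 0) (C := |c| + |s|) ?_ (by positivity) fun w => ?_
  · have h1 := meas_bl (κ := κ)
    have h2 := meas_br (κ := κ)
    fun_prop
  · refine (norm_sub_le _ _).trans ?_
    rw [norm_smul, norm_smul, Real.norm_eq_abs, Real.norm_eq_abs]
    have h1 := mul_le_mul_of_nonneg_left (norm_bl w) (abs_nonneg s)
    have h2 := mul_le_mul_of_nonneg_left (norm_br w) (abs_nonneg c)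
    linarith

lemma eg_bl {h : (κ → ℝ) → ℝ} (hh : EG h) : EG fun w : κ ⊕ κ → ℝ => h (bl w) :=
  eg_compK hh meas_bl (K := 0) (C := 1) zero_le_one fun w => by
    have := norm_bl w; linarith

lemma eg_br {h : (κ → ℝ) → ℝ} (hh : EG h) : EG fun w : κ ⊕ κ → ℝ => h (br w) :=
  eg_compK hh meas_br (K := 0) (C := 1) zero_le_one fun w => by
    have := norm_br w; linarith

/-- the interpolation by a rotation -/
noncomputable def KB (f g : (κ → ℝ) → ℝ) (θ : ℝ) : ℝ :=
  ∫ w : κ ⊕ κ → ℝ, f (bl w) * g (Real.cos θ • bl w + Real.sin θ • br w) ∂(gI (κ ⊕ κ))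

/-- the integrand of the derivative -/
noncomputable def DK (f : (κ → ℝ) → ℝ) (g' : κ → (κ → ℝ) → ℝ) (θ : ℝ) (w : κ ⊕ κ → ℝ) : ℝ :=
  f (bl w) * ∑ e, g' e (Real.cos θ • bl w + Real.sin θ • br w) *
    (-Real.sin θ * bl w e + Real.cos θ * br w e)

lemma eg_DK (hf : EG f) (hg' : ∀ e, EG (g' e)) (θ : ℝ) : EG (DK f g' θ) := by
  unfold DK
  refine (eg_bl hf).mul (EG.sum _ fun e _ => (eg_lin2 (hg' e) _ _).mul ?_)
  exact ((EG.coord (Sum.inl e)).const_mul _).add ((EG.coord (Sum.inr e)).const_mul _)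

lemma hasDerivAt_KB (hf : EG f) (hg : EG g) (hg' : ∀ e, EG (g' e))
    (hd : ∀ y, HasFDerivAt g (lf fun e => g' e y) y) (θ : ℝ) :
    HasDerivAt (KB f g) (∫ w, DK f g' θ w ∂(gI (κ ⊕ κ))) θ := by
  choose C a hC ha hb using fun e => (hg' e).bdd
  have hB : EG fun w : κ ⊕ κ → ℝ => |f (bl w)| *
      ∑ e, C e * Real.exp (a e * (2 * ‖w‖)) * (2 * ‖w‖) := by
    refine (eg_bl hf).abs.mul (EG.sum _ fun e _ => ?_)
    have h1 := H425.eg_exp_norm (κ := κ ⊕ κ) (a e * 2)
    have h2 := H425.eg_norm (κ := κ ⊕ κ)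
    have e1 : (fun w : κ ⊕ κ → ℝ => C e * Real.exp (a e * (2 * ‖w‖)) * (2 * ‖w‖)) =
        fun w => (C e * 2) * (Real.exp (a e * 2 * ‖w‖) * ‖w‖) := by
      funext w
      rw [show a e * (2 * ‖w‖) = a e * 2 * ‖w‖ by ring]
      ring
    rw [e1]
    exact (h1.mul h2).const_mul _
  refine (hasDerivAt_integral_of_dominated_loc_of_deriv_le
    (F := fun t (w : κ ⊕ κ → ℝ) => f (bl w) * g (Real.cos t • bl w + Real.sin t • br w))
    (F' := fun t (w : κ ⊕ κ → ℝ) => DK f g' t w)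
    (bound := fun w => |f (bl w)| * ∑ e, C e * Real.exp (a e * (2 * ‖w‖)) * (2 * ‖w‖))
    (Metric.ball_mem_nhds θ one_pos) ?_ ?_ ?_ ?_ hB.integrable ?_).2
  · exact Filter.Eventually.of_forall fun t =>
      ((eg_bl hf).mul (eg_lin2 hg _ _)).meas.aestronglyMeasurable
  · exact ((eg_bl hf).mul (eg_lin2 hg _ _)).integrable
  · exact (eg_DK hf hg' θ).meas.aestronglyMeasurable
  · refine Filter.Eventually.of_forall fun w t _ => ?_
    unfold DK
    rw [Real.norm_eq_abs, abs_mul]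
    refine mul_le_mul_of_nonneg_left ((Finset.abs_sum_le_sum_abs _ _).trans ?_) (abs_nonneg _)
    refine Finset.sum_le_sum fun e _ => ?_
    rw [abs_mul]
    have c1 := Real.abs_cos_le_one t
    have s1 := Real.abs_sin_le_one t
    have hw := norm_nonneg w
    have n1 : ‖Real.cos t • bl w + Real.sin t • br w‖ ≤ 2 * ‖w‖ := by
      refine (norm_add_le _ _).trans ?_
      rw [norm_smul, norm_smul, Real.norm_eq_abs, Real.norm_eq_abs]
      have h1 := mul_le_mul c1 (norm_bl w) (norm_nonneg _) zero_le_one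
      have h2 := mul_le_mul s1 (norm_br w) (norm_nonneg _) zero_le_one
      linarith
    have n2 : |-Real.sin t * bl w e + Real.cos t * br w e| ≤ 2 * ‖w‖ := by
      refine (abs_add_le _ _).trans ?_
      rw [abs_mul, abs_mul, abs_neg]
      have h3 : |bl w e| ≤ ‖w‖ := by
        have := norm_le_pi_norm w (Sum.inl e)
        rwa [Real.norm_eq_abs] at this
      have h4 : |br w e| ≤ ‖w‖ := by
        have := norm_le_pi_norm w (Sum.inr e)
        rwa [Real.norm_eq_abs] at this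
      have h1 := mul_le_mul s1 h3 (abs_nonneg _) zero_le_one
      have h2 := mul_le_mul c1 h4 (abs_nonneg _) zero_le_one
      linarith
    have n3 : |g' e (Real.cos t • bl w + Real.sin t • br w)| ≤
        C e * Real.exp (a e * (2 * ‖w‖)) :=
      (hb e _).trans (mul_le_mul_of_nonneg_left (Real.exp_le_exp.2
        (mul_le_mul_of_nonneg_left n1 (ha e))) (hC e))
    exact mul_le_mul n3 n2 (abs_nonneg _) (mul_nonneg (hC e) (Real.exp_pos _).le)
  · refine Filter.Eventually.of_forall fun w t _ => ?_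
    have h1 : HasDerivAt (fun t => Real.cos t • bl w + Real.sin t • br w)
        ((-Real.sin t) • bl w + Real.cos t • br w) t :=
      ((Real.hasDerivAt_cos t).smul_const (bl w)).add ((Real.hasDerivAt_sin t).smul_const (br w))
    have h2 := (hd (Real.cos t • bl w + Real.sin t • br w)).comp_hasDerivAt t h1
    rw [lf_apply] at h2
    exact h2.const_mul (f (bl w))

/-- the derivative, after the rotation and one integration by parts -/
lemma int_DK (hf : EG f) (hf' : ∀ e, EG (f' e)) (hg' : ∀ e, EG (g' e))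
    (hfd : ∀ y, HasFDerivAt f (lf fun e => f' e y) y) {θ : ℝ} (hc : 0 ≤ Real.cos θ) :
    ∫ w, DK f g' θ w ∂(gI (κ ⊕ κ)) = -Real.sin θ * ∫ w : κ ⊕ κ → ℝ,
      ∑ e, f' e (Real.cos θ • br w - Real.sin θ • bl w) * g' e (br w) ∂(gI (κ ⊕ κ)) := by
  set c := Real.cos θ with hcd
  set s := Real.sin θ with hsd
  have hcs : c ^ 2 + s ^ 2 = 1 := by rw [hcd, hsd]; exact Real.cos_sq_add_sin_sq θ
  have e0 : (∫ w, DK f g' θ w ∂(gI (κ ⊕ κ))) = ∫ a, (∫ g, f a * ∑ e, g' e (c • a + s • g) *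
      (-s * a e + c * g e) ∂(gI κ)) ∂(gI κ) :=
    int_bb (Φ := fun a g => f a * ∑ e, g' e (c • a + s • g) * (-s * a e + c * g e))
      (eg_DK hf hg' θ)
  rw [e0, int_rot (Finset.univ : Finset κ)
    (Φ := fun a g => f a * ∑ e, g' e (c • a + s • g) * (-s * a e + c * g e))
    (eg_DK hf hg' θ) hc hcs]
  have e1 : ∀ (a g : κ → ℝ), (rotR (Finset.univ : Finset κ) c s (a, g)).1 = c • a - s • g := by
    intro a g; funext e; simp [rotR]
  have e2 : ∀ (a g : κ → ℝ), (rotR (Finset.univ : Finset κ) c s (a, g)).2 = s • a + c • g := by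
    intro a g; funext e; simp [rotR]
  have e3 : ∀ (a g : κ → ℝ), c • (c • a - s • g) + s • (s • a + c • g) = a := by
    intro a g
    funext e
    simp only [Pi.add_apply, Pi.smul_apply, Pi.sub_apply, smul_eq_mul]
    linear_combination (a e) * hcs
  have e4 : ∀ (a g : κ → ℝ) (e : κ), -s * (c • a - s • g) e + c * (s • a + c • g) e = g e := by
    intro a g e
    simp only [Pi.add_apply, Pi.smul_apply, Pi.sub_apply, smul_eq_mul]
    linear_combination (g e) * hcs
  simp only [e1, e2, e3, e4]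
  have hsw : EG fun w : κ ⊕ κ → ℝ => f (c • br w - s • bl w) * ∑ e, g' e (br w) * bl w e :=
    (eg_lin2' hf c s).mul (EG.sum _ fun e _ => (eg_br (hg' e)).mul (EG.coord (Sum.inl e)))
  rw [← int_bb (Φ := fun g a => f (c • a - s • g) * ∑ e, g' e a * g e) hsw]
  have e5 : ∀ w : κ ⊕ κ → ℝ, f (c • br w - s • bl w) * ∑ e, g' e (br w) * bl w e =
      ∑ e, w (Sum.inl e) * (f (c • br w - s • bl w) * g' e (br w)) := by
    intro w
    rw [Finset.mul_sum]
    refine Finset.sum_congr rfl fun e _ => ?_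
    unfold bl
    ring
  simp only [e5]
  rw [integral_finsetSum _ fun e _ => ((EG.coord (Sum.inl e)).mul
    ((eg_lin2' hf c s).mul (eg_br (hg' e)))).integrable,
    integral_finsetSum _ fun e _ => ((eg_lin2' (hf' e) c s).mul (eg_br (hg' e))).integrable,
    Finset.mul_sum]
  refine Finset.sum_congr rfl fun e _ => ?_
  have hpd : PD (Sum.inl e) (fun w : κ ⊕ κ → ℝ => f (c • br w - s • bl w) * g' e (br w))
      (fun w => -s * (f' e (c • br w - s • bl w) * g' e (br w))) := by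
    intro y x
    have b1 : ∀ t, br (Function.update y (Sum.inl e) t) = br y := by
      intro t; funext i; simp [br]
    have b2 : ∀ t, bl (Function.update y (Sum.inl e) t) = Function.update (bl y) e t := by
      intro t; funext i
      by_cases hi : i = e
      · subst hi; simp [bl]
      · simp [bl, hi]
    simp only [b1, b2]
    have h1 : HasDerivAt (fun t => Function.update (bl y) e t) (Pi.single e 1) x :=
      hasDerivAt_update (bl y) e x
    have h2 := (h1.const_smul s).const_sub (c • br y)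
    have h3 := (hfd (c • br y - s • Function.update (bl y) e x)).comp_hasDerivAt x h2
    have h4 := h3.mul_const (g' e (br y))
    refine h4.congr_deriv ?_
    rw [lf_apply, Finset.sum_eq_single e]
    · simp
      ring
    · intro i _ hi
      simp [Pi.single_apply, hi]
    · simp
  rw [hpd.stein ((eg_lin2' hf c s).mul (eg_br (hg' e)))
    (((eg_lin2' (hf' e) c s).mul (eg_br (hg' e))).const_mul _), integral_const_mul]

/-- **The covariance bound.** -/
theorem cov_grad (hf : EG f) (hf' : ∀ e, EG (f' e))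
    (hfd : ∀ y, HasFDerivAt f (lf fun e => f' e y) y) (hg : EG g) (hg' : ∀ e, EG (g' e))
    (hgd : ∀ y, HasFDerivAt g (lf fun e => g' e y) y) {C : ℝ}
    (hC : ∀ c s : ℝ, 0 ≤ c → 0 ≤ s → c ^ 2 + s ^ 2 = 1 → |∫ w : κ ⊕ κ → ℝ,
      ∑ e, f' e (c • br w - s • bl w) * g' e (br w) ∂(gI (κ ⊕ κ))| ≤ C) :
    |∫ z, f z * g z ∂(gI κ) - (∫ z, f z ∂(gI κ)) * ∫ z, g z ∂(gI κ)| ≤ 2 * C := by
  have hC0 : 0 ≤ C := (abs_nonneg _).trans (hC 1 0 zero_le_one le_rfl (by norm_num))
  have h1 : ∀ θ ∈ Set.Icc 0 (Real.pi / 2), HasDerivWithinAt (KB f g)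
      (∫ w, DK f g' θ w ∂(gI (κ ⊕ κ))) (Set.Icc 0 (Real.pi / 2)) θ := fun θ _ =>
    (hasDerivAt_KB hf hg hg' hgd θ).hasDerivWithinAt
  have h2 : ∀ θ ∈ Set.Ico 0 (Real.pi / 2), ‖∫ w, DK f g' θ w ∂(gI (κ ⊕ κ))‖ ≤ C := by
    intro θ hθ
    have hc : 0 ≤ Real.cos θ :=
      Real.cos_nonneg_of_mem_Icc ⟨by linarith [hθ.1, Real.pi_pos], hθ.2.le⟩
    have hs : 0 ≤ Real.sin θ :=
      Real.sin_nonneg_of_mem_Icc ⟨hθ.1, by linarith [hθ.2, Real.pi_pos]⟩
    have hs1 := Real.sin_le_one θ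
    rw [int_DK hf hf' hg' hfd hc, Real.norm_eq_abs, abs_mul, abs_neg, abs_of_nonneg hs]
    have h3 := hC _ _ hc hs (Real.cos_sq_add_sin_sq θ)
    calc Real.sin θ * _ ≤ 1 * C := mul_le_mul hs1 h3 (abs_nonneg _) zero_le_one
      _ = C := one_mul C
  have h3 := norm_image_sub_le_of_norm_deriv_le_segment' h1 h2 (Real.pi / 2)
    ⟨by linarith [Real.pi_pos], le_rfl⟩
  have k0 : KB f g 0 = ∫ z, f z * g z ∂(gI κ) := by
    unfold KB
    simp only [Real.cos_zero, Real.sin_zero, one_smul, zero_smul, add_zero]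
    rw [int_bb (Φ := fun a _ => f a * g a) (eg_bl (hf.mul hg))]
    simp
  have k1 : KB f g (Real.pi / 2) = (∫ z, f z ∂(gI κ)) * ∫ z, g z ∂(gI κ) := by
    unfold KB
    simp only [Real.cos_pi_div_two, Real.sin_pi_div_two, one_smul, zero_smul, zero_add]
    rw [int_bb (Φ := fun a b => f a * g b) ((eg_bl hf).mul (eg_br hg))]
    simp only [integral_const_mul]
    rw [integral_mul_const]
  rw [k0, k1, Real.norm_eq_abs, abs_sub_comm, sub_zero] at h3
  refine h3.trans ?_
  have := Real.pi_le_four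
  nlinarith

end Vale.Agent.P146.H737
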