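import Vale.Agent.P146.H499.Edge
import Vale.Agent.P146.H737.GMa

/-!
Powers of symmetric matrices: mixed traces, and the derivatives of the powers of the matrix of the
couplings.
-/

open MeasureTheory ProbabilityTheory

namespace Vale.Agent.P146.H737

open Vale.Agent.P157.Lv Matrix
open Vale.Agent.P146.H332 (diag_sym)
open Vale.Agent.P146.H499 (Zm Zm_symm Zm_self Zm_pair)
open Vale.Agent.P146.H785 (lf lf_apply)

set_option linter.unusedSectionVars false

section sp

variable {ι : Type} [Fintype ι]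

lemma pow_young (x y : ℝ) {i j k : ℕ} (h : i + j = 2 * k) :
    |x ^ i * y ^ j| ≤ x ^ (2 * k) + y ^ (2 * k) := by
  have e1 : x ^ (2 * k) = |x| ^ (2 * k) := by rw [pow_mul, pow_mul, sq_abs]
  have e2 : y ^ (2 * k) = |y| ^ (2 * k) := by rw [pow_mul, pow_mul, sq_abs]
  have hx := abs_nonneg x
  have hy := abs_nonneg y
  rw [abs_mul, abs_pow, abs_pow, e1, e2]
  rcases le_total |x| |y| with hxy | hxy
  · have h1 : |x| ^ i * |y| ^ j ≤ |y| ^ i * |y| ^ j :=
      mul_le_mul_of_nonneg_right (pow_le_pow_left₀ hx hxy i) (by positivity)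
    rw [← pow_add, h] at h1
    have h2 : 0 ≤ |x| ^ (2 * k) := by positivity
    linarith
  · have h1 : |x| ^ i * |y| ^ j ≤ |x| ^ i * |x| ^ j :=
      mul_le_mul_of_nonneg_left (pow_le_pow_left₀ hy hxy j) (by positivity)
    rw [← pow_add, h] at h1
    have h2 : 0 ≤ |y| ^ (2 * k) := by positivity
    linarith

lemma wt_young {w : ι → ι → ℝ} (hw : ∀ a b, 0 ≤ w a b) (h1 : ∀ a, ∑ b, w a b = 1)
    (h2 : ∀ b, ∑ a, w a b = 1) (l m : ι → ℝ) {i j k : ℕ} (h : i + j = 2 * k) :
    |∑ a, ∑ b, w a b * (l a ^ i * m b ^ j)| ≤ ∑ a, l a ^ (2 * k) + ∑ b, m b ^ (2 * k) := by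
  have e1 : ∑ a, l a ^ (2 * k) = ∑ a, ∑ b, w a b * l a ^ (2 * k) :=
    Finset.sum_congr rfl fun a _ => by rw [← Finset.sum_mul, h1, one_mul]
  have e2 : ∑ b, m b ^ (2 * k) = ∑ a, ∑ b, w a b * m b ^ (2 * k) := by
    rw [Finset.sum_comm]
    exact Finset.sum_congr rfl fun b _ => by rw [← Finset.sum_mul, h2, one_mul]
  rw [e1, e2, ← Finset.sum_add_distrib]
  refine (Finset.abs_sum_le_sum_abs _ _).trans (Finset.sum_le_sum fun a _ => ?_)
  rw [← Finset.sum_add_distrib]
  refine (Finset.abs_sum_le_sum_abs _ _).trans (Finset.sum_le_sum fun b _ => ?_)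
  rw [abs_mul, abs_of_nonneg (hw a b), ← mul_add]
  exact mul_le_mul_of_nonneg_left (pow_young _ _ h) (hw a b)

variable [DecidableEq ι] {X Y U V : Matrix ι ι ℝ} {l m : ι → ℝ}

lemma pow_dec (h2 : Uᵀ * U = 1) (h1 : U * Uᵀ = 1) (h3 : X = U * diagonal l * Uᵀ) (p : ℕ) :
    X ^ p = U * diagonal (fun a => l a ^ p) * Uᵀ := by
  induction p with
  | zero =>
    have : diagonal (fun a => l a ^ 0) = (1 : Matrix ι ι ℝ) := by
      simp only [pow_zero]; exact diagonal_one
    rw [this, Matrix.mul_one, h1, pow_zero]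
  | succ p ih =>
    rw [pow_succ, ih, h3]
    calc U * diagonal (fun a => l a ^ p) * Uᵀ * (U * diagonal l * Uᵀ) =
        U * diagonal (fun a => l a ^ p) * (Uᵀ * U) * diagonal l * Uᵀ := by
          simp only [Matrix.mul_assoc]
      _ = U * (diagonal (fun a => l a ^ p) * diagonal l) * Uᵀ := by
          rw [h2, Matrix.mul_one]; simp only [Matrix.mul_assoc]
      _ = _ := by
          rw [diagonal_mul_diagonal]
          simp only [pow_succ]

lemma pow_ent (h2 : Uᵀ * U = 1) (h1 : U * Uᵀ = 1) (h3 : X = U * diagonal l * Uᵀ) (p : ℕ)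
    (i j : ι) : (X ^ p) i j = ∑ a, l a ^ p * (U i a * U j a) := by
  rw [pow_dec h2 h1 h3 p, mul_apply]
  refine Finset.sum_congr rfl fun a _ => ?_
  rw [mul_diagonal, transpose_apply]; ring

lemma col_one (h2 : Uᵀ * U = 1) (a : ι) : ∑ i, U i a * U i a = 1 := by
  have := congrFun (congrFun h2 a) a
  rw [mul_apply, one_apply_eq] at this
  exact this

lemma tr_pow (h2 : Uᵀ * U = 1) (h1 : U * Uᵀ = 1) (h3 : X = U * diagonal l * Uᵀ) (p : ℕ) :
    (X ^ p).trace = ∑ a, l a ^ p := by
  unfold Matrix.trace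
  simp only [diag_apply, pow_ent h2 h1 h3 p]
  rw [Finset.sum_comm]
  refine Finset.sum_congr rfl fun a _ => ?_
  rw [← Finset.mul_sum, col_one h2, mul_one]

/-- mixed traces -/
lemma tr_mix (hX : Xᵀ = X) (hY : Yᵀ = Y) {i j k : ℕ} (h : i + j = 2 * k) :
    |∑ p, ∑ q, (X ^ i) p q * (Y ^ j) p q| ≤ (X ^ (2 * k)).trace + (Y ^ (2 * k)).trace := by
  obtain ⟨U, l, u1, u2, u3⟩ := diag_sym hX
  obtain ⟨V, m, v1, v2, v3⟩ := diag_sym hY
  have e1 : ∑ p, ∑ q, (X ^ i) p q * (Y ^ j) p q =
      ∑ a, ∑ b, ((Uᵀ * V) a b) ^ 2 * (l a ^ i * m b ^ j) := by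
    simp only [pow_ent u2 u1 u3, pow_ent v2 v1 v3]
    have e2 : ∀ a b, ((Uᵀ * V) a b) ^ 2 * (l a ^ i * m b ^ j) =
        ∑ p, ∑ q, l a ^ i * (U p a * U q a) * (m b ^ j * (V p b * V q b)) := by
      intro a b
      rw [mul_apply, sq, Finset.sum_mul_sum, Finset.sum_mul]
      refine Finset.sum_congr rfl fun p _ => ?_
      rw [Finset.sum_mul]
      refine Finset.sum_congr rfl fun q _ => ?_
      rw [transpose_apply, transpose_apply]; ring
    simp only [e2, Finset.sum_mul_sum]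
    calc ∑ p, ∑ q, ∑ a, ∑ b, l a ^ i * (U p a * U q a) * (m b ^ j * (V p b * V q b)) =
        ∑ p, ∑ a, ∑ q, ∑ b, l a ^ i * (U p a * U q a) * (m b ^ j * (V p b * V q b)) :=
          Finset.sum_congr rfl fun p _ => Finset.sum_comm
      _ = ∑ a, ∑ p, ∑ q, ∑ b, l a ^ i * (U p a * U q a) * (m b ^ j * (V p b * V q b)) :=
          Finset.sum_comm
      _ = ∑ a, ∑ p, ∑ b, ∑ q, l a ^ i * (U p a * U q a) * (m b ^ j * (V p b * V q b)) :=
          Finset.sum_congr rfl fun a _ => Finset.sum_congr rfl fun p _ => Finset.sum_comm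
      _ = _ := Finset.sum_congr rfl fun a _ => Finset.sum_comm
  have w1 : (Uᵀ * V) * (Uᵀ * V)ᵀ = 1 := by
    rw [transpose_mul, transpose_transpose]
    calc Uᵀ * V * (Vᵀ * U) = Uᵀ * (V * Vᵀ) * U := by simp only [Matrix.mul_assoc]
      _ = 1 := by rw [v1, Matrix.mul_one, u2]
  have w2 : (Uᵀ * V)ᵀ * (Uᵀ * V) = 1 := by
    rw [transpose_mul, transpose_transpose]
    calc Vᵀ * U * (Uᵀ * V) = Vᵀ * (U * Uᵀ) * V := by simp only [Matrix.mul_assoc]
      _ = 1 := by rw [u1, Matrix.mul_one, v2]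
  rw [e1, tr_pow u2 u1 u3, tr_pow v2 v1 v3]
  refine wt_young (fun a b => sq_nonneg _) (fun a => ?_) (fun b => ?_) l m h
  · have := congrFun (congrFun w1 a) a
    rw [mul_apply, one_apply_eq] at this
    rw [← this]
    exact Finset.sum_congr rfl fun b _ => by rw [transpose_apply, sq]
  · have := congrFun (congrFun w2 b) b
    rw [mul_apply, one_apply_eq] at this
    rw [← this]
    exact Finset.sum_congr rfl fun a _ => by rw [transpose_apply, sq]

/-- mixed diagonals -/
lemma dg_mix (hX : Xᵀ = X) (hY : Yᵀ = Y) {i j k : ℕ} (h : i + j = 2 * k) :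
    |∑ p, (X ^ i) p p * (Y ^ j) p p| ≤ (X ^ (2 * k)).trace + (Y ^ (2 * k)).trace := by
  obtain ⟨U, l, u1, u2, u3⟩ := diag_sym hX
  obtain ⟨V, m, v1, v2, v3⟩ := diag_sym hY
  have e1 : ∑ p, (X ^ i) p p * (Y ^ j) p p =
      ∑ a, ∑ b, (∑ p, (U p a * U p a) * (V p b * V p b)) * (l a ^ i * m b ^ j) := by
    have e2 : ∀ p, (X ^ i) p p * (Y ^ j) p p =
        ∑ a, ∑ b, (U p a * U p a) * (V p b * V p b) * (l a ^ i * m b ^ j) := by
      intro p
      rw [pow_ent u2 u1 u3, pow_ent v2 v1 v3, Finset.sum_mul_sum]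
      exact Finset.sum_congr rfl fun a _ => Finset.sum_congr rfl fun b _ => by ring
    simp only [e2, Finset.sum_mul]
    rw [Finset.sum_comm]
    exact Finset.sum_congr rfl fun a _ => Finset.sum_comm
  have row : ∀ {W : Matrix ι ι ℝ}, W * Wᵀ = 1 → ∀ p, ∑ b, W p b * W p b = 1 := by
    intro W hW p
    have := congrFun (congrFun hW p) p
    rw [mul_apply, one_apply_eq] at this
    rw [← this]
    exact Finset.sum_congr rfl fun b _ => by rw [transpose_apply]
  rw [e1, tr_pow u2 u1 u3, tr_pow v2 v1 v3]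
  refine wt_young (fun a b => Finset.sum_nonneg fun p _ =>
    mul_nonneg (mul_self_nonneg _) (mul_self_nonneg _)) (fun a => ?_) (fun b => ?_) l m h
  · rw [Finset.sum_comm]
    simp only [← Finset.mul_sum, row v1, mul_one]
    exact col_one u2 a
  · rw [Finset.sum_comm]
    simp only [← Finset.sum_mul, row u1, one_mul]
    exact col_one v2 b

end sp

/-! ### derivatives -/

variable {n : ℕ}

/-- the derivative of the matrix of the couplings in one coupling -/
def Em (e : Pair n) : Matrix (Fin n) (Fin n) ℝ := fun i j =>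
  (if i = e.1.1 ∧ j = e.1.2 then 1 else 0) + (if i = e.1.2 ∧ j = e.1.1 then 1 else 0)

lemma Zm_sum (z : Pair n → ℝ) (i j : Fin n) : Zm z i j = ∑ e, Em e i j * z e := by
  rcases lt_trichotomy i j with h | h | h
  · rw [Finset.sum_eq_single (⟨(i, j), h⟩ : Pair n)]
    · have h1 := Zm_pair z ⟨(i, j), h⟩
      simp only at h1
      rw [h1]
      unfold Em
      have : ¬ (i = j ∧ j = i) := fun h' => h.ne h'.1
      simp [this]
    · intro e _ he
      unfold Em
      have h1 : ¬ (i = e.1.1 ∧ j = e.1.2) := by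
        rintro ⟨h1, h2⟩
        exact he (Subtype.ext (Prod.ext h1.symm h2.symm))
      have h2 : ¬ (i = e.1.2 ∧ j = e.1.1) := by
        rintro ⟨h1, h2⟩
        have := e.2
        rw [← h1, ← h2] at this
        exact lt_asymm h this
      rw [if_neg h1, if_neg h2]; ring
    · intro h'; exact absurd (Finset.mem_univ _) h'
  · subst h
    rw [Zm_self]
    symm
    refine Finset.sum_eq_zero fun e _ => ?_
    unfold Em
    have h1 : ¬ (i = e.1.1 ∧ i = e.1.2) := fun h' => e.2.ne (h'.1.symm.trans h'.2)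
    have h2 : ¬ (i = e.1.2 ∧ i = e.1.1) := fun h' => e.2.ne (h'.2.symm.trans h'.1)
    rw [if_neg h1, if_neg h2]; ring
  · rw [Zm_symm, Finset.sum_eq_single (⟨(j, i), h⟩ : Pair n)]
    · have h1 := Zm_pair z ⟨(j, i), h⟩
      simp only at h1
      rw [h1]
      unfold Em
      have : ¬ (i = j ∧ j = i) := fun h' => h.ne h'.2
      simp [this]
    · intro e _ he
      unfold Em
      have h1 : ¬ (i = e.1.1 ∧ j = e.1.2) := by
        rintro ⟨h1, h2⟩
        have := e.2
        rw [← h1, ← h2] at this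
        exact lt_asymm h this
      have h2 : ¬ (i = e.1.2 ∧ j = e.1.1) := by
        rintro ⟨h1, h2⟩
        exact he (Subtype.ext (Prod.ext h2.symm h1.symm))
      rw [if_neg h1, if_neg h2]; ring
    · intro h'; exact absurd (Finset.mem_univ _) h'

lemma Zm_tr (z : Pair n → ℝ) : (Zm z)ᵀ = Zm z := by
  ext i j; rw [transpose_apply, Zm_symm]

lemma em_mul (A B : Matrix (Fin n) (Fin n) ℝ) (e : Pair n) (i j : Fin n) :
    (A * Em e * B) i j = A i e.1.1 * B e.1.2 j + A i e.1.2 * B e.1.1 j := by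
  have h1 : ∀ k, (A * Em e) i k = (if k = e.1.2 then A i e.1.1 else 0) +
      (if k = e.1.1 then A i e.1.2 else 0) := by
    intro k
    rw [mul_apply]
    unfold Em
    simp only [mul_add, Finset.sum_add_distrib, mul_ite, mul_one, mul_zero]
    congr 1
    · by_cases hk : k = e.1.2
      · simp [hk]
      · simp [hk]
    · by_cases hk : k = e.1.1
      · simp [hk]
      · simp [hk]
  rw [mul_apply]
  simp only [h1, add_mul, ite_mul, zero_mul, Finset.sum_add_distrib, Finset.sum_ite_eq',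
    Finset.mem_univ, if_true]

/-- the derivative of a power -/
noncomputable def DZ : ℕ → Pair n → (Pair n → ℝ) → Matrix (Fin n) (Fin n) ℝ
  | 0, _, _ => 0
  | (p + 1), e, z => DZ p e z * Zm z + Zm z ^ p * Em e

lemma DZ_sum (p : ℕ) (e : Pair n) (z : Pair n → ℝ) :
    DZ p e z = ∑ c ∈ Finset.range p, Zm z ^ c * Em e * Zm z ^ (p - 1 - c) := by
  induction p with
  | zero => simp [DZ]
  | succ p ih =>
    rw [DZ, ih, Finset.sum_range_succ, Finset.sum_mul]
    congr 1
    · refine Finset.sum_congr rfl fun c hc => ?_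
      rw [Finset.mem_range] at hc
      rw [Matrix.mul_assoc, ← pow_succ]
      congr 2
      omega
    · rw [show p + 1 - 1 - p = 0 by omega, pow_zero, Matrix.mul_one]

lemma eg_Zm (i j : Fin n) : EG fun z : Pair n → ℝ => Zm z i j := by
  simp only [Zm_sum]
  exact EG.sum _ fun e _ => (EG.coord e).const_mul _

lemma eg_pow (p : ℕ) (i j : Fin n) : EG fun z : Pair n → ℝ => (Zm z ^ p) i j := by
  induction p generalizing i j with
  | zero => simp only [pow_zero]; exact EG.const _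
  | succ p ih =>
    simp only [pow_succ, mul_apply]
    exact EG.sum _ fun k _ => (ih i k).mul (eg_Zm k j)

lemma eg_DZ (p : ℕ) (e : Pair n) (i j : Fin n) : EG fun z : Pair n → ℝ => DZ p e z i j := by
  simp only [DZ_sum, Matrix.sum_apply, em_mul]
  exact EG.sum _ fun c _ => ((eg_pow c _ _).mul (eg_pow _ _ _)).add
    ((eg_pow c _ _).mul (eg_pow _ _ _))

lemma fd_Zm (z : Pair n → ℝ) (i j : Fin n) :
    HasFDerivAt (fun z : Pair n → ℝ => Zm z i j) (lf fun e => Em e i j) z := by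
  have h : (fun z : Pair n → ℝ => Zm z i j) = fun z => lf (fun e => Em e i j) z := by
    funext z; rw [lf_apply, Zm_sum]
  rw [h]
  exact (lf fun e => Em e i j).hasFDerivAt

lemma fd_pow (p : ℕ) (z : Pair n → ℝ) (i j : Fin n) :
    HasFDerivAt (fun z : Pair n → ℝ => (Zm z ^ p) i j) (lf fun e => DZ p e z i j) z := by
  induction p generalizing i j with
  | zero =>
    simp only [pow_zero]
    refine (hasFDerivAt_const _ z).congr_fderiv ?_
    ext w
    simp [lf_apply, DZ]
  | succ p ih =>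
    simp only [pow_succ, mul_apply]
    have h1 : HasFDerivAt (fun z : Pair n → ℝ => ∑ k, (Zm z ^ p) i k * Zm z k j)
        (∑ k, ((Zm z ^ p) i k • lf (fun e => Em e k j) +
          Zm z k j • lf (fun e => DZ p e z i k))) z :=
      HasFDerivAt.fun_sum fun k _ => (ih i k).mul (fd_Zm z k j)
    refine h1.congr_fderiv ?_
    ext w
    rw [_root_.sum_apply, lf_apply]
    simp only [_root_.add_apply, _root_.smul_apply, lf_apply, smul_eq_mul, DZ, Matrix.add_apply,
      mul_apply, add_mul, Finset.sum_add_distrib, Finset.sum_mul, Finset.mul_sum]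
    rw [add_comm]
    congr 1
    · rw [Finset.sum_comm]
      exact Finset.sum_congr rfl fun e _ => Finset.sum_congr rfl fun k _ => by ring
    · rw [Finset.sum_comm]
      exact Finset.sum_congr rfl fun e _ => Finset.sum_congr rfl fun k _ => by ring

lemma tr_DZ (p : ℕ) (e : Pair n) (z : Pair n → ℝ) :
    (DZ p e z).trace = 2 * p * (Zm z ^ (p - 1)) e.1.1 e.1.2 := by
  rw [DZ_sum, Matrix.trace_sum]
  have h1 : ∀ c ∈ Finset.range p, (Zm z ^ c * Em e * Zm z ^ (p - 1 - c)).trace =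
      2 * (Zm z ^ (p - 1)) e.1.1 e.1.2 := by
    intro c hc
    rw [Finset.mem_range] at hc
    have hs : (Zm z ^ (p - 1))ᵀ = Zm z ^ (p - 1) := by rw [transpose_pow, Zm_tr]
    have hs' : (Zm z ^ (p - 1)) e.1.2 e.1.1 = (Zm z ^ (p - 1)) e.1.1 e.1.2 := by
      conv_lhs => rw [← hs]
      rw [transpose_apply]
    rw [Matrix.mul_assoc, Matrix.trace_mul_comm, Matrix.mul_assoc, ← pow_add,
      show p - 1 - c + c = p - 1 by omega]
    have h2 : ∀ i, (Em e * Zm z ^ (p - 1)) i i = (if i = e.1.1 then (Zm z ^ (p - 1)) e.1.2 i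
        else 0) + (if i = e.1.2 then (Zm z ^ (p - 1)) e.1.1 i else 0) := by
      intro i
      have h3 := em_mul (1 : Matrix (Fin n) (Fin n) ℝ) (Zm z ^ (p - 1)) e i i
      rw [Matrix.one_mul] at h3
      rw [h3]
      simp only [one_apply, ite_mul, one_mul, zero_mul]
    unfold Matrix.trace
    simp only [diag_apply, h2, Finset.sum_add_distrib, Finset.sum_ite_eq', Finset.mem_univ,
      if_true]
    rw [hs']; ring
  rw [Finset.sum_congr rfl h1, Finset.sum_const, Finset.card_range, nsmul_eq_mul]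
  ring

lemma fd_tr (p : ℕ) (z : Pair n → ℝ) :
    HasFDerivAt (fun z : Pair n → ℝ => (Zm z ^ p).trace)
      (lf fun e => 2 * p * (Zm z ^ (p - 1)) e.1.1 e.1.2) z := by
  unfold Matrix.trace
  simp only [diag_apply]
  have h1 : HasFDerivAt (fun z : Pair n → ℝ => ∑ i, (Zm z ^ p) i i)
      (∑ i, lf fun e => DZ p e z i i) z := HasFDerivAt.fun_sum fun i _ => fd_pow p z i i
  refine h1.congr_fderiv ?_
  ext w
  rw [_root_.sum_apply, lf_apply]
  simp only [lf_apply]
  rw [Finset.sum_comm]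
  refine Finset.sum_congr rfl fun e _ => ?_
  rw [← Finset.sum_mul, ← tr_DZ]
  rfl

lemma eg_tr (p : ℕ) : EG fun z : Pair n → ℝ => (Zm z ^ p).trace := by
  unfold Matrix.trace
  simp only [diag_apply]
  exact EG.sum _ fun i _ => eg_pow p i i

end Vale.Agent.P146.H737
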