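import Vale.Agent.P146.H737.GMb

/-!
The recursion for the moments of the trace of the powers of the matrix of the couplings.
-/

open MeasureTheory ProbabilityTheory

namespace Vale.Agent.P146.H737

open Vale.Agent.P157.Lv Vale.Agent.P146.R1C Matrix
open Vale.Agent.P146.H332 (sum_pairs)
open Vale.Agent.P146.H499 (Zm Zm_symm Zm_self Zm_pair)
open Vale.Agent.P146.H785 (lf lf_apply pd_of_fd)

set_option linter.unusedSectionVars false

variable {n : ℕ}

/-- the moments -/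
noncomputable def mo (n p : ℕ) : ℝ := ∫ z, (Zm z ^ p).trace ∂(gI (Pair n))

lemma mo_zero : mo n 0 = n := by
  unfold mo
  simp [Matrix.trace_one]

lemma pow_tr (z : Pair n → ℝ) (p : ℕ) : (Zm z ^ p)ᵀ = Zm z ^ p := by
  rw [transpose_pow, Zm_tr]

lemma pow_symm (z : Pair n → ℝ) (p : ℕ) (i j : Fin n) : (Zm z ^ p) i j = (Zm z ^ p) j i := by
  conv_lhs => rw [← pow_tr z p]
  rw [transpose_apply]

lemma tr_even_nonneg (z : Pair n → ℝ) (k : ℕ) : 0 ≤ (Zm z ^ (2 * k)).trace := by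
  have h1 : Zm z ^ (2 * k) = Zm z ^ k * Zm z ^ k := by rw [two_mul, pow_add]
  rw [h1]
  unfold Matrix.trace
  refine Finset.sum_nonneg fun i _ => ?_
  rw [diag_apply, mul_apply]
  refine Finset.sum_nonneg fun j _ => ?_
  rw [pow_symm z k j i]
  exact mul_self_nonneg _

lemma mo_nonneg (k : ℕ) : 0 ≤ mo n (2 * k) := integral_nonneg fun z => tr_even_nonneg z k

lemma Zm_neg (z : Pair n → ℝ) : Zm ((-1 : ℝ) • z) = -Zm z := by
  ext i j
  rw [Matrix.neg_apply, Zm_sum, Zm_sum, ← Finset.sum_neg_distrib]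
  refine Finset.sum_congr rfl fun e _ => ?_
  rw [Pi.smul_apply, smul_eq_mul]; ring

lemma mo_odd {p : ℕ} (hp : Odd p) : mo n p = 0 := by
  have h1 := H425.gI_rot (f := fun z : Pair n → ℝ => (Zm z ^ p).trace) (eg_tr p)
    (a := 1) (b := 0) (c := -1) (by norm_num) 0
  simp only [zero_add, one_smul, zero_smul, add_zero, integral_const, probReal_univ,
    smul_eq_mul, one_mul, Zm_neg, hp.neg_pow, Matrix.trace_neg, integral_neg] at h1
  unfold mo
  linarith

lemma two_sum (S : Fin n → Fin n → ℝ) (hS : ∀ p q, S p q = S q p) :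
    2 * ∑ e : Pair n, S e.1.1 e.1.2 = ∑ p, ∑ q, S p q - ∑ p, S p p := by
  have h1 := sum_pairs (n := n) (fun i j => if i = j then 0 else S i j)
    (fun i j => by
      by_cases h : i = j
      · subst h; rfl
      · rw [if_neg h, if_neg (Ne.symm h), hS i j]) (fun i => by simp)
  have h2 : ∑ e : Pair n, (if e.1.1 = e.1.2 then (0 : ℝ) else S e.1.1 e.1.2) =
      ∑ e : Pair n, S e.1.1 e.1.2 :=
    Finset.sum_congr rfl fun e _ => by rw [if_neg e.2.ne]
  rw [h2] at h1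
  rw [← h1, ← Finset.sum_sub_distrib]
  refine Finset.sum_congr rfl fun p _ => ?_
  have h3 : ∀ q, (if p = q then (0 : ℝ) else S p q) = S p q - if p = q then S p q else 0 := by
    intro q; split_ifs <;> simp
  simp only [h3, Finset.sum_sub_distrib, Finset.sum_ite_eq, Finset.mem_univ, if_true]

/-- the expectation at a rotated point -/
lemma mo_rot (p : ℕ) {c s : ℝ} (h : c ^ 2 + s ^ 2 = 1) :
    ∫ w : Pair n ⊕ Pair n → ℝ, (Zm (c • br w - s • bl w) ^ p).trace ∂(gI (Pair n ⊕ Pair n)) =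
      mo n p := by
  rw [int_bb (Φ := fun a b : Pair n → ℝ => (Zm (c • b - s • a) ^ p).trace)
    (eg_lin2' (eg_tr p) c s)]
  have h1 := H425.gI_rot (f := fun z : Pair n → ℝ => (Zm z ^ p).trace) (eg_tr p)
    (a := -s) (b := c) (c := 1) (by linarith) 0
  simp only [zero_add, one_smul] at h1
  unfold mo
  rw [← h1]
  refine integral_congr_ae (Filter.Eventually.of_forall fun a => ?_)
  refine integral_congr_ae (Filter.Eventually.of_forall fun b => ?_)
  have : c • b - s • a = -s • a + c • b := by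
    rw [neg_smul]; abel
  simp only [this]

lemma mo_br (p : ℕ) : ∫ w : Pair n ⊕ Pair n → ℝ, (Zm (br w) ^ p).trace
    ∂(gI (Pair n ⊕ Pair n)) = mo n p := by
  have h1 := mo_rot (n := n) p (c := 1) (s := 0) (by norm_num)
  simpa using h1

/-- the gradients of two traces -/
lemma grad_bd (z w : Pair n → ℝ) {c d k : ℕ} (h : c - 1 + (d - 1) = 2 * k) :
    |∑ e : Pair n, 2 * c * (Zm z ^ (c - 1)) e.1.1 e.1.2 *
      (2 * d * (Zm w ^ (d - 1)) e.1.1 e.1.2)| ≤
      4 * c * d * ((Zm z ^ (2 * k)).trace + (Zm w ^ (2 * k)).trace) := by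
  have e1 : ∑ e : Pair n, 2 * c * (Zm z ^ (c - 1)) e.1.1 e.1.2 *
      (2 * d * (Zm w ^ (d - 1)) e.1.1 e.1.2) = (2 * c * d : ℝ) * (2 * ∑ e : Pair n,
        (Zm z ^ (c - 1)) e.1.1 e.1.2 * (Zm w ^ (d - 1)) e.1.1 e.1.2) := by
    rw [Finset.mul_sum, Finset.mul_sum]
    exact Finset.sum_congr rfl fun e _ => by ring
  rw [e1, two_sum (fun p q => (Zm z ^ (c - 1)) p q * (Zm w ^ (d - 1)) p q) (fun p q => by
    rw [pow_symm z, pow_symm w]), abs_mul, abs_of_nonneg (by positivity)]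
  have h1 := tr_mix (Zm_tr z) (Zm_tr w) h
  have h2 := dg_mix (Zm_tr z) (Zm_tr w) h
  have h3 := (abs_sub (∑ p, ∑ q, (Zm z ^ (c - 1)) p q * (Zm w ^ (d - 1)) p q)
    (∑ p, (Zm z ^ (c - 1)) p p * (Zm w ^ (d - 1)) p p))
  have h4 : (0 : ℝ) ≤ 2 * c * d := by positivity
  have h5 := mul_le_mul_of_nonneg_left (h3.trans (add_le_add h1 h2)) h4
  linarith

lemma cov_tr {c d k : ℕ} (h : c - 1 + (d - 1) = 2 * k) :
    ∫ z, (Zm z ^ c).trace * (Zm z ^ d).trace ∂(gI (Pair n)) ≤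
      mo n c * mo n d + 16 * c * d * mo n (2 * k) := by
  have key := cov_grad (κ := Pair n) (f := fun z => (Zm z ^ c).trace)
    (g := fun z => (Zm z ^ d).trace)
    (f' := fun e z => 2 * c * (Zm z ^ (c - 1)) e.1.1 e.1.2)
    (g' := fun e z => 2 * d * (Zm z ^ (d - 1)) e.1.1 e.1.2)
    (eg_tr c) (fun e => (eg_pow _ _ _).const_mul _) (fd_tr c) (eg_tr d)
    (fun e => (eg_pow _ _ _).const_mul _) (fd_tr d) (C := 8 * c * d * mo n (2 * k)) (by
      intro a s _ _ hs
      have i1 := (eg_lin2' (κ := Pair n) (eg_tr (n := n) (2 * k)) a s).integrable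
      have i2 := (eg_br (κ := Pair n) (eg_tr (n := n) (2 * k))).integrable
      refine (abs_integral_le_integral_abs).trans ?_
      have e1 : ∫ w : Pair n ⊕ Pair n → ℝ, 4 * c * d * ((Zm (a • br w - s • bl w) ^
          (2 * k)).trace + (Zm (br w) ^ (2 * k)).trace) ∂(gI (Pair n ⊕ Pair n)) =
          8 * c * d * mo n (2 * k) := by
        rw [integral_const_mul, integral_add i1 i2, mo_rot _ hs, mo_br]
        ring
      rw [← e1]
      refine integral_mono ?_ ((i1.add i2).const_mul _) fun w => grad_bd _ _ h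
      refine (EG.sum _ fun e _ => ?_).abs.integrable
      exact ((eg_lin2' (eg_pow (c - 1) e.1.1 e.1.2) a s).const_mul _).mul
        ((eg_br (eg_pow (d - 1) e.1.1 e.1.2)).const_mul _))
  have h1 := (abs_le.1 key).2
  unfold mo at h1 ⊢
  linarith

/-- the trace of a power as a sum over the couplings -/
lemma tr_succ (z : Pair n → ℝ) (p : ℕ) :
    (Zm z ^ (p + 1)).trace = 2 * ∑ e : Pair n, z e * (Zm z ^ p) e.1.1 e.1.2 := by
  have h1 := two_sum (fun i j => (Zm z ^ p) i j * Zm z i j) (fun i j => by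
    rw [pow_symm z, Zm_symm z])
  have h2 : ∑ i, (Zm z ^ p) i i * Zm z i i = 0 :=
    Finset.sum_eq_zero fun i _ => by rw [Zm_self, mul_zero]
  have h3 : ∑ e : Pair n, (Zm z ^ p) e.1.1 e.1.2 * Zm z e.1.1 e.1.2 =
      ∑ e : Pair n, z e * (Zm z ^ p) e.1.1 e.1.2 :=
    Finset.sum_congr rfl fun e _ => by rw [Zm_pair]; ring
  rw [h2, h3, sub_zero] at h1
  rw [h1, pow_succ]
  unfold Matrix.trace
  refine Finset.sum_congr rfl fun i _ => ?_
  rw [diag_apply, mul_apply]
  exact Finset.sum_congr rfl fun j _ => by rw [Zm_symm z j i]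

/-- the integrand after the integration by parts -/
noncomputable def RS (p : ℕ) (z : Pair n → ℝ) (i j : Fin n) : ℝ :=
  ∑ c ∈ Finset.range p, ((Zm z ^ c) i i * (Zm z ^ (p - 1 - c)) j j +
    (Zm z ^ c) i j * (Zm z ^ (p - 1 - c)) i j)

lemma RS_symm (p : ℕ) (z : Pair n → ℝ) (i j : Fin n) : RS p z i j = RS p z j i := by
  unfold RS
  rw [Finset.sum_add_distrib, Finset.sum_add_distrib]
  congr 1
  · rw [← Finset.sum_range_reflect (fun c => (Zm z ^ c) i i * (Zm z ^ (p - 1 - c)) j j) p]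
    refine Finset.sum_congr rfl fun c hc => ?_
    rw [Finset.mem_range] at hc
    rw [show p - 1 - (p - 1 - c) = c by omega]; ring
  · exact Finset.sum_congr rfl fun c _ => by rw [pow_symm z c, pow_symm z (p - 1 - c)]

lemma eg_RS (p : ℕ) (i j : Fin n) : EG fun z : Pair n → ℝ => RS p z i j := by
  unfold RS
  exact EG.sum _ fun c _ => ((eg_pow _ _ _).mul (eg_pow _ _ _)).add
    ((eg_pow _ _ _).mul (eg_pow _ _ _))

lemma mo_succ (p : ℕ) : mo n (p + 1) =
    ∫ z, (2 * ∑ e : Pair n, RS p z e.1.1 e.1.2) ∂(gI (Pair n)) := by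
  unfold mo
  simp only [tr_succ]
  rw [integral_const_mul, integral_const_mul,
    integral_finsetSum _ fun e _ => ((EG.coord e).mul (eg_pow p _ _)).integrable,
    integral_finsetSum _ fun e _ => (eg_RS p _ _).integrable]
  congr 1
  refine Finset.sum_congr rfl fun e _ => ?_
  have hpd : PD e (fun z : Pair n → ℝ => (Zm z ^ p) e.1.1 e.1.2)
      (fun z => DZ p e z e.1.1 e.1.2) :=
    pd_of_fd (G' := fun e' z => DZ p e' z e.1.1 e.1.2)
      (fun u => fd_pow p u e.1.1 e.1.2) e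
  rw [hpd.stein (eg_pow p _ _) (eg_DZ p e _ _)]
  refine integral_congr_ae (Filter.Eventually.of_forall fun z => ?_)
  simp only [DZ_sum, Matrix.sum_apply, em_mul, RS]

lemma RS_le (z : Pair n → ℝ) (k : ℕ) : 2 * ∑ e : Pair n, RS (2 * k + 1) z e.1.1 e.1.2 ≤
    ∑ c ∈ Finset.range (2 * k + 1), (Zm z ^ c).trace * (Zm z ^ (2 * k - c)).trace +
      6 * (2 * k + 1) * (Zm z ^ (2 * k)).trace := by
  rw [two_sum (RS (2 * k + 1) z) (RS_symm _ z)]
  have e1 : ∑ p, ∑ q, RS (2 * k + 1) z p q - ∑ p, RS (2 * k + 1) z p p =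
      ∑ c ∈ Finset.range (2 * k + 1), ((Zm z ^ c).trace * (Zm z ^ (2 * k - c)).trace +
        (∑ p, ∑ q, (Zm z ^ c) p q * (Zm z ^ (2 * k - c)) p q -
        2 * ∑ p, (Zm z ^ c) p p * (Zm z ^ (2 * k - c)) p p)) := by
    unfold RS
    have a1 : ∑ p : Fin n, ∑ q : Fin n, ∑ c ∈ Finset.range (2 * k + 1),
        ((Zm z ^ c) p p * (Zm z ^ (2 * k + 1 - 1 - c)) q q +
          (Zm z ^ c) p q * (Zm z ^ (2 * k + 1 - 1 - c)) p q) =
        ∑ c ∈ Finset.range (2 * k + 1), ∑ p : Fin n, ∑ q : Fin n,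
          ((Zm z ^ c) p p * (Zm z ^ (2 * k + 1 - 1 - c)) q q +
          (Zm z ^ c) p q * (Zm z ^ (2 * k + 1 - 1 - c)) p q) := by
      rw [Finset.sum_comm]
      rw [Finset.sum_comm]
      calc ∑ p : Fin n, ∑ q : Fin n, ∑ c ∈ Finset.range (2 * k + 1),
            ((Zm z ^ c) p p * (Zm z ^ (2 * k + 1 - 1 - c)) q q +
              (Zm z ^ c) p q * (Zm z ^ (2 * k + 1 - 1 - c)) p q) =
          ∑ p : Fin n, ∑ c ∈ Finset.range (2 * k + 1), ∑ q : Fin n,
            ((Zm z ^ c) p p * (Zm z ^ (2 * k + 1 - 1 - c)) q q +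
              (Zm z ^ c) p q * (Zm z ^ (2 * k + 1 - 1 - c)) p q) :=
            Finset.sum_congr rfl fun p _ => Finset.sum_comm
        _ = _ := Finset.sum_comm
    have a2 : ∑ p : Fin n, ∑ c ∈ Finset.range (2 * k + 1),
        ((Zm z ^ c) p p * (Zm z ^ (2 * k + 1 - 1 - c)) p p +
          (Zm z ^ c) p p * (Zm z ^ (2 * k + 1 - 1 - c)) p p) =
        ∑ c ∈ Finset.range (2 * k + 1), ∑ p : Fin n,
          ((Zm z ^ c) p p * (Zm z ^ (2 * k + 1 - 1 - c)) p p +
          (Zm z ^ c) p p * (Zm z ^ (2 * k + 1 - 1 - c)) p p) := Finset.sum_comm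
    rw [a1, a2, ← Finset.sum_sub_distrib]
    refine Finset.sum_congr rfl fun c _ => ?_
    rw [show 2 * k + 1 - 1 - c = 2 * k - c by omega]
    unfold Matrix.trace
    simp only [diag_apply, Finset.sum_mul_sum, Finset.sum_add_distrib]
    ring
  rw [e1, Finset.sum_add_distrib]
  have h1 : ∑ c ∈ Finset.range (2 * k + 1),
      (∑ p, ∑ q, (Zm z ^ c) p q * (Zm z ^ (2 * k - c)) p q -
        2 * ∑ p, (Zm z ^ c) p p * (Zm z ^ (2 * k - c)) p p) ≤
      ∑ _c ∈ Finset.range (2 * k + 1), 6 * (Zm z ^ (2 * k)).trace := by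
    refine Finset.sum_le_sum fun c hc => ?_
    rw [Finset.mem_range] at hc
    have h : c + (2 * k - c) = 2 * k := by omega
    have h2 := (abs_le.1 (tr_mix (Zm_tr z) (Zm_tr z) h)).2
    have h3 := (abs_le.1 (dg_mix (Zm_tr z) (Zm_tr z) h)).1
    linarith
  rw [Finset.sum_const, Finset.card_range, nsmul_eq_mul] at h1
  push_cast at h1
  linarith

lemma cov_le2 {k c : ℕ} (hc : c ≤ 2 * k) :
    ∫ z, (Zm z ^ c).trace * (Zm z ^ (2 * k - c)).trace ∂(gI (Pair n)) ≤
      mo n c * mo n (2 * k - c) + 16 * (k : ℝ) ^ 2 * mo n (2 * (k - 1)) := by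
  have hm := mo_nonneg (n := n) (k - 1)
  by_cases h0 : c = 0
  · subst h0
    simp only [pow_zero, Matrix.trace_one, Fintype.card_fin, Nat.sub_zero]
    rw [integral_const_mul, mo_zero]
    have : 0 ≤ 16 * (k : ℝ) ^ 2 * mo n (2 * (k - 1)) := by positivity
    unfold mo at this ⊢
    linarith
  by_cases h1 : 2 * k - c = 0
  · rw [h1]
    simp only [pow_zero, Matrix.trace_one, Fintype.card_fin]
    rw [integral_mul_const, mo_zero]
    have : 0 ≤ 16 * (k : ℝ) ^ 2 * mo n (2 * (k - 1)) := by positivity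
    unfold mo at this ⊢
    linarith
  refine (cov_tr (n := n) (c := c) (d := 2 * k - c) (k := k - 1) (by omega)).trans ?_
  have h2 : (c : ℝ) * ((2 * k - c : ℕ) : ℝ) ≤ (k : ℝ) ^ 2 := by
    rw [Nat.cast_sub hc]
    push_cast
    nlinarith [sq_nonneg ((c : ℝ) - k)]
  have h3 := mul_le_mul_of_nonneg_right h2 hm
  nlinarith

lemma even_sum (f : ℕ → ℝ) (h : ∀ j, f (2 * j + 1) = 0) (k : ℕ) :
    ∑ c ∈ Finset.range (2 * k + 1), f c = ∑ j ∈ Finset.range (k + 1), f (2 * j) := by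
  induction k with
  | zero => simp
  | succ k ih =>
    rw [show 2 * (k + 1) + 1 = 2 * k + 1 + 1 + 1 by ring, Finset.sum_range_succ,
      Finset.sum_range_succ, ih, h k, Finset.sum_range_succ _ (k + 1), add_zero]
    rw [show 2 * k + 1 + 1 = 2 * (k + 1) by ring]

/-- **The recursion.** -/
theorem mo_rec (k : ℕ) : mo n (2 * (k + 1)) ≤
    ∑ j ∈ Finset.range (k + 1), mo n (2 * j) * mo n (2 * (k - j)) +
      48 * (k : ℝ) ^ 3 * mo n (2 * (k - 1)) + 12 * ((k : ℝ) + 1) * mo n (2 * k) := by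
  have hm := mo_nonneg (n := n) (k - 1)
  have hm2 := mo_nonneg (n := n) k
  rw [show 2 * (k + 1) = 2 * k + 1 + 1 by ring, mo_succ]
  have h1 : ∫ z, (2 * ∑ e : Pair n, RS (2 * k + 1) z e.1.1 e.1.2) ∂(gI (Pair n)) ≤
      ∫ z, (∑ c ∈ Finset.range (2 * k + 1), (Zm z ^ c).trace * (Zm z ^ (2 * k - c)).trace +
        6 * (2 * k + 1) * (Zm z ^ (2 * k)).trace) ∂(gI (Pair n)) :=
    integral_mono ((EG.sum _ fun e _ => eg_RS _ _ _).const_mul _).integrable
      ((EG.sum _ fun c _ => (eg_tr c).mul (eg_tr _)).add ((eg_tr _).const_mul _)).integrable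
      fun z => RS_le z k
  have h1' : ∫ z, (∑ c ∈ Finset.range (2 * k + 1), (Zm z ^ c).trace * (Zm z ^ (2 * k - c)).trace +
        6 * (2 * k + 1) * (Zm z ^ (2 * k)).trace) ∂(gI (Pair n)) =
      ∑ c ∈ Finset.range (2 * k + 1),
        ∫ z, (Zm z ^ c).trace * (Zm z ^ (2 * k - c)).trace ∂(gI (Pair n)) +
        6 * (2 * k + 1) * mo n (2 * k) := by
    rw [integral_add (EG.sum _ fun c _ => (eg_tr c).mul (eg_tr _)).integrable
      ((eg_tr _).const_mul _).integrable,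
      integral_finsetSum _ fun c _ => ((eg_tr c).mul (eg_tr _)).integrable]
    congr 1
    exact integral_const_mul _ _
  rw [h1'] at h1
  have h2 : ∑ c ∈ Finset.range (2 * k + 1),
      ∫ z, (Zm z ^ c).trace * (Zm z ^ (2 * k - c)).trace ∂(gI (Pair n)) ≤
      ∑ c ∈ Finset.range (2 * k + 1), (mo n c * mo n (2 * k - c) +
        16 * (k : ℝ) ^ 2 * mo n (2 * (k - 1))) := by
    refine Finset.sum_le_sum fun c hc => cov_le2 ?_
    rw [Finset.mem_range] at hc
    omega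
  rw [Finset.sum_add_distrib, Finset.sum_const, Finset.card_range, nsmul_eq_mul,
    even_sum (fun c => mo n c * mo n (2 * k - c)) (fun j => by
      show mo n (2 * j + 1) * mo n (2 * k - (2 * j + 1)) = 0
      rw [mo_odd ⟨j, rfl⟩, zero_mul]) k] at h2
  have h3 : ∑ j ∈ Finset.range (k + 1), mo n (2 * j) * mo n (2 * k - 2 * j) =
      ∑ j ∈ Finset.range (k + 1), mo n (2 * j) * mo n (2 * (k - j)) :=
    Finset.sum_congr rfl fun j _ => by rw [Nat.mul_sub]
  rw [h3] at h2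
  have h4 : ((2 * k + 1 : ℕ) : ℝ) * (16 * (k : ℝ) ^ 2 * mo n (2 * (k - 1))) ≤
      48 * (k : ℝ) ^ 3 * mo n (2 * (k - 1)) := by
    have : ((2 * k + 1 : ℕ) : ℝ) * (16 * (k : ℝ) ^ 2) ≤ 48 * (k : ℝ) ^ 3 := by
      rcases Nat.eq_zero_or_pos k with hk | hk
      · subst hk; simp
      · have hk1 : (1 : ℝ) ≤ k := by exact_mod_cast hk
        push_cast
        nlinarith [mul_le_mul_of_nonneg_left hk1 (sq_nonneg (k : ℝ))]
    have h5 := mul_le_mul_of_nonneg_right this hm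
    linarith
  have h5 : 6 * (2 * (k : ℝ) + 1) * mo n (2 * k) ≤ 12 * ((k : ℝ) + 1) * mo n (2 * k) :=
    mul_le_mul_of_nonneg_right (by linarith) hm2
  linarith

end Vale.Agent.P146.H737
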