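import Mathlib.Combinatorics.Enumerative.Catalan.Basic
import Vale.Agent.P146.H737.GMc

/-!
The moments of the matrix of the couplings are at most twice those of the semicircle law.
-/

open MeasureTheory ProbabilityTheory Filter Topology

namespace Vale.Agent.P146.H737

open Vale.Agent.P157.Lv
open Vale.Agent.P146.H499 (Zm)

variable {n : ℕ}

lemma cat_ratio (q : ℕ) : ((q : ℝ) + 2) * catalan (q + 1) = (4 * q + 2) * catalan q := by
  have h1 := succ_mul_catalan_eq_centralBinom q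
  have h2 := succ_mul_catalan_eq_centralBinom (q + 1)
  have h3 := Nat.succ_mul_centralBinom_succ q
  rw [← h1, ← h2] at h3
  have h4 : (q + 1) * ((q + 2) * catalan (q + 1)) = (q + 1) * ((4 * q + 2) * catalan q) := by
    calc (q + 1) * ((q + 2) * catalan (q + 1)) = (q + 1) * ((q + 1 + 1) * catalan (q + 1)) := by
          ring
      _ = 2 * (2 * q + 1) * ((q + 1) * catalan q) := h3
      _ = _ := by ring
  have h5 := Nat.eq_of_mul_eq_mul_left (Nat.succ_pos q) h4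
  exact_mod_cast h5

lemma cat_mono (q : ℕ) : (catalan q : ℝ) ≤ catalan (q + 1) := by
  have h1 := cat_ratio q
  have h0 : (0 : ℝ) ≤ catalan q := Nat.cast_nonneg _
  have hq : (0 : ℝ) ≤ q := Nat.cast_nonneg _
  have h2 : ((q : ℝ) + 2) * catalan q ≤ ((q : ℝ) + 2) * catalan (q + 1) := by
    rw [h1]
    exact mul_le_mul_of_nonneg_right (by linarith) h0
  exact le_of_mul_le_mul_left h2 (by positivity)

lemma cat_sum (k : ℕ) : (catalan (k + 1) : ℝ) =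
    ∑ j ∈ Finset.range (k + 1), (catalan j : ℝ) * catalan (k - j) := by
  rw [catalan_succ, Finset.sum_range]
  push_cast
  rfl

lemma cat_bd (q : ℕ) : (catalan q : ℝ) ^ 2 * ((q : ℝ) + 1) ^ 3 ≤ 16 ^ q := by
  induction q with
  | zero => simp
  | succ q ih =>
    have h1 := cat_ratio q
    have hq : (0 : ℝ) ≤ q := Nat.cast_nonneg _
    have h2 : ((q : ℝ) + 2) ^ 2 * ((catalan (q + 1) : ℝ) ^ 2 * (((q + 1 : ℕ) : ℝ) + 1) ^ 3) =
        (4 * q + 2) ^ 2 * ((q : ℝ) + 2) ^ 3 * (catalan q : ℝ) ^ 2 := by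
      push_cast
      have : ((q : ℝ) + 2) ^ 2 * (catalan (q + 1) : ℝ) ^ 2 = (4 * q + 2) ^ 2 *
          (catalan q : ℝ) ^ 2 := by
        rw [← mul_pow, h1, mul_pow]
      linear_combination ((q : ℝ) + 1 + 1) ^ 3 * this
    have h3 : (4 * (q : ℝ) + 2) ^ 2 * ((q : ℝ) + 2) ^ 3 ≤
        ((q : ℝ) + 2) ^ 2 * (16 * ((q : ℝ) + 1) ^ 3) := by
      have : (4 * (q : ℝ) + 2) ^ 2 * ((q : ℝ) + 2) ≤ 16 * ((q : ℝ) + 1) ^ 3 := by nlinarith
      have h4 := mul_le_mul_of_nonneg_left this (sq_nonneg ((q : ℝ) + 2))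
      linarith
    have h4 : ((q : ℝ) + 2) ^ 2 * ((catalan (q + 1) : ℝ) ^ 2 * (((q + 1 : ℕ) : ℝ) + 1) ^ 3) ≤
        ((q : ℝ) + 2) ^ 2 * 16 ^ (q + 1) := by
      rw [h2]
      calc (4 * (q : ℝ) + 2) ^ 2 * ((q : ℝ) + 2) ^ 3 * (catalan q : ℝ) ^ 2 ≤
          ((q : ℝ) + 2) ^ 2 * (16 * ((q : ℝ) + 1) ^ 3) * (catalan q : ℝ) ^ 2 :=
            mul_le_mul_of_nonneg_right h3 (sq_nonneg _)
        _ = ((q : ℝ) + 2) ^ 2 * (16 * ((catalan q : ℝ) ^ 2 * ((q : ℝ) + 1) ^ 3)) := by ring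
        _ ≤ ((q : ℝ) + 2) ^ 2 * (16 * 16 ^ q) := by gcongr
        _ = _ := by ring
    exact le_of_mul_le_mul_left h4 (by positivity)

/-- the growth factor -/
noncomputable def th (n Q : ℕ) : ℝ := 1 + 48 * (Q : ℝ) ^ 3 / n ^ 2 + 12 * Q / n

lemma mo_le (hn : 0 < n) {Q : ℕ} : ∀ q ≤ Q,
    mo n (2 * q) ≤ (n : ℝ) ^ (q + 1) * catalan q * th n Q ^ q := by
  have hn' : (0 : ℝ) < n := by exact_mod_cast hn
  have ht1 : 1 ≤ th n Q := by
    unfold th
    have h1 : 0 ≤ 48 * (Q : ℝ) ^ 3 / n ^ 2 := by positivity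
    have h2 : 0 ≤ 12 * (Q : ℝ) / n := by positivity
    linarith
  have ht0 : 0 ≤ th n Q := by linarith
  intro q
  induction q using Nat.strong_induction_on with
  | _ q ih =>
    intro hq
    rcases Nat.eq_zero_or_pos q with h0 | h0
    · subst h0
      simp [mo_zero]
    obtain ⟨k, rfl⟩ : ∃ k, q = k + 1 := ⟨q - 1, by omega⟩
    have hkQ : (k : ℝ) + 1 ≤ Q := by exact_mod_cast hq
    have hk0 : (0 : ℝ) ≤ k := Nat.cast_nonneg _
    have hC : (0 : ℝ) ≤ catalan (k + 1) := Nat.cast_nonneg _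
    have hCk : (0 : ℝ) ≤ catalan k := Nat.cast_nonneg _
    have a1 : ∑ j ∈ Finset.range (k + 1), mo n (2 * j) * mo n (2 * (k - j)) ≤
        (n : ℝ) ^ (k + 2) * catalan (k + 1) * th n Q ^ k := by
      rw [cat_sum, Finset.mul_sum, Finset.sum_mul]
      refine Finset.sum_le_sum fun j hj => ?_
      rw [Finset.mem_range] at hj
      have b1 := ih j (by omega) (by omega)
      have b2 := ih (k - j) (by omega) (by omega)
      calc mo n (2 * j) * mo n (2 * (k - j)) ≤ ((n : ℝ) ^ (j + 1) * catalan j * th n Q ^ j) *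
            ((n : ℝ) ^ (k - j + 1) * catalan (k - j) * th n Q ^ (k - j)) :=
            mul_le_mul b1 b2 (mo_nonneg _) (by positivity)
        _ = ((n : ℝ) ^ (j + 1) * (n : ℝ) ^ (k - j + 1)) * (catalan j * catalan (k - j)) *
            (th n Q ^ j * th n Q ^ (k - j)) := by ring
        _ = _ := by
          rw [← pow_add, ← pow_add, show j + 1 + (k - j + 1) = k + 2 by omega,
            show j + (k - j) = k by omega]
    have a2 : 48 * (k : ℝ) ^ 3 * mo n (2 * (k - 1)) ≤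
        (n : ℝ) ^ (k + 2) * catalan (k + 1) * th n Q ^ k * (48 * (Q : ℝ) ^ 3 / n ^ 2) := by
      rcases Nat.eq_zero_or_pos k with hk | hk
      · subst hk
        have : 0 ≤ (n : ℝ) ^ (0 + 2) * catalan (0 + 1) * th n Q ^ 0 *
          (48 * (Q : ℝ) ^ 3 / n ^ 2) := by positivity
        simpa using this
      · obtain ⟨m, rfl⟩ : ∃ m, k = m + 1 := ⟨k - 1, by omega⟩
        rw [show m + 1 - 1 = m by omega]
        have b1 := ih m (by omega) (by omega)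
        have b2 : (catalan m : ℝ) ≤ catalan (m + 1 + 1) := (cat_mono m).trans (cat_mono (m + 1))
        have b3 : ((m + 1 : ℕ) : ℝ) ^ 3 ≤ (Q : ℝ) ^ 3 :=
          pow_le_pow_left₀ (Nat.cast_nonneg _) (by exact_mod_cast (by omega : m + 1 ≤ Q)) 3
        have b4 : th n Q ^ m ≤ th n Q ^ (m + 1) := pow_le_pow_right₀ ht1 (Nat.le_succ m)
        calc 48 * ((m + 1 : ℕ) : ℝ) ^ 3 * mo n (2 * m) ≤
            48 * (Q : ℝ) ^ 3 * ((n : ℝ) ^ (m + 1) * catalan (m + 1 + 1) * th n Q ^ (m + 1)) := by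
              refine mul_le_mul (by linarith) (b1.trans ?_) (mo_nonneg _) (by positivity)
              gcongr
          _ = _ := by
              rw [show (n : ℝ) ^ (m + 1 + 2) = (n : ℝ) ^ (m + 1) * n ^ 2 by ring]
              field_simp
    have a3 : 12 * ((k : ℝ) + 1) * mo n (2 * k) ≤
        (n : ℝ) ^ (k + 2) * catalan (k + 1) * th n Q ^ k * (12 * Q / n) := by
      have b1 := ih k (by omega) (by omega)
      calc 12 * ((k : ℝ) + 1) * mo n (2 * k) ≤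
          12 * (Q : ℝ) * ((n : ℝ) ^ (k + 1) * catalan (k + 1) * th n Q ^ k) := by
            refine mul_le_mul (by linarith) (b1.trans ?_) (mo_nonneg _) (by positivity)
            have := cat_mono k
            gcongr
        _ = _ := by
            rw [show (n : ℝ) ^ (k + 2) = (n : ℝ) ^ (k + 1) * n by ring]
            field_simp
    have h1 := mo_rec (n := n) k
    have e1 : (n : ℝ) ^ (k + 1 + 1) * catalan (k + 1) * th n Q ^ (k + 1) =
        (n : ℝ) ^ (k + 2) * catalan (k + 1) * th n Q ^ k +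
        (n : ℝ) ^ (k + 2) * catalan (k + 1) * th n Q ^ k * (48 * (Q : ℝ) ^ 3 / n ^ 2) +
        (n : ℝ) ^ (k + 2) * catalan (k + 1) * th n Q ^ k * (12 * Q / n) := by
      rw [pow_succ (th n Q) k]
      unfold th
      ring
    rw [e1]
    linarith

/-- **The moments of the matrix of the couplings.** -/
theorem gm {q : ℕ} (hn : 0 < n)
    (h : 48 * (q : ℝ) ^ 4 / n ^ 2 + 12 * (q : ℝ) ^ 2 / n ≤ 1 / 2) :
    ∫ z, (Zm z ^ (2 * q)).trace ∂(gI (Pair n)) ≤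
      2 * n * (4 * n) ^ q * ((q : ℝ) + 1) ^ (-(3 / 2) : ℝ) := by
  have hn' : (0 : ℝ) < n := by exact_mod_cast hn
  have h1 := mo_le (Q := q) hn q le_rfl
  have hq1 : (0 : ℝ) < (q : ℝ) + 1 := by positivity
  have h2 : th n q ^ q ≤ 2 := by
    have a1 : th n q ≤ Real.exp (48 * (q : ℝ) ^ 3 / n ^ 2 + 12 * q / n) := by
      unfold th
      have := Real.add_one_le_exp (48 * (q : ℝ) ^ 3 / n ^ 2 + 12 * q / n)
      linarith
    have a0 : 0 ≤ th n q := by unfold th; positivity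
    have a2 : th n q ^ q ≤ Real.exp (1 / 2) := by
      refine (pow_le_pow_left₀ a0 a1 q).trans ?_
      rw [← Real.exp_nat_mul]
      refine Real.exp_le_exp.2 (le_trans (le_of_eq ?_) h)
      ring
    have a3 : Real.exp (1 / 2) ≤ 2 := by
      have b1 : Real.exp (1 / 2) ^ 2 = Real.exp 1 := by
        rw [← Real.exp_nat_mul]; norm_num
      have b2 := Real.exp_one_lt_d9
      nlinarith [Real.exp_pos (1 / 2 : ℝ)]
    exact a2.trans a3
  have h3 : (catalan q : ℝ) ≤ 4 ^ q * ((q : ℝ) + 1) ^ (-(3 / 2) : ℝ) := by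
    have a1 := cat_bd q
    have a2 : ((q : ℝ) + 1) ^ 3 * (((q : ℝ) + 1) ^ (-(3 / 2) : ℝ)) ^ 2 = 1 := by
      rw [← Real.rpow_natCast (((q : ℝ) + 1) ^ (-(3 / 2) : ℝ)) 2, ← Real.rpow_mul hq1.le,
        ← Real.rpow_natCast ((q : ℝ) + 1) 3, ← Real.rpow_add hq1]
      norm_num
    have a3 : (catalan q : ℝ) ^ 2 ≤ (4 ^ q * ((q : ℝ) + 1) ^ (-(3 / 2) : ℝ)) ^ 2 := by
      have b1 := mul_le_mul_of_nonneg_right a1 (sq_nonneg (((q : ℝ) + 1) ^ (-(3 / 2) : ℝ)))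
      calc (catalan q : ℝ) ^ 2 = (catalan q : ℝ) ^ 2 * (((q : ℝ) + 1) ^ 3 *
            (((q : ℝ) + 1) ^ (-(3 / 2) : ℝ)) ^ 2) := by rw [a2, mul_one]
        _ = (catalan q : ℝ) ^ 2 * ((q : ℝ) + 1) ^ 3 *
            (((q : ℝ) + 1) ^ (-(3 / 2) : ℝ)) ^ 2 := by ring
        _ ≤ 16 ^ q * (((q : ℝ) + 1) ^ (-(3 / 2) : ℝ)) ^ 2 := b1
        _ = _ := by
          rw [mul_pow, ← pow_mul, mul_comm q 2, pow_mul]; norm_num
    exact (abs_le_of_sq_le_sq' a3 (by positivity)).2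
  refine h1.trans ?_
  have h4 : (0 : ℝ) ≤ catalan q := Nat.cast_nonneg _
  calc (n : ℝ) ^ (q + 1) * catalan q * th n q ^ q ≤
      (n : ℝ) ^ (q + 1) * (4 ^ q * ((q : ℝ) + 1) ^ (-(3 / 2) : ℝ)) * 2 := by
        refine mul_le_mul (mul_le_mul_of_nonneg_left h3 (by positivity)) h2 ?_ (by positivity)
        have : 0 ≤ th n q := by unfold th; positivity
        positivity
    _ = _ := by
      rw [mul_pow]; ring

/-- the normalized form -/
theorem gm' {q : ℕ} (hn : 0 < n)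
    (h : 48 * (q : ℝ) ^ 4 / n ^ 2 + 12 * (q : ℝ) ^ 2 / n ≤ 1 / 2) :
    ∫ z, (((1 / (2 * √(n : ℝ))) • Zm z) ^ (2 * q)).trace ∂(gI (Pair n)) ≤
      2 * n * ((q : ℝ) + 1) ^ (-(3 / 2) : ℝ) := by
  have hn' : (0 : ℝ) < n := by exact_mod_cast hn
  have h1 := gm hn h
  have e1 : (1 / (2 * √(n : ℝ))) ^ (2 * q) = ((4 * n : ℝ) ^ q)⁻¹ := by
    rw [pow_mul, div_pow, one_pow, mul_pow, Real.sq_sqrt hn'.le, one_div, inv_pow]
    norm_num
  have e2 : ∀ z : Pair n → ℝ, (((1 / (2 * √(n : ℝ))) • Zm z) ^ (2 * q)).trace =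
      ((4 * n : ℝ) ^ q)⁻¹ * (Zm z ^ (2 * q)).trace := by
    intro z
    rw [smul_pow, Matrix.trace_smul, smul_eq_mul, e1]
  simp only [e2]
  rw [integral_const_mul]
  have h4 : (0 : ℝ) < (4 * n : ℝ) ^ q := by positivity
  rw [inv_mul_le_iff₀ h4]
  linarith

/-- the range `q ≤ n^(2/5)` for large `n` -/
theorem gm_range : ∀ᶠ n : ℕ in atTop, 0 < n ∧ ∀ q : ℕ, (q : ℝ) ≤ (n : ℝ) ^ (2 / 5 : ℝ) →
    48 * (q : ℝ) ^ 4 / n ^ 2 + 12 * (q : ℝ) ^ 2 / n ≤ 1 / 2 := by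
  have h1 : ∀ᶠ n : ℕ in atTop, (200 : ℝ) ≤ (n : ℝ) ^ (1 / 5 : ℝ) :=
    ((tendsto_rpow_atTop (by norm_num : (0 : ℝ) < 1 / 5)).comp
      tendsto_natCast_atTop_atTop).eventually_ge_atTop 200
  filter_upwards [h1, eventually_gt_atTop 0] with n h2 hn
  refine ⟨hn, fun q hq => ?_⟩
  have hn' : (0 : ℝ) < n := by exact_mod_cast hn
  set y := (n : ℝ) ^ (1 / 5 : ℝ) with hy
  have hy0 : 0 < y := Real.rpow_pos_of_pos hn' _
  have e1 : (n : ℝ) ^ (2 / 5 : ℝ) = y ^ 2 := by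
    rw [hy, ← Real.rpow_natCast, ← Real.rpow_mul hn'.le]; norm_num
  have e2 : (n : ℝ) = y ^ 5 := by
    rw [hy, ← Real.rpow_natCast, ← Real.rpow_mul hn'.le]; norm_num
  rw [e1] at hq
  have hq0 : (0 : ℝ) ≤ q := Nat.cast_nonneg _
  have b1 : (q : ℝ) ^ 2 ≤ y ^ 4 := by
    calc (q : ℝ) ^ 2 ≤ (y ^ 2) ^ 2 := pow_le_pow_left₀ hq0 hq 2
      _ = y ^ 4 := by ring
  have b2 : (q : ℝ) ^ 4 ≤ y ^ 8 := by
    calc (q : ℝ) ^ 4 ≤ (y ^ 2) ^ 4 := pow_le_pow_left₀ hq0 hq 4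
      _ = y ^ 8 := by ring
  rw [e2]
  have c1 : 48 * (q : ℝ) ^ 4 / (y ^ 5) ^ 2 ≤ 1 / 4 := by
    rw [div_le_iff₀ (by positivity)]
    have : (y ^ 5) ^ 2 = y ^ 8 * y ^ 2 := by ring
    rw [this]
    have h5 : (200 : ℝ) ≤ y ^ 2 := by nlinarith
    have h6 : 0 ≤ y ^ 8 := by positivity
    nlinarith [mul_le_mul_of_nonneg_left h5 h6]
  have c2 : 12 * (q : ℝ) ^ 2 / y ^ 5 ≤ 1 / 4 := by
    rw [div_le_iff₀ (by positivity)]
    have : y ^ 5 = y ^ 4 * y := by ring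
    rw [this]
    have h6 : 0 ≤ y ^ 4 := by positivity
    nlinarith [mul_le_mul_of_nonneg_left h2 h6]
  linarith

end Vale.Agent.P146.H737
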