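import Vale.Agent.P146.H737.Tr
import Vale.Agent.P146.H863.Two

/-!
# P146: the gauge of the two block families, and the transport inequality for them
-/

open MeasureTheory ProbabilityTheory

namespace Vale.Agent.P146.H737.Tr

open Vale.Agent.P146 Vale.Agent.P146.H501 Vale.Agent.P146.H863.D29

variable {n : ℕ}

lemma sp_mul (σ τ : Fin n → ℤˣ) (v : Fin n) : sp (σ * τ) v = sp σ v * sp τ v := by
  unfold sp
  simp

lemma sp_pm (σ : Fin n → ℤˣ) (v : Fin n) : sp σ v = 1 ∨ sp σ v = -1 := by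
  unfold sp
  rcases Int.units_eq_one_or (σ v) with h | h <;> rw [h] <;> simp

lemma chi_mul (A : Finset (Fin n)) (σ τ : Fin n → ℤˣ) :
    chi A (σ * τ) = chi A σ * chi A τ := by
  unfold chi
  rw [← Finset.prod_mul_distrib]
  exact Finset.prod_congr rfl fun v _ => sp_mul σ τ v

lemma chi_pm (A : Finset (Fin n)) (σ : Fin n → ℤˣ) : chi A σ = 1 ∨ chi A σ = -1 := by
  unfold chi
  induction A using Finset.cons_induction with
  | empty => left; simp
  | cons v A hv ih =>
    rw [Finset.prod_cons]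
    rcases sp_pm σ v with h | h <;> rcases ih with h' | h' <;> rw [h, h'] <;> simp

lemma ska_mul (β : ℝ) (σ τ : Fin n → ℤˣ) (p : Pair n) :
    ska n β (σ * τ) p = chi (ps p) σ * ska n β τ p := by
  unfold ska
  rw [chi_mul]
  ring

lemma E2_mul (s t : (Fin n → ℤˣ) × (Fin n → ℤˣ)) : E2 n (s * t) = E2 n s * E2 n t := by
  have h : ∀ u : (Fin n → ℤˣ) × (Fin n → ℤˣ), E2 n u = Fin.append u.1 u.2 := fun u => rfl
  rw [h, h, h]
  funext i
  refine Fin.addCases (fun j => ?_) (fun j => ?_) i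
  · simp only [Pi.mul_apply, Fin.append_left, Prod.fst_mul]
  · simp only [Pi.mul_apply, Fin.append_right, Prod.snd_mul]

/-- **the gauge** of the two block families -/
theorem gg_ab (n : ℕ) (β : ℝ) : Gg (a2 n β) (b2 n β) (1, 1) := by
  refine ⟨fun s => ⟨Equiv.mulLeft s, fun p => chi (ps p) (E2 n s),
    Sum.elim (fun p => chi (ps p) s.1) (Sum.elim (fun p => chi (ps p) s.2) fun _ => 1),
    ?_, ?_, fun p => chi_pm _ _, ?_, fun τ p => ?_, ?_⟩⟩
  · rw [Equiv.coe_mulLeft]
    exact mul_one s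
  · rw [Equiv.coe_mulLeft]
    refine Prod.ext ?_ ?_ <;> funext i <;> simp [Int.units_mul_self]
  · rintro (p | p | _)
    · simpa using chi_pm (ps p) s.1
    · simpa using chi_pm (ps p) s.2
    · simp
  · rw [Equiv.coe_mulLeft]
    unfold a2
    rw [E2_mul, ska_mul]
  · rintro τ (p | p | _)
    · simp only [Equiv.coe_mulLeft, b2, Sum.elim_inl]
      exact ska_mul β s.1 τ.1 p
    · simp only [Equiv.coe_mulLeft, b2, Sum.elim_inl, Sum.elim_inr]
      exact ska_mul β s.2 τ.2 p
    · simp only [Equiv.coe_mulLeft, b2, Sum.elim_inr]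
      ring

/-- **The transport inequality for `SK_{2n}`**: input of `dbl_of` with `θ = (1 - p) / 2`. -/
theorem trans_sk (hn : 1 ≤ n) (β : ℝ) {p : ℝ} (hp : 0 ≤ p) (hp1 : p < 1) :
    Np p (a2 n β) (1, 1) (fun _ => 0) ≤
      Np p (b2 n β) (1, 1) (fun s => -((1 - p) / 2 * gap n β (1, 1) s)) := by
  have h := trans hp hp1 (gap_diag hn β) (gg_ab n β)
  have e : (fun s => -((1 - p) / 2 * (∑ j, b2 n β (1, 1) j * b2 n β s j -
      ∑ i, a2 n β (1, 1) i * a2 n β s i))) =
      fun s => -((1 - p) / 2 * gap n β (1, 1) s) := by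
    funext s
    rw [gram_gap hn]
    ring
  rw [e] at h
  exact h

end Vale.Agent.P146.H737.Tr
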