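import Vale.Agent.P146.H432.XPoint
import Vale.Agent.P146.X7.H737_HF

/-!
Upper sizes at all scales: from the exponential moments `log E e^{x(F-EF)} ≤ n^(1+ε) x^6`,
`n^(-1/6) ≤ x ≤ n^(-a)`, `a > 179/3000`, the value `Dn`, its slope `Gn` in the exponent, and the
mean square `rho2 = 4 Gn / (β² n s)` in a window `s ≥ n^(-w) x²`.
-/

open MeasureTheory ProbabilityTheory Filter Topology

namespace Vale.Agent.P146.H737

open Vale.Agent.P146.H432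

/-- **Exponential moments at all scales**, in the letters of `Lg`. -/
theorem Lg_upU {β : ℝ} (hβ : 0 < β) {a : ℝ} (ha : 179 / 3000 < a) {ε : ℝ} (hε : 0 < ε) :
    ∀ᶠ n : ℕ in atTop, ∀ x : ℝ, (n : ℝ) ^ (-(1 / 6) : ℝ) ≤ x → x ≤ (n : ℝ) ^ (-a) →
      Lg n β x ≤ (n : ℝ) ^ (1 + ε) * x ^ 6 :=
  X7.H737.upM hβ ha ε hε

/-- **The value at all scales and all windows.** -/
theorem Dn_upU {β : ℝ} (hβ : 0 < β) {a : ℝ} (ha : 179 / 3000 < a) {ε : ℝ} (hε : 0 < ε) :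
    ∀ᶠ n : ℕ in atTop, ∀ x : ℝ, (n : ℝ) ^ (-(1 / 6) : ℝ) ≤ x → x ≤ (n : ℝ) ^ (-a) →
      ∀ s : ℝ, 0 ≤ s → s ≤ 1 → Dn n β x s ≤ (n : ℝ) ^ (1 + ε) * x ^ 5 := by
  filter_upwards [Lg_upU hβ ha hε, eventually_ge_atTop 1] with n h hn x hl hu s hs hs1
  have hn0 : (0 : ℝ) < n := by exact_mod_cast hn
  have hx : 0 < x := (Real.rpow_pos_of_pos hn0 _).trans_le hl
  have h1 := log_ge_Dn n β hx hs hs1
  have h2 : x * Dn n β x s ≤ (n : ℝ) ^ (1 + ε) * x ^ 6 := h1.trans (h x hl hu)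
  have e : (n : ℝ) ^ (1 + ε) * x ^ 6 = x * ((n : ℝ) ^ (1 + ε) * x ^ 5) := by ring
  rw [e] at h2
  exact le_of_mul_le_mul_left h2 hx

/-- **The slope at all scales and all windows.** -/
theorem Gn_upU {β : ℝ} (hβ : 0 < β) {a : ℝ} (ha : 179 / 3000 < a) {ε : ℝ} (hε : 0 < ε) :
    ∀ᶠ n : ℕ in atTop, ∀ x : ℝ, (n : ℝ) ^ (-(1 / 6) : ℝ) ≤ x → x ≤ (n : ℝ) ^ (-a) →
      ∀ s : ℝ, 0 ≤ s → s ≤ 1 → Gn n β x s ≤ (n : ℝ) ^ (1 + ε) * x ^ 4 := by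
  have hε2 : 0 < ε / 2 := by positivity
  have ha' : 179 / 3000 < (a + 179 / 3000) / 2 := by linarith
  have hd : 0 < (a - 179 / 3000) / 2 := by linarith
  have hev1 := ((tendsto_rpow_atTop hε2).comp tendsto_natCast_atTop_atTop).eventually_ge_atTop
    (32 : ℝ)
  have hev2 := ((tendsto_rpow_atTop hd).comp tendsto_natCast_atTop_atTop).eventually_ge_atTop
    (2 : ℝ)
  filter_upwards [Dn_upU hβ ha' hε2, hev1, hev2, eventually_ge_atTop 1] with n h h32 h2 hn x hl hu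
    s hs hs1
  simp only [Function.comp] at h32 h2
  have hn0 : (0 : ℝ) < n := by exact_mod_cast hn
  have hx : 0 < x := (Real.rpow_pos_of_pos hn0 _).trans_le hl
  have h2x : 2 * x ≤ (n : ℝ) ^ (-((a + 179 / 3000) / 2)) := by
    calc 2 * x ≤ (n : ℝ) ^ ((a - 179 / 3000) / 2) * (n : ℝ) ^ (-a) := by gcongr
      _ = (n : ℝ) ^ (-((a + 179 / 3000) / 2)) := by
          rw [← Real.rpow_add hn0]
          congr 1
          ring
  have h3 := h (2 * x) (by linarith) h2x s hs hs1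
  have h4 := Dn_tan' n β hx (by linarith : (0 : ℝ) < 2 * x) hs hs1
  have h5 := Dn_nonneg n β hx hs hs1
  have h6 : x * Gn n β x s ≤ x * ((n : ℝ) ^ (1 + ε) * x ^ 4) := by
    have e1 : (2 * x - x) * Gn n β x s = x * Gn n β x s := by ring
    rw [e1] at h4
    calc x * Gn n β x s ≤ (n : ℝ) ^ (1 + ε / 2) * (2 * x) ^ 5 := by linarith
      _ = 32 * ((n : ℝ) ^ (1 + ε / 2) * x ^ 5) := by ring
      _ ≤ (n : ℝ) ^ (ε / 2) * ((n : ℝ) ^ (1 + ε / 2) * x ^ 5) := by gcongr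
      _ = x * ((n : ℝ) ^ (1 + ε) * x ^ 4) := by
          have e2 : (n : ℝ) ^ (1 + ε) = (n : ℝ) ^ (ε / 2) * (n : ℝ) ^ (1 + ε / 2) := by
            rw [← Real.rpow_add hn0]
            congr 1
            ring
          rw [e2]
          ring
  exact le_of_mul_le_mul_left h6 hx

/-- **The size in the windows `s ≥ n^(-w) x²`**: `4 Gn / (β² n s) ≤ n^(w + ε) x²`. -/
theorem rho2_upU {β : ℝ} (hβ : 0 < β) {a : ℝ} (ha : 179 / 3000 < a) {ε w : ℝ} (hε : 0 < ε) :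
    ∀ᶠ n : ℕ in atTop, ∀ x : ℝ, (n : ℝ) ^ (-(1 / 6) : ℝ) ≤ x → x ≤ (n : ℝ) ^ (-a) →
      ∀ s : ℝ, (n : ℝ) ^ (-w) * x ^ 2 ≤ s → s ≤ 1 →
        4 * Gn n β x s / (β ^ 2 * n * s) ≤ (n : ℝ) ^ (w + ε) * x ^ 2 := by
  have hε2 : 0 < ε / 2 := by positivity
  have hev1 := ((tendsto_rpow_atTop hε2).comp tendsto_natCast_atTop_atTop).eventually_ge_atTop
    (4 / β ^ 2)
  filter_upwards [Gn_upU hβ ha hε2, hev1, eventually_ge_atTop 1] with n h h4 hn x hl hu s hs hs1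
  simp only [Function.comp] at h4
  have hn0 : (0 : ℝ) < n := by exact_mod_cast hn
  have hx : 0 < x := (Real.rpow_pos_of_pos hn0 _).trans_le hl
  have hs0 : 0 < s := (mul_pos (Real.rpow_pos_of_pos hn0 _) (by positivity)).trans_le hs
  have h1 := h x hl hu s hs0.le hs1
  have hb : 0 < β ^ 2 := by positivity
  rw [div_le_iff₀ (by positivity)]
  have e1 : (n : ℝ) ^ (w + ε) * (n : ℝ) ^ (-w) = (n : ℝ) ^ (ε / 2) * (n : ℝ) ^ (ε / 2) := by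
    rw [← Real.rpow_add hn0, ← Real.rpow_add hn0]
    congr 1
    ring
  have e2 : (n : ℝ) ^ (1 + ε / 2) = (n : ℝ) ^ (ε / 2) * n := by
    rw [Real.rpow_add hn0, Real.rpow_one, mul_comm]
  calc 4 * Gn n β x s ≤ 4 * ((n : ℝ) ^ (1 + ε / 2) * x ^ 4) := by linarith
    _ = β ^ 2 * (4 / β ^ 2 * ((n : ℝ) ^ (ε / 2) * n * x ^ 4)) := by
        rw [e2]
        field_simp
    _ ≤ β ^ 2 * ((n : ℝ) ^ (ε / 2) * ((n : ℝ) ^ (ε / 2) * n * x ^ 4)) := by gcongr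
    _ = x ^ 2 * (β ^ 2 * n) * ((n : ℝ) ^ (ε / 2) * (n : ℝ) ^ (ε / 2) * x ^ 2) := by ring
    _ = (n : ℝ) ^ (w + ε) * x ^ 2 * (β ^ 2 * n * ((n : ℝ) ^ (-w) * x ^ 2)) := by
        rw [← e1]
        ring
    _ ≤ (n : ℝ) ^ (w + ε) * x ^ 2 * (β ^ 2 * n * s) := by gcongr

end Vale.Agent.P146.H737
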