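import Mathlib

set_option linter.all false

/-!
The pigeonhole of the typical times in the plan R1.
-/

open MeasureTheory Set

namespace Vale.Agent.P146.H737.R1

/-- the algebra of the growth from (star) -/
lemma star_rate {K G lo q s h : ℝ} (hG : 0 < G) (hlo : 0 < lo) (hq : lo ≤ q) (hs : 1 / 2 ≤ s)
    (h4 : 4 * G ≤ K * lo) (hst : K * q ^ 2 / G ≤ q / s + h) : K * lo ^ 2 / (2 * G) ≤ h := by
  have hs0 : 0 < s := by linarith
  have hq0 : 0 < q := by linarith
  have h1 : q / s ≤ 2 * q := by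
    rw [div_le_iff₀ hs0]; nlinarith
  have hK : 0 < K := by
    by_contra hc
    push Not at hc
    nlinarith [mul_nonneg (neg_nonneg.2 hc) hlo.le]
  have h2 : K * q ^ 2 / G - 2 * q ≥ K * lo ^ 2 / (2 * G) := by
    have e1 : K * q ^ 2 / G = q * (K * q / G) := by ring
    have e2 : 4 ≤ K * q / G := by
      rw [le_div_iff₀ hG]; nlinarith
    have e3 : K * lo ^ 2 / (2 * G) ≤ q * (K * q / G) / 2 := by
      have e4 : q * (K * q / G) / 2 = K * q ^ 2 / (2 * G) := by field_simp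
      rw [e4]
      gcongr
    rw [e1]
    nlinarith
  linarith

/-- Typical times, with the derivative. -/
theorem typical {Q H : ℝ → ℝ} {a T lo up : ℝ} (hT : 0 < T) (ha : 1 / 2 ≤ a)
    (hc : ContinuousOn Q (Icc a (a + T / 4)))
    (hd : ∀ s ∈ Ioo a (a + T / 4), HasDerivAt Q (H s) s)
    (h0 : ∀ s ∈ Ioo a (a + T / 4), 0 ≤ H s) (hlo : 0 < lo)
    (hl : ∀ s ∈ Icc a (a + T / 4), lo ≤ Q s) (hu : Q (a + T / 4) ≤ up) :
    ∃ s1 ∈ Ioo a (a + T / 16), ∃ s2 ∈ Ioo (a + 3 * T / 16) (a + T / 4),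
      H s1 ≤ 16 * up / T ∧ H s2 ≤ 16 * up / T ∧
      ∀ K G : ℝ, 0 < G → (∀ s ∈ Ioo a (a + T / 4), K * Q s ^ 2 / G ≤ Q s / s + H s) →
        4 * G ≤ K * lo → T * K * lo ^ 2 / (16 * G) ≤ Q s2 - Q s1 := by
  have hmono : MonotoneOn Q (Icc a (a + T / 4)) := by
    refine monotoneOn_of_deriv_nonneg (convex_Icc _ _) hc ?_ ?_
    · intro s hs
      rw [interior_Icc] at hs
      exact (hd s hs).differentiableAt.differentiableWithinAt
    · intro s hs
      rw [interior_Icc] at hs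
      rw [(hd s hs).deriv]
      exact h0 s hs
  have hbd : ∀ s ∈ Icc a (a + T / 4), Q s ≤ up := fun s hs =>
    (hmono hs (right_mem_Icc.2 (by linarith)) hs.2).trans hu
  -- a short interval contains a good time
  have key : ∀ b, a ≤ b → b + T / 16 ≤ a + T / 4 →
      ∃ s ∈ Ioo b (b + T / 16), H s ≤ 16 * up / T := by
    intro b hb hb'
    obtain ⟨s, hs, he⟩ := exists_hasDerivAt_eq_slope Q H (a := b) (b := b + T / 16)
      (by linarith) (hc.mono (Icc_subset_Icc hb hb'))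
      (fun s hs => hd s ⟨by linarith [hs.1], by linarith [hs.2]⟩)
    refine ⟨s, hs, ?_⟩
    rw [he, add_sub_cancel_left, div_le_div_iff₀ (by positivity) hT]
    have h1 := hbd (b + T / 16) ⟨by linarith, hb'⟩
    have h2 := hl b ⟨hb, by linarith⟩
    have h3 : Q (b + T / 16) - Q b ≤ up := by linarith
    nlinarith
  obtain ⟨s1, hs1, hH1⟩ := key a le_rfl (by linarith)
  obtain ⟨s2, hs2, hH2⟩ := key (a + 3 * T / 16) (by linarith) (by linarith)
  have hs2' : s2 < a + T / 4 := by linarith [hs2.2]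
  refine ⟨s1, hs1, s2, ⟨hs2.1, hs2'⟩, hH1, hH2, fun K G hG hst h4 => ?_⟩
  have h12 : s1 < s2 := by linarith [hs1.2, hs2.1]
  obtain ⟨s, hs, he⟩ := exists_hasDerivAt_eq_slope Q H h12
    (hc.mono (Icc_subset_Icc hs1.1.le hs2'.le))
    (fun s hs => hd s ⟨by linarith [hs.1, hs1.1], by linarith [hs.2]⟩)
  have hs' : s ∈ Ioo a (a + T / 4) := ⟨by linarith [hs.1, hs1.1], by linarith [hs.2]⟩
  have h1 := star_rate hG hlo (hl s (Ioo_subset_Icc_self hs')) (by linarith [hs'.1]) h4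
    (hst s hs')
  have h5 : Q s2 - Q s1 = H s * (s2 - s1) := by
    rw [he, div_mul_cancel₀ _ (by linarith : s2 - s1 ≠ 0)]
  have h6 : T / 8 ≤ s2 - s1 := by linarith [hs1.2, hs2.1]
  have h7 : 0 ≤ K * lo ^ 2 / (2 * G) := by
    have hK : 0 ≤ K := by
      by_contra hc
      push Not at hc
      nlinarith [mul_nonneg (neg_nonneg.2 hc.le) hlo.le]
    positivity
  rw [h5]
  calc T * K * lo ^ 2 / (16 * G) = K * lo ^ 2 / (2 * G) * (T / 8) := by field_simp; ring
    _ ≤ K * lo ^ 2 / (2 * G) * (s2 - s1) := by gcongr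
    _ ≤ H s * (s2 - s1) := by
        refine mul_le_mul_of_nonneg_right h1 (by linarith)

/-- Typical times, with the integral form of the fundamental theorem. -/
theorem typical_int {Q H : ℝ → ℝ} {a T lo up : ℝ} (hT : 0 < T) (ha : 1 / 2 ≤ a)
    (hi : IntervalIntegrable H volume a (a + T / 4))
    (hd : ∀ s ∈ Icc a (a + T / 4), ∀ s' ∈ Icc s (a + T / 4), Q s' - Q s = ∫ u in s..s', H u)
    (h0 : ∀ s ∈ Icc a (a + T / 4), 0 ≤ H s) (hlo : 0 < lo)
    (hl : ∀ s ∈ Icc a (a + T / 4), lo ≤ Q s) (hu : Q (a + T / 4) ≤ up) :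
    ∃ s1 ∈ Ioo a (a + T / 16), ∃ s2 ∈ Ioo (a + 3 * T / 16) (a + T / 4),
      H s1 ≤ 16 * up / T ∧ H s2 ≤ 16 * up / T ∧
      ∀ K G : ℝ, 0 < G → (∀ s ∈ Ioo a (a + T / 4), K * Q s ^ 2 / G ≤ Q s / s + H s) →
        4 * G ≤ K * lo → T * K * lo ^ 2 / (16 * G) ≤ Q s2 - Q s1 := by
  have hsub : ∀ s ∈ Icc a (a + T / 4), ∀ s' ∈ Icc s (a + T / 4),
      IntervalIntegrable H volume s s' := by
    intro s hs s' hs'
    refine hi.mono_set ?_
    rw [uIcc_of_le (by linarith [hs'.1]), uIcc_of_le (by linarith)]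
    exact Icc_subset_Icc hs.1 hs'.2
  have hbd : ∀ s ∈ Icc a (a + T / 4), Q s ≤ up := by
    intro s hs
    have h1 := hd s hs (a + T / 4) ⟨hs.2, le_rfl⟩
    have h2 : 0 ≤ ∫ u in s..(a + T / 4), H u :=
      intervalIntegral.integral_nonneg hs.2 fun u hu => h0 u ⟨hs.1.trans hu.1, hu.2⟩
    linarith
  have key : ∀ b, a ≤ b → b + T / 16 ≤ a + T / 4 →
      ∃ s ∈ Ioo b (b + T / 16), H s ≤ 16 * up / T := by
    intro b hb hb'
    by_contra hcon
    push Not at hcon
    have hbI : b ∈ Icc a (a + T / 4) := ⟨hb, by linarith⟩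
    have hbI' : b + T / 16 ∈ Icc b (a + T / 4) := ⟨by linarith, hb'⟩
    have h1 := hd b hbI _ hbI'
    have h2 : ∫ u in b..(b + T / 16), (16 * up / T : ℝ) < ∫ u in b..(b + T / 16), H u := by
      have h3 : 0 < ∫ u in b..(b + T / 16), (H u - 16 * up / T) :=
        intervalIntegral.intervalIntegral_pos_of_pos_on
          ((hsub b hbI _ hbI').sub intervalIntegrable_const)
          (fun u hu => by linarith [hcon u hu]) (by linarith)
      rw [intervalIntegral.integral_sub (hsub b hbI _ hbI') intervalIntegrable_const] at h3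
      linarith
    rw [intervalIntegral.integral_const, smul_eq_mul, add_sub_cancel_left, ← h1] at h2
    have h3 : T / 16 * (16 * up / T) = up := by field_simp
    have h4 := hbd (b + T / 16) ⟨by linarith, hb'⟩
    have h5 := hl b hbI
    linarith
  obtain ⟨s1, hs1, hH1⟩ := key a le_rfl (by linarith)
  obtain ⟨s2, hs2, hH2⟩ := key (a + 3 * T / 16) (by linarith) (by linarith)
  have hs2' : s2 < a + T / 4 := by linarith [hs2.2]
  refine ⟨s1, hs1, s2, ⟨hs2.1, hs2'⟩, hH1, hH2, fun K G hG hst h4 => ?_⟩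
  have h12 : s1 < s2 := by linarith [hs1.2, hs2.1]
  have hI1 : s1 ∈ Icc a (a + T / 4) := ⟨hs1.1.le, by linarith⟩
  have hI2 : s2 ∈ Icc s1 (a + T / 4) := ⟨h12.le, hs2'.le⟩
  have h6 : T / 8 ≤ s2 - s1 := by linarith [hs1.2, hs2.1]
  have hK : 0 ≤ K := by
    by_contra hc
    push Not at hc
    nlinarith [mul_nonneg (neg_nonneg.2 hc.le) hlo.le]
  have h7 : 0 ≤ K * lo ^ 2 / (2 * G) := by positivity
  have h8 : ∫ u in s1..s2, K * lo ^ 2 / (2 * G) ≤ ∫ u in s1..s2, H u := by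
    refine intervalIntegral.integral_mono_on h12.le intervalIntegrable_const
      (hsub s1 hI1 s2 hI2) fun u hu => ?_
    have hu' : u ∈ Ioo a (a + T / 4) := ⟨by linarith [hu.1, hs1.1], by linarith [hu.2]⟩
    exact star_rate hG hlo (hl u (Ioo_subset_Icc_self hu')) (by linarith [hu'.1]) h4 (hst u hu')
  rw [intervalIntegral.integral_const, smul_eq_mul, ← hd s1 hI1 s2 hI2] at h8
  calc T * K * lo ^ 2 / (16 * G) = T / 8 * (K * lo ^ 2 / (2 * G)) := by field_simp; ring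
    _ ≤ (s2 - s1) * (K * lo ^ 2 / (2 * G)) := by gcongr
    _ ≤ _ := h8

end Vale.Agent.P146.H737.R1
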