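import Vale.Agent.P146.H693.Kah
import Vale.Agent.P146.H863.PLG
import Vale.Agent.P146.H425.Gauss

/-!
# P146: the swap lemma

A finite Gaussian partition function `∑ exp (A τ . g + c τ)`. If the exponents are penalised by
the distance `D s₀ τ` to the planted configuration, then the planted configuration is closer to a
replica than two replicas are to each other.
-/

open MeasureTheory ProbabilityTheory

namespace Vale.Agent.P146.H737.Tr

open Vale.Agent.P146 Vale.Agent.P146.H501 Vale.Agent.P146.H693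

section lse

variable {S : Type*} [Fintype S] [Nonempty S]

/-- log-sum-exp is convex -/
lemma lse_le (x y : S → ℝ) {a b : ℝ} (ha : 0 ≤ a) (hb : 0 ≤ b) (hab : a + b = 1) :
    Real.log (∑ s, Real.exp (a * x s + b * y s)) ≤
      a * Real.log (∑ s, Real.exp (x s)) + b * Real.log (∑ s, Real.exp (y s)) := by
  have hX : 0 < ∑ s, Real.exp (x s) :=
    Finset.sum_pos (fun s _ => Real.exp_pos _) Finset.univ_nonempty
  have hY : 0 < ∑ s, Real.exp (y s) :=
    Finset.sum_pos (fun s _ => Real.exp_pos _) Finset.univ_nonempty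
  have hZ : 0 < ∑ s, Real.exp (a * x s + b * y s) :=
    Finset.sum_pos (fun s _ => Real.exp_pos _) Finset.univ_nonempty
  set X := Real.log (∑ s, Real.exp (x s)) with hXd
  set Y := Real.log (∑ s, Real.exp (y s)) with hYd
  have eX : Real.exp X = ∑ s, Real.exp (x s) := Real.exp_log hX
  have eY : Real.exp Y = ∑ s, Real.exp (y s) := Real.exp_log hY
  rw [Real.log_le_iff_le_exp hZ]
  have h1 : ∀ s, Real.exp (a * x s + b * y s) ≤
      Real.exp (a * X + b * Y) * (a * (Real.exp (x s) / Real.exp X) +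
        b * (Real.exp (y s) / Real.exp Y)) := by
    intro s
    have h := convexOn_exp.2 (Set.mem_univ (x s - X)) (Set.mem_univ (y s - Y)) ha hb hab
    simp only [smul_eq_mul] at h
    have e1 : a * x s + b * y s = (a * X + b * Y) + (a * (x s - X) + b * (y s - Y)) := by ring
    rw [e1, Real.exp_add (a * X + b * Y), ← Real.exp_sub, ← Real.exp_sub]
    exact mul_le_mul_of_nonneg_left h (Real.exp_pos _).le
  refine (Finset.sum_le_sum fun s _ => h1 s).trans ?_
  rw [← Finset.mul_sum, Finset.sum_add_distrib, ← Finset.mul_sum, ← Finset.mul_sum,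
    ← Finset.sum_div, ← Finset.sum_div, ← eX, ← eY, div_self (Real.exp_pos _).ne',
    div_self (Real.exp_pos _).ne', mul_one, mul_one, hab, mul_one]

end lse

section swap

variable {κ S : Type} [Fintype κ] [Fintype S] [Nonempty S]

/-- the integrand -/
noncomputable def ker (q : ℝ) (A : S → κ → ℝ) (l : κ → ℝ) (c : S → ℝ) (g : κ → ℝ) : ℝ :=
  Real.exp (∑ i, l i * g i - q * Real.log (zz A c g))

omit [Nonempty S] in
lemma ker_pos (q : ℝ) (A : S → κ → ℝ) (l : κ → ℝ) (c : S → ℝ) (g : κ → ℝ) :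
    0 < ker q A l c g := Real.exp_pos _

lemma ker_cont (q : ℝ) (A : S → κ → ℝ) (l : κ → ℝ) (c : S → ℝ) : Continuous (ker q A l c) := by
  unfold ker
  refine Real.continuous_exp.comp (Continuous.sub (by fun_prop) ((log_zz_cont A c).const_mul q))

lemma ker_dom (q : ℝ) (A : S → κ → ℝ) (l : κ → ℝ) (c : S → ℝ) : Dom (ker q A l c) := by
  have h1 := zp_dom (-q) A c
  obtain ⟨_, M, K, hM, hK, h⟩ := h1
  refine ⟨ker_cont q A l c, M, K + ∑ i, |l i|, hM,
    add_nonneg hK (Finset.sum_nonneg fun _ _ => abs_nonneg _), fun g => ?_⟩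
  have h2 := h g
  have e1 : ker q A l c g = Real.exp (∑ i, l i * g i) * zp (-q) A c g := by
    unfold ker zp
    rw [← Real.exp_add]
    ring_nf
  rw [e1, abs_mul, abs_of_pos (Real.exp_pos _)]
  have h3 : ∑ i, l i * g i ≤ (∑ i, |l i|) * ∑ i, |g i| := by
    rw [Finset.sum_mul]
    refine Finset.sum_le_sum fun i _ => (le_abs_self _).trans ?_
    rw [abs_mul]
    exact mul_le_mul_of_nonneg_left (Finset.single_le_sum (f := fun i => |g i|)
      (fun i _ => abs_nonneg _) (Finset.mem_univ i)) (abs_nonneg _)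
  calc Real.exp (∑ i, l i * g i) * |zp (-q) A c g|
      ≤ Real.exp ((∑ i, |l i|) * ∑ i, |g i|) * (M * Real.exp (K * ∑ i, |g i|)) :=
        mul_le_mul (Real.exp_le_exp.2 h3) h2 (abs_nonneg _) (Real.exp_pos _).le
    _ = M * Real.exp ((K + ∑ i, |l i|) * ∑ i, |g i|) := by
        rw [add_mul, Real.exp_add]
        ring

/-- the path of weights -/
noncomputable def cδ (lam : ℝ) (u v : S → ℝ) (δ : ℝ) (τ : S) : ℝ :=
  lam / 2 * (u τ + v τ) + δ * (u τ - v τ)

/-- **Prékopa**: the integrals are log-concave in the parameter. -/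
lemma log_conc {q : ℝ} (hq : 0 ≤ q) (A : S → κ → ℝ) (l : κ → ℝ) (lam : ℝ) (u v : S → ℝ) :
    ConcaveOn ℝ Set.univ fun δ => Real.log (∫ g, ker q A l (cδ lam u v δ) g ∂(gpi κ)) := by
  refine H863.PL.gauss (fun δ g => ∑ i, l i * g i - q * Real.log (zz A (cδ lam u v δ) g))
    ?_ (fun δ => ?_) fun δ => ?_
  · refine ⟨convex_univ, fun x _ y _ a b ha hb hab => ?_⟩
    have e3 : ∀ (c : S → ℝ) (g : κ → ℝ), zz A c g = ∑ s, Real.exp (∑ i, A s i * g i + c s) :=
      fun c g => rfl
    simp only [e3, smul_eq_mul, Prod.smul_fst, Prod.smul_snd, Prod.fst_add, Prod.snd_add,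
      Pi.add_apply, Pi.smul_apply]
    have h := lse_le (fun s => ∑ i, A s i * x.2 i + cδ lam u v x.1 s)
      (fun s => ∑ i, A s i * y.2 i + cδ lam u v y.1 s) ha hb hab
    have e1 : ∀ s, a * (∑ i, A s i * x.2 i + cδ lam u v x.1 s) +
        b * (∑ i, A s i * y.2 i + cδ lam u v y.1 s) =
        ∑ i, A s i * (a * x.2 i + b * y.2 i) + cδ lam u v (a * x.1 + b * y.1) s := by
      intro s
      have h1 : ∑ i, A s i * (a * x.2 i + b * y.2 i) =
          a * ∑ i, A s i * x.2 i + b * ∑ i, A s i * y.2 i := by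
        rw [Finset.mul_sum, Finset.mul_sum, ← Finset.sum_add_distrib]
        exact Finset.sum_congr rfl fun i _ => by ring
      have h2 : cδ lam u v (a * x.1 + b * y.1) s =
          a * cδ lam u v x.1 s + b * cδ lam u v y.1 s := by
        unfold cδ
        have hb' : b = 1 - a := by linarith
        rw [hb']
        ring
      rw [h1, h2]
      ring
    simp only [e1] at h
    have e2 : ∑ i, l i * (a * x.2 i + b * y.2 i) =
        a * ∑ i, l i * x.2 i + b * ∑ i, l i * y.2 i := by
      rw [Finset.mul_sum, Finset.mul_sum, ← Finset.sum_add_distrib]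
      exact Finset.sum_congr rfl fun i _ => by ring
    rw [e2]
    have h3 := mul_le_mul_of_nonneg_left h hq
    linarith [h3]
  · exact (Continuous.sub (by fun_prop) ((log_zz_cont A _).const_mul q)).measurable
  · have h0 := fun g => log_zz_bound A (cδ lam u v δ) g
    refine ⟨q * (∑ s, |cδ lam u v δ s| + Real.log (Fintype.card S)),
      ∑ i, |l i| + q * ∑ s, ∑ i, |A s i|, fun g => ?_⟩
    have h3 : ∑ i, l i * g i ≤ (∑ i, |l i|) * ∑ i, |g i| := by
      rw [Finset.sum_mul]
      refine Finset.sum_le_sum fun i _ => (le_abs_self _).trans ?_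
      rw [abs_mul]
      exact mul_le_mul_of_nonneg_left (Finset.single_le_sum (f := fun i => |g i|)
        (fun i _ => abs_nonneg _) (Finset.mem_univ i)) (abs_nonneg _)
    have h4 := mul_le_mul_of_nonneg_left (neg_le_of_abs_le (h0 g)) hq
    nlinarith [h3, h4]

/-- the tangent inequality of log-sum-exp -/
lemma zz_tangent (A : S → κ → ℝ) (c d : S → ℝ) (ε : ℝ) (g : κ → ℝ) :
    Real.log (zz A c g) + ε * gav A c d g ≤ Real.log (zz A (fun s => c s + ε * d s) g) := by
  have hz := zz_pos A c g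
  set m := gav A c d g with hm
  have h1 : zz A c g * Real.exp (ε * m) ≤ zz A (fun s => c s + ε * d s) g := by
    have e1 : ∑ s, wt A c g s * (Real.exp (ε * m) * (1 + ε * (d s - m))) =
        zz A c g * Real.exp (ε * m) := by
      have e2 : ∀ s, wt A c g s * (Real.exp (ε * m) * (1 + ε * (d s - m))) =
          Real.exp (ε * m) * ((1 - ε * m) * wt A c g s + ε * (d s * wt A c g s)) := fun s => by
        ring
      simp only [e2]
      rw [← Finset.mul_sum, Finset.sum_add_distrib, ← Finset.mul_sum, ← Finset.mul_sum]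
      have e3 : ∑ s, d s * wt A c g s = m * zz A c g := by
        rw [hm]
        unfold gav
        rw [div_mul_cancel₀ _ hz.ne']
      have e4 : ∑ s, wt A c g s = zz A c g := rfl
      rw [e3, e4]
      ring
    rw [← e1]
    have e5 : zz A (fun s => c s + ε * d s) g = ∑ s, wt A c g s * Real.exp (ε * d s) := by
      unfold zz wt
      refine Finset.sum_congr rfl fun s _ => ?_
      rw [← Real.exp_add]
      ring_nf
    rw [e5]
    refine Finset.sum_le_sum fun s _ => mul_le_mul_of_nonneg_left ?_ (wt_pos A c g s).le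
    have h2 : ε * d s = ε * m + ε * (d s - m) := by ring
    rw [h2, Real.exp_add]
    refine mul_le_mul_of_nonneg_left ?_ (Real.exp_pos _).le
    linarith [Real.add_one_le_exp (ε * (d s - m))]
  have h2 := Real.log_le_log (mul_pos hz (Real.exp_pos _)) h1
  rwa [Real.log_mul hz.ne' (Real.exp_pos _).ne', Real.log_exp] at h2

/-- **one-sided derivative**: if the integral does not decrease in the direction `d`, then the
mean of `d` is nonpositive -/
lemma mean_nonpos {q : ℝ} (hq : 0 < q) (A : S → κ → ℝ) (l : κ → ℝ) (c d : S → ℝ) {ε0 : ℝ}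
    (hε0 : 0 < ε0) (h : ∀ ε, 0 < ε → ε ≤ ε0 → ∫ g, ker q A l c g ∂(gpi κ) ≤
      ∫ g, ker q A l (fun s => c s + ε * d s) g ∂(gpi κ)) :
    ∫ g, ker q A l c g * gav A c d g ∂(gpi κ) ≤ 0 := by
  set M := ∑ s, |d s| with hM
  have hM0 : 0 ≤ M := Finset.sum_nonneg fun _ _ => abs_nonneg _
  have hdM : ∀ s, |d s| ≤ M := fun s => Finset.single_le_sum (f := fun s => |d s|)
    (fun s _ => abs_nonneg _) (Finset.mem_univ s)
  have hg : ∀ g, |gav A c d g| ≤ M := fun g => abs_gav_le A c hdM g
  set I := ∫ g, ker q A l c g ∂(gpi κ) with hI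
  set J := ∫ g, ker q A l c g * gav A c d g ∂(gpi κ) with hJ
  have hI0 : 0 ≤ I := integral_nonneg fun g => (ker_pos q A l c g).le
  have dk := ker_dom q A l c
  have dg := gav_dom A c d
  have main : ∀ ε, 0 < ε → ε ≤ ε0 → q * ε * M ≤ 1 → J ≤ q * M ^ 2 * I * ε := by
    intro ε h0 h1 h2
    have h3 : ∀ g, ker q A l (fun s => c s + ε * d s) g ≤
        ker q A l c g - q * ε * (ker q A l c g * gav A c d g) +
          (q * ε * M) ^ 2 * ker q A l c g := by
      intro g
      have t1 := zz_tangent A c d ε g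
      have t2 := mul_le_mul_of_nonneg_left t1 hq.le
      have t3 : ker q A l (fun s => c s + ε * d s) g ≤
          ker q A l c g * Real.exp (-(q * ε * gav A c d g)) := by
        unfold ker
        rw [← Real.exp_add]
        refine Real.exp_le_exp.2 ?_
        linarith
      have t4 : |-(q * ε * gav A c d g)| ≤ q * ε * M := by
        rw [abs_neg, abs_mul, abs_of_pos (mul_pos hq h0)]
        exact mul_le_mul_of_nonneg_left (hg g) (mul_pos hq h0).le
      have t5 := Real.abs_exp_sub_one_sub_id_le (t4.trans h2)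
      have t6 := (abs_le.1 t5).2
      have t7 : (-(q * ε * gav A c d g)) ^ 2 ≤ (q * ε * M) ^ 2 := by
        rw [← sq_abs (-(q * ε * gav A c d g))]
        exact pow_le_pow_left₀ (abs_nonneg _) t4 2
      have t8 : Real.exp (-(q * ε * gav A c d g)) ≤
          1 - q * ε * gav A c d g + (q * ε * M) ^ 2 := by linarith
      refine t3.trans ((mul_le_mul_of_nonneg_left t8 (ker_pos q A l c g).le).trans
        (le_of_eq ?_))
      ring
    have h4 := h ε h0 h1
    have h5 : ∫ g, ker q A l (fun s => c s + ε * d s) g ∂(gpi κ) ≤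
        ∫ g, (ker q A l c g - q * ε * (ker q A l c g * gav A c d g) +
          (q * ε * M) ^ 2 * ker q A l c g) ∂(gpi κ) :=
      int_mono (ker_dom q A l _) (((dk.sub ((dk.mul dg).const_mul _)).add
        (dk.const_mul _))) h3
    rw [int_add (dk.sub ((dk.mul dg).const_mul _)) (dk.const_mul _),
      int_sub dk ((dk.mul dg).const_mul _), integral_const_mul, integral_const_mul] at h5
    rw [← hI, ← hJ] at h5
    have h6 : q * ε * J ≤ (q * ε * M) ^ 2 * I := by linarith
    have h7 : 0 < q * ε := mul_pos hq h0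
    have h8 : q * ε * J ≤ q * ε * (q * M ^ 2 * I * ε) := by
      refine h6.trans (le_of_eq ?_)
      ring
    exact le_of_mul_le_mul_left h8 h7
  by_contra hc
  push Not at hc
  -- choose `ε` small
  set K := q * M ^ 2 * I with hK
  have hK0 : 0 ≤ K := by positivity
  set ε := min ε0 (min (1 / (q * M + 1)) (J / (2 * (K + 1)))) with hε
  have p1 : 0 < q * M + 1 := by positivity
  have hpos : 0 < ε := by
    refine lt_min hε0 (lt_min (by positivity) (by positivity))
  have a1 : ε ≤ ε0 := min_le_left _ _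
  have a2 : ε ≤ 1 / (q * M + 1) := (min_le_right _ _).trans (min_le_left _ _)
  have a3 : ε ≤ J / (2 * (K + 1)) := (min_le_right _ _).trans (min_le_right _ _)
  have a4 : q * ε * M ≤ 1 := by
    have : ε * (q * M + 1) ≤ 1 := by
      have := mul_le_mul_of_nonneg_right a2 p1.le
      rwa [one_div, inv_mul_cancel₀ p1.ne'] at this
    nlinarith
  have h9 := main ε hpos a1 a4
  have h10 : K * ε ≤ K * (J / (2 * (K + 1))) := mul_le_mul_of_nonneg_left a3 hK0
  have h11 : K * (J / (2 * (K + 1))) < J := by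
    rw [mul_div_assoc', div_lt_iff₀ (by positivity)]
    nlinarith
  linarith

/-- sign flips preserve the Gaussian measure -/
lemma flip_int {χ : κ → ℝ} (hχ : ∀ i, χ i = 1 ∨ χ i = -1) (f : (κ → ℝ) → ℝ) :
    ∫ g, f (fun i => χ i * g i) ∂(gpi κ) = ∫ g, f g ∂(gpi κ) := by
  have h1 : ∀ i, MeasurePreserving (fun x : ℝ => χ i * x) (gaussianReal 0 1)
      (gaussianReal 0 1) := by
    intro i
    refine ⟨by fun_prop, ?_⟩
    rw [gaussianReal_map_const_mul]
    rcases hχ i with h | h <;> rw [h] <;> simp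
  have h2 : MeasurePreserving (fun (g : κ → ℝ) (i : κ) => χ i * g i) (gpi κ) (gpi κ) :=
    measurePreserving_pi _ _ h1
  have h3 : MeasurableEmbedding fun (g : κ → ℝ) (i : κ) => χ i * g i := by
    have hinv : Function.Involutive fun (g : κ → ℝ) (i : κ) => χ i * g i := by
      intro g
      funext i
      simp only
      rcases hχ i with h | h <;> rw [h] <;> ring
    exact (MeasurableEquiv.ofInvolutive _ hinv (by fun_prop)).measurableEmbedding
  exact h2.integral_comp h3 f

/-- the gauge: it exchanges `s₀` and `s` -/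
structure Gs (A : S → κ → ℝ) (D : S → S → ℝ) (s0 s : S) : Prop where
  ex : ∃ (π : Equiv.Perm S) (χ : κ → ℝ), π s0 = s ∧ π s = s0 ∧ (∀ i, χ i = 1 ∨ χ i = -1) ∧
    (∀ τ i, A (π τ) i = χ i * A τ i) ∧ (∀ τ, D s (π τ) = D s0 τ) ∧ ∀ τ, D s0 (π τ) = D s τ

omit [Nonempty S] in
/-- the integrals are even in the parameter -/
lemma even_ker (q : ℝ) (A : S → κ → ℝ) (D : S → S → ℝ) {s0 s : S} (h : Gs A D s0 s)
    (lam δ : ℝ) :
    ∫ g, ker q A (fun i => A s0 i + A s i) (cδ lam (D s0) (D s) (-δ)) g ∂(gpi κ) =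
      ∫ g, ker q A (fun i => A s0 i + A s i) (cδ lam (D s0) (D s) δ) g ∂(gpi κ) := by
  obtain ⟨π, χ, h0, h1, hχ, hA, hD, hD'⟩ := h.ex
  rw [← flip_int hχ]
  refine integral_congr_ae (Filter.Eventually.of_forall fun g => ?_)
  simp only
  unfold ker
  congr 1
  have e1 : ∑ i, (A s0 i + A s i) * (χ i * g i) = ∑ i, (A s0 i + A s i) * g i := by
    refine Finset.sum_congr rfl fun i _ => ?_
    have q1 := hA s0 i
    have q2 := hA s i
    rw [h0] at q1
    rw [h1] at q2
    rw [q1, q2]
    have : A s i = χ i * A s0 i := q1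
    have q3 : A s0 i = χ i * A s i := q2
    rcases hχ i with h | h <;> rw [h] at q3 ⊢ <;> linear_combination 0 * q3
  have e2 : zz A (cδ lam (D s0) (D s) (-δ)) (fun i => χ i * g i) =
      zz A (cδ lam (D s0) (D s) δ) g := by
    unfold zz
    rw [← Equiv.sum_comp π fun τ => wt A (cδ lam (D s0) (D s) δ) g τ]
    refine Finset.sum_congr rfl fun τ _ => ?_
    unfold wt cδ
    rw [hD, hD']
    congr 1
    have e3 : ∑ i, A (π τ) i * g i = ∑ i, A τ i * (χ i * g i) :=
      Finset.sum_congr rfl fun i _ => by rw [hA]; ring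
    rw [e3]
    ring
  rw [e1, e2]

lemma int_ker_pos (q : ℝ) (A : S → κ → ℝ) (l : κ → ℝ) (c : S → ℝ) :
    0 < ∫ g, ker q A l c g ∂(gpi κ) := by
  have h := (ker_dom q A l c).integrable
  unfold ker at h ⊢
  exact integral_exp_pos h

/-- **the swap inequality** for one configuration `s` -/
lemma swap_one {q : ℝ} (hq : 0 < q) (A : S → κ → ℝ) (D : S → S → ℝ) {s0 s : S}
    (h : Gs A D s0 s) {lam : ℝ} (hl : lam < 0) :
    ∫ g, ker q A (fun i => A s0 i + A s i) (fun τ => lam * D s0 τ) g *
      gav A (fun τ => lam * D s0 τ) (fun τ => D s0 τ - D s τ) g ∂(gpi κ) ≤ 0 := by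
  refine mean_nonpos hq A _ _ _ (ε0 := -lam) (by linarith) fun ε h0 h1 => ?_
  have e1 : (fun τ => lam * D s0 τ) = cδ lam (D s0) (D s) (lam / 2) := by
    funext τ
    unfold cδ
    ring
  have e2 : (fun τ => lam * D s0 τ + ε * (D s0 τ - D s τ)) =
      cδ lam (D s0) (D s) (lam / 2 + ε) := by
    funext τ
    unfold cδ
    ring
  rw [e2, e1]
  set H : ℝ → ℝ := fun δ => ∫ g, ker q A (fun i => A s0 i + A s i)
    (cδ lam (D s0) (D s) δ) g ∂(gpi κ) with hH
  have hpos : ∀ δ, 0 < H δ := fun δ => int_ker_pos q A _ _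
  have hev : H (-(lam / 2)) = H (lam / 2) := even_ker q A D h lam (lam / 2)
  have hc := log_conc hq.le A (fun i => A s0 i + A s i) lam (D s0) (D s)
  have hb0 : 0 ≤ -ε / lam := div_nonneg_of_nonpos (by linarith) hl.le
  have hb1 : -ε / lam ≤ 1 := by
    rw [div_le_one_of_neg hl]
    linarith
  have hb2 : 0 ≤ 1 - -ε / lam := by linarith
  have h2 := hc.2 (Set.mem_univ (lam / 2)) (Set.mem_univ (-(lam / 2))) hb2 hb0 (by ring)
  simp only [smul_eq_mul] at h2
  have hl0 : lam ≠ 0 := hl.ne
  have e3 : (1 - -ε / lam) * (lam / 2) + -ε / lam * -(lam / 2) = lam / 2 + ε := by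
    field_simp
    ring
  rw [e3] at h2
  have h3 : Real.log (H (lam / 2)) ≤ Real.log (H (lam / 2 + ε)) := by
    have h4 : (1 - -ε / lam) * Real.log (H (lam / 2)) + -ε / lam * Real.log (H (-(lam / 2))) ≤
        Real.log (H (lam / 2 + ε)) := h2
    rw [hev] at h4
    linarith
  exact (Real.log_le_log_iff (hpos _) (hpos _)).1 h3

/-! ### the planted form -/

lemma shift_int (u : κ → ℝ) (F : (κ → ℝ) → ℝ) :
    ∫ g, F g ∂(gpi κ) = ∫ g, Real.exp (∑ i, u i * g i - (∑ i, u i ^ 2) / 2) *
      F (fun i => g i - u i) ∂(gpi κ) := by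
  have h := H425.gI_shift (κ := κ) (-u) F
  have e : (Vale.Agent.P157.Lv.gI κ) = gpi κ := rfl
  rw [e] at h
  rw [h]
  refine integral_congr_ae (Filter.Eventually.of_forall fun g => ?_)
  simp only
  congr 1
  · congr 1
    have e1 : ∑ i, (-u) i * g i = -∑ i, u i * g i := by
      rw [← Finset.sum_neg_distrib]
      exact Finset.sum_congr rfl fun i _ => by simp
    have e2 : ∑ i, (-u) i ^ 2 = ∑ i, u i ^ 2 := Finset.sum_congr rfl fun i _ => by simp
    rw [e1, e2]
    ring

omit [Fintype S] [Nonempty S] in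
lemma wt_shift (A : S → κ → ℝ) (c : S → ℝ) (u g : κ → ℝ) (τ : S) :
    wt A c (fun i => g i - u i) τ = wt A (fun τ => c τ - ∑ i, u i * A τ i) g τ := by
  unfold wt
  congr 1
  have : ∑ i, A τ i * (g i - u i) = ∑ i, A τ i * g i - ∑ i, u i * A τ i := by
    rw [← Finset.sum_sub_distrib]
    exact Finset.sum_congr rfl fun i _ => by ring
  rw [this]
  ring

/-- one term of the planted swap inequality -/
lemma term_nonpos {p : ℝ} (hp : 0 ≤ p) (A : S → κ → ℝ) (D : S → S → ℝ) {s0 s : S}
    (h : Gs A D s0 s) {lam : ℝ} (hl : lam < 0) :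
    ∫ g, zp (-p) A (fun τ => ∑ i, A s0 i * A τ i + lam * D s0 τ) g *
      (wt A (fun τ => ∑ i, A s0 i * A τ i + lam * D s0 τ) g s /
        zz A (fun τ => ∑ i, A s0 i * A τ i + lam * D s0 τ) g *
      gav A (fun τ => ∑ i, A s0 i * A τ i + lam * D s0 τ) (fun τ => D s0 τ - D s τ) g)
        ∂(gpi κ) ≤ 0 := by
  have h1 := swap_one (q := 1 + p) (by linarith) A D h hl
  rw [shift_int (A s0)]
  have e1 : ∀ g : κ → ℝ, ∀ τ, wt A (fun τ => ∑ i, A s0 i * A τ i + lam * D s0 τ)
      (fun i => g i - A s0 i) τ = wt A (fun τ => lam * D s0 τ) g τ := by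
    intro g τ
    rw [wt_shift]
    congr 1
    funext τ
    ring
  have e2 : ∀ g : κ → ℝ, zz A (fun τ => ∑ i, A s0 i * A τ i + lam * D s0 τ)
      (fun i => g i - A s0 i) = zz A (fun τ => lam * D s0 τ) g := by
    intro g
    unfold zz
    exact Finset.sum_congr rfl fun τ _ => e1 g τ
  have e3 : ∀ g : κ → ℝ, ∀ f : S → ℝ, gav A (fun τ => ∑ i, A s0 i * A τ i + lam * D s0 τ) f
      (fun i => g i - A s0 i) = gav A (fun τ => lam * D s0 τ) f g := by
    intro g f
    unfold gav
    rw [e2]
    congr 1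
    exact Finset.sum_congr rfl fun τ _ => by rw [e1]
  have e4 : ∀ g : κ → ℝ, Real.exp (∑ i, A s0 i * g i - (∑ i, A s0 i ^ 2) / 2) *
      (zp (-p) A (fun τ => ∑ i, A s0 i * A τ i + lam * D s0 τ) (fun i => g i - A s0 i) *
      (wt A (fun τ => ∑ i, A s0 i * A τ i + lam * D s0 τ) (fun i => g i - A s0 i) s /
        zz A (fun τ => ∑ i, A s0 i * A τ i + lam * D s0 τ) (fun i => g i - A s0 i) *
      gav A (fun τ => ∑ i, A s0 i * A τ i + lam * D s0 τ) (fun τ => D s0 τ - D s τ)
        (fun i => g i - A s0 i))) =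
      Real.exp (-(∑ i, A s0 i ^ 2) / 2 + lam * D s0 s) *
        (ker (1 + p) A (fun i => A s0 i + A s i) (fun τ => lam * D s0 τ) g *
        gav A (fun τ => lam * D s0 τ) (fun τ => D s0 τ - D s τ) g) := by
    intro g
    rw [e1, e2, e3]
    unfold zp
    rw [e2]
    have hz := zz_pos A (fun τ => lam * D s0 τ) g
    have e5 : wt A (fun τ => lam * D s0 τ) g s / zz A (fun τ => lam * D s0 τ) g =
        Real.exp (∑ i, A s i * g i + lam * D s0 s -
          Real.log (zz A (fun τ => lam * D s0 τ) g)) := by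
      rw [Real.exp_sub, Real.exp_log hz]
      rfl
    rw [e5]
    unfold ker
    have e6 : ∑ i, (A s0 i + A s i) * g i = ∑ i, A s0 i * g i + ∑ i, A s i * g i := by
      rw [← Finset.sum_add_distrib]
      exact Finset.sum_congr rfl fun i _ => by ring
    rw [e6]
    set G := gav A (fun τ => lam * D s0 τ) (fun τ => D s0 τ - D s τ) g
    set L := Real.log (zz A (fun τ => lam * D s0 τ) g)
    have e7 : ∀ x y z : ℝ, Real.exp x * (Real.exp y * (Real.exp z * G)) =
        Real.exp (x + y + z) * G := fun x y z => by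
      rw [Real.exp_add, Real.exp_add]
      ring
    have e8 : ∀ x y : ℝ, Real.exp x * (Real.exp y * G) = Real.exp (x + y) * G := fun x y => by
      rw [Real.exp_add]
      ring
    rw [e7, e8]
    congr 2
    ring
  simp_rw [e4]
  rw [integral_const_mul]
  exact mul_nonpos_of_nonneg_of_nonpos (Real.exp_pos _).le h1

/-- **The swap lemma**: with the penalty `lam < 0` the planted configuration is closer to a
replica than two replicas are. -/
theorem swap {p : ℝ} (hp : 0 ≤ p) (A : S → κ → ℝ) (D : S → S → ℝ) {s0 : S}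
    (h : ∀ s, Gs A D s0 s) {lam : ℝ} (hl : lam < 0) {c : S → ℝ}
    (hc : c = fun τ => ∑ i, A s0 i * A τ i + lam * D s0 τ) :
    ∫ g, zp (-p) A c g * (gav A c (D s0) g - ∑ s, ∑ t, (wt A c g s / zz A c g) *
      (wt A c g t / zz A c g) * D s t) ∂(gpi κ) ≤ 0 := by
  have e1 : ∀ g, zp (-p) A c g * (gav A c (D s0) g - ∑ s, ∑ t, (wt A c g s / zz A c g) *
      (wt A c g t / zz A c g) * D s t) = ∑ s, zp (-p) A c g * (wt A c g s / zz A c g *
      gav A c (fun τ => D s0 τ - D s τ) g) := by
    intro g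
    rw [← Finset.mul_sum]
    congr 1
    have hz := zz_pos A c g
    have q1 : ∀ s, wt A c g s / zz A c g * gav A c (fun τ => D s0 τ - D s τ) g =
        wt A c g s / zz A c g * gav A c (D s0) g - ∑ t, (wt A c g s / zz A c g) *
      (wt A c g t / zz A c g) * D s t := by
      intro s
      rw [gav_sub, mul_sub]
      congr 1
      rw [gav_form, Finset.mul_sum]
      exact Finset.sum_congr rfl fun t _ => by ring
    simp only [q1]
    rw [Finset.sum_sub_distrib, ← Finset.sum_mul, ← Finset.sum_div]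
    have q2 : ∑ s, wt A c g s = zz A c g := rfl
    rw [q2, div_self hz.ne', one_mul]
  simp_rw [e1]
  have dz : ∀ s, Dom fun g => zp (-p) A c g * (wt A c g s / zz A c g *
      gav A c (fun τ => D s0 τ - D s τ) g) := by
    intro s
    refine (zp_dom (-p) A c).mul (Dom.mul ?_ (gav_dom A c _))
    classical
    have q3 : (fun g => wt A c g s / zz A c g) = fun g => gav A c (fun t => if t = s then 1 else 0) g := by
      funext g
      rw [gav_form]
      simp
    rw [q3]
    exact gav_dom A c _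
  rw [int_sum _ fun s _ => dz s]
  refine Finset.sum_nonpos fun s _ => ?_
  rw [hc]
  exact term_nonpos hp A D (h s) hl

end swap

end Vale.Agent.P146.H737.Tr
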