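import Vale.Agent.P146.H737.Swap
import Vale.Agent.P146.H291.Two
import Vale.Agent.P146.H329.PKah

/-!
# P146: transport along the path with a planted penalty

Two families of linear forms with the same variances, `D = Gram b - Gram a ≥ 0`, and a gauge
which exchanges the planted configuration with any other one. The planted `(-p)`-moments satisfy
the comparison of Kahane with only the fraction `(1 - p) / 2` of the change of the covariance.
-/

open MeasureTheory ProbabilityTheory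

namespace Vale.Agent.P146.H737.Tr

open Vale.Agent.P146 Vale.Agent.P146.H501 Vale.Agent.P146.H693

section trans

variable {ι ι' S : Type} [Fintype ι] [Fintype ι'] [Fintype S] [Nonempty S]

/-- the gauge hypothesis -/
structure Gg (a : S → ι → ℝ) (b : S → ι' → ℝ) (s0 : S) : Prop where
  ex : ∀ s, ∃ (π : Equiv.Perm S) (χ : ι → ℝ) (χ' : ι' → ℝ), π s0 = s ∧ π s = s0 ∧
    (∀ i, χ i = 1 ∨ χ i = -1) ∧ (∀ j, χ' j = 1 ∨ χ' j = -1) ∧
    (∀ τ i, a (π τ) i = χ i * a τ i) ∧ (∀ τ j, b (π τ) j = χ' j * b τ j)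

/-- the difference of the covariances -/
noncomputable def Dd (a : S → ι → ℝ) (b : S → ι' → ℝ) (s t : S) : ℝ :=
  ∑ j, b s j * b t j - ∑ i, a s i * a t i

omit [Fintype S] [Nonempty S] in
lemma gram_flip {κ : Type} [Fintype κ] {A : S → κ → ℝ} {π : Equiv.Perm S} {χ : κ → ℝ}
    (hχ : ∀ i, χ i = 1 ∨ χ i = -1) (hA : ∀ τ i, A (π τ) i = χ i * A τ i) (s t : S) :
    ∑ i, A (π s) i * A (π t) i = ∑ i, A s i * A t i := by
  refine Finset.sum_congr rfl fun i _ => ?_
  rw [hA, hA]
  rcases hχ i with h | h <;> rw [h] <;> ring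

omit [Fintype S] [Nonempty S] in
lemma dd_flip {a : S → ι → ℝ} {b : S → ι' → ℝ} {π : Equiv.Perm S} {χ : ι → ℝ} {χ' : ι' → ℝ}
    (hχ : ∀ i, χ i = 1 ∨ χ i = -1) (hχ' : ∀ j, χ' j = 1 ∨ χ' j = -1)
    (ha : ∀ τ i, a (π τ) i = χ i * a τ i) (hb : ∀ τ j, b (π τ) j = χ' j * b τ j) (s t : S) :
    Dd a b (π s) (π t) = Dd a b s t := by
  unfold Dd
  rw [gram_flip hχ ha, gram_flip hχ' hb]

omit [Fintype S] [Nonempty S] in
lemma gs_kpath {a : S → ι → ℝ} {b : S → ι' → ℝ} {s0 : S} (hg : Gg a b s0) (θ : ℝ) (s : S) :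
    Gs (kpath a b θ) (Dd a b) s0 s := by
  obtain ⟨π, χ, χ', h0, h1, hχ, hχ', ha, hb⟩ := hg.ex s
  have hD := dd_flip hχ hχ' ha hb
  refine ⟨π, Sum.elim χ χ', h0, h1, ?_, ?_, fun τ => ?_, fun τ => ?_⟩
  · rintro (i | j)
    · simpa using hχ i
    · simpa using hχ' j
  · rintro τ (i | j)
    · simp only [kpath, Sum.elim_inl]
      rw [ha]
      ring
    · simp only [kpath, Sum.elim_inr]
      rw [hb]
      ring
  · have h := hD s0 τ
    rwa [h0] at h
  · have h := hD s τ
    rwa [h1] at h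

/-- the path of weights -/
noncomputable def ct (p : ℝ) (a : S → ι → ℝ) (b : S → ι' → ℝ) (s0 : S) (θ : ℝ) (s : S) : ℝ :=
  ∑ j, b s0 j * b s j - (Real.sin θ ^ 2 + (1 - p) / 2 * Real.cos θ ^ 2) * Dd a b s0 s

/-- its derivative -/
noncomputable def ct' (p : ℝ) (a : S → ι → ℝ) (b : S → ι' → ℝ) (s0 : S) (θ : ℝ) (s : S) : ℝ :=
  -((1 + p) * (Real.sin θ * Real.cos θ)) * Dd a b s0 s

omit [Fintype S] [Nonempty S] in
lemma hasDerivAt_ct (p : ℝ) (a : S → ι → ℝ) (b : S → ι' → ℝ) (s0 : S) (θ : ℝ) (s : S) :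
    HasDerivAt (fun θ => ct p a b s0 θ s) (ct' p a b s0 θ s) θ := by
  unfold ct ct'
  have h1 := (Real.hasDerivAt_sin θ).pow 2
  have h2 := ((Real.hasDerivAt_cos θ).pow 2).const_mul ((1 - p) / 2)
  have h3 := ((h1.add h2).mul_const (Dd a b s0 s)).const_sub (∑ j, b s0 j * b s j)
  refine h3.congr_deriv ?_
  push_cast
  ring

omit [Fintype S] [Nonempty S] in
lemma gram_kpath (a : S → ι → ℝ) (b : S → ι' → ℝ) (θ : ℝ) (s t : S) :
    ∑ i, kpath a b θ s i * kpath a b θ t i =
      ∑ j, b s j * b t j - Real.sin θ ^ 2 * Dd a b s t := by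
  rw [Fintype.sum_sum_type]
  simp only [kpath, Sum.elim_inl, Sum.elim_inr]
  have q1 : ∑ i, Real.sin θ * a s i * (Real.sin θ * a t i) =
      Real.sin θ ^ 2 * ∑ i, a s i * a t i := by
    rw [Finset.mul_sum]
    exact Finset.sum_congr rfl fun i _ => by ring
  have q2 : ∑ j, Real.cos θ * b s j * (Real.cos θ * b t j) =
      Real.cos θ ^ 2 * ∑ j, b s j * b t j := by
    rw [Finset.mul_sum]
    exact Finset.sum_congr rfl fun j _ => by ring
  rw [q1, q2, Real.cos_sq']
  unfold Dd
  ring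

omit [Nonempty S] in
/-- the bracket of the derivative -/
lemma br_eq {p : ℝ} (a : S → ι → ℝ) (b : S → ι' → ℝ)
    (hd : ∀ s, ∑ i, a s i ^ 2 = ∑ j, b s j ^ 2) (s0 : S) (θ : ℝ) (g : ι ⊕ ι' → ℝ) :
    br (-p) (kpath a b θ) (ct p a b s0 θ) (kpath' a b θ) (ct' p a b s0 θ) g =
      -((1 + p) * (Real.sin θ * Real.cos θ)) *
        (gav (kpath a b θ) (ct p a b s0 θ) (Dd a b s0) g -
        ∑ s, ∑ t, (wt (kpath a b θ) (ct p a b s0 θ) g s /
          zz (kpath a b θ) (ct p a b s0 θ) g) * (wt (kpath a b θ) (ct p a b s0 θ) g t /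
          zz (kpath a b θ) (ct p a b s0 θ) g) * Dd a b s t) := by
  set c := ct p a b s0 θ with hc
  unfold br
  have e1 : (fun s => ∑ i, kpath' a b θ s i * kpath a b θ s i + ct' p a b s0 θ s) =
      fun s => -((1 + p) * (Real.sin θ * Real.cos θ)) * Dd a b s0 s := by
    funext s
    rw [Fintype.sum_sum_type]
    simp only [kpath, kpath', Sum.elim_inl, Sum.elim_inr]
    have q1 : ∑ i, Real.cos θ * a s i * (Real.sin θ * a s i) =
        Real.sin θ * Real.cos θ * ∑ i, a s i ^ 2 := by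
      rw [Finset.mul_sum]
      exact Finset.sum_congr rfl fun i _ => by ring
    have q2 : ∑ j, -Real.sin θ * b s j * (Real.cos θ * b s j) =
        -(Real.sin θ * Real.cos θ) * ∑ j, b s j ^ 2 := by
      rw [Finset.mul_sum]
      exact Finset.sum_congr rfl fun j _ => by ring
    rw [q1, q2, hd s]
    unfold ct'
    ring
  rw [e1]
  have qm : ∀ (r : ℝ) (u : S → ℝ), gav (kpath a b θ) c (fun s => r * u s) g =
      r * gav (kpath a b θ) c u g := fun r u => by
    rw [gav_form, gav_form, Finset.mul_sum]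
    exact Finset.sum_congr rfl fun s _ => by ring
  have e2 : gav (kpath a b θ) c (fun s => -((1 + p) * (Real.sin θ * Real.cos θ)) *
      Dd a b s0 s) g = -((1 + p) * (Real.sin θ * Real.cos θ)) *
      gav (kpath a b θ) c (Dd a b s0) g := qm _ _
  rw [e2]
  have e3 : ∑ i, gav (kpath a b θ) c (fun s => kpath' a b θ s i) g *
      gav (kpath a b θ) c (fun s => kpath a b θ s i) g =
      Real.sin θ * Real.cos θ * ((∑ i, gav (kpath a b θ) c (fun s => a s i) g *
        gav (kpath a b θ) c (fun s => a s i) g) - ∑ j, gav (kpath a b θ) c (fun s => b s j) g *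
        gav (kpath a b θ) c (fun s => b s j) g) := by
    rw [Fintype.sum_sum_type]
    simp only [kpath', Sum.elim_inl, Sum.elim_inr]
    have q2 : ∀ i, gav (kpath a b θ) c (fun s => kpath a b θ s (Sum.inl i)) g =
        Real.sin θ * gav (kpath a b θ) c (fun s => a s i) g := fun i => qm _ _
    have q3 : ∀ j, gav (kpath a b θ) c (fun s => kpath a b θ s (Sum.inr j)) g =
        Real.cos θ * gav (kpath a b θ) c (fun s => b s j) g := fun j => qm _ _
    simp only [qm, q2, q3]
    rw [mul_sub, Finset.mul_sum, Finset.mul_sum, sub_eq_add_neg, ← Finset.sum_neg_distrib]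
    congr 1
    · exact Finset.sum_congr rfl fun i _ => by ring
    · exact Finset.sum_congr rfl fun i _ => by ring
  rw [e3, sum_gav_sq, sum_gav_sq, ← Finset.sum_sub_distrib]
  have e4 : ∑ s, (∑ t, (wt (kpath a b θ) c g s / zz (kpath a b θ) c g) *
      (wt (kpath a b θ) c g t / zz (kpath a b θ) c g) * ∑ i, a s i * a t i -
      ∑ t, (wt (kpath a b θ) c g s / zz (kpath a b θ) c g) *
      (wt (kpath a b θ) c g t / zz (kpath a b θ) c g) * ∑ j, b s j * b t j) =
      -∑ s, ∑ t, (wt (kpath a b θ) c g s / zz (kpath a b θ) c g) *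
      (wt (kpath a b θ) c g t / zz (kpath a b θ) c g) * Dd a b s t := by
    rw [← Finset.sum_neg_distrib]
    refine Finset.sum_congr rfl fun s _ => ?_
    rw [← Finset.sum_sub_distrib, ← Finset.sum_neg_distrib]
    refine Finset.sum_congr rfl fun t _ => ?_
    unfold Dd
    ring
  rw [e4]
  ring

/-- **The transport inequality** on the two coordinate spaces together. -/
theorem trans_path {p : ℝ} (hp : 0 ≤ p) (hp1 : p < 1) (a : S → ι → ℝ) (b : S → ι' → ℝ)
    (hd : ∀ s, ∑ i, a s i ^ 2 = ∑ j, b s j ^ 2) {s0 : S} (hg : Gg a b s0) :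
    ∫ g, zp (-p) (kpath a b (Real.pi / 2)) (ct p a b s0 (Real.pi / 2)) g ∂(gpi (ι ⊕ ι')) ≤
      ∫ g, zp (-p) (kpath a b 0) (ct p a b s0 0) g ∂(gpi (ι ⊕ ι')) := by
  classical
  set B := (∑ s, ∑ i, |a s i|) + ∑ s, ∑ j, |b s j| with hB
  have habs : ∀ s, |Dd a b s0 s| ≤ ∑ s, |Dd a b s0 s| := fun s =>
    Finset.single_le_sum (f := fun s => |Dd a b s0 s|) (fun s _ => abs_nonneg _)
      (Finset.mem_univ s)
  have hgb : ∀ s, |∑ j, b s0 j * b s j| ≤ ∑ s, |∑ j, b s0 j * b s j| := fun s =>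
    Finset.single_le_sum (f := fun s => |∑ j, b s0 j * b s j|) (fun s _ => abs_nonneg _)
      (Finset.mem_univ s)
  have hD0 : 0 ≤ ∑ s, |Dd a b s0 s| := Finset.sum_nonneg fun _ _ => abs_nonneg _
  have hder : ∀ θ, HasDerivAt
      (fun θ => ∫ g, zp (-p) (kpath a b θ) (ct p a b s0 θ) g ∂(gpi (ι ⊕ ι')))
      (-p * ∫ g, zp (-p) (kpath a b θ) (ct p a b s0 θ) g * br (-p) (kpath a b θ)
        (ct p a b s0 θ) (kpath' a b θ) (ct' p a b s0 θ) g ∂(gpi (ι ⊕ ι'))) θ := fun θ =>
    hasDerivAt_moment (-p) (a := kpath a b) (a' := kpath' a b) (c := ct p a b s0)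
      (c' := ct' p a b s0) (A := B) (A' := B)
      (C := (∑ s, |∑ j, b s0 j * b s j|) + 2 * ∑ s, |Dd a b s0 s|)
      (C' := 2 * ∑ s, |Dd a b s0 s|)
      (fun θ s i => by
        rcases i with i | j
        · simp only [kpath, kpath', Sum.elim_inl]
          exact (Real.hasDerivAt_sin θ).mul_const _
        · simp only [kpath, kpath', Sum.elim_inr]
          exact (Real.hasDerivAt_cos θ).mul_const _)
      (fun θ s => hasDerivAt_ct p a b s0 θ s)
      (fun θ s i => abs_kp _ _ (Real.abs_sin_le_one θ) (Real.abs_cos_le_one θ) s i)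
      (fun θ s i => abs_kp (a := a) (b := b) (Real.cos θ) (-Real.sin θ) (Real.abs_cos_le_one θ)
        (by rw [abs_neg]; exact Real.abs_sin_le_one θ) s i)
      (fun θ s => by
        unfold ct
        refine (abs_sub _ _).trans (add_le_add (hgb s) ?_)
        rw [abs_mul]
        have h1 : |Real.sin θ ^ 2 + (1 - p) / 2 * Real.cos θ ^ 2| ≤ 2 := by
          rw [abs_of_nonneg (by
            have : 0 ≤ (1 - p) / 2 := by linarith
            positivity)]
          nlinarith [Real.sin_sq_add_cos_sq θ, sq_nonneg (Real.sin θ), sq_nonneg (Real.cos θ)]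
        exact mul_le_mul h1 (habs s) (abs_nonneg _) (by norm_num))
      (fun θ s => by
        unfold ct'
        rw [abs_mul]
        have h1 : |-((1 + p) * (Real.sin θ * Real.cos θ))| ≤ 2 := by
          rw [abs_neg, abs_mul, abs_of_nonneg (by linarith : (0 : ℝ) ≤ 1 + p), abs_mul]
          have q1 := Real.abs_sin_le_one θ
          have q2 := Real.abs_cos_le_one θ
          have q3 : |Real.sin θ| * |Real.cos θ| ≤ 1 := by
            calc |Real.sin θ| * |Real.cos θ| ≤ 1 * 1 :=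
                  mul_le_mul q1 q2 (abs_nonneg _) zero_le_one
              _ = 1 := by norm_num
          have q4 : 0 ≤ |Real.sin θ| * |Real.cos θ| := by positivity
          nlinarith
        exact mul_le_mul h1 (habs s) (abs_nonneg _) (by norm_num)) θ
  have hpi : (0 : ℝ) ≤ Real.pi / 2 := by positivity
  have hanti := antitoneOn_of_deriv_nonpos (D := Set.Icc 0 (Real.pi / 2)) (convex_Icc _ _)
    (f := fun θ => ∫ g, zp (-p) (kpath a b θ) (ct p a b s0 θ) g ∂(gpi (ι ⊕ ι')))
    (fun θ _ => (hder θ).continuousAt.continuousWithinAt)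
    (fun θ _ => (hder θ).differentiableAt.differentiableWithinAt)
    (fun θ hθ => by
      rw [interior_Icc] at hθ
      rw [(hder θ).deriv]
      have h0 : 0 ≤ Real.sin θ := Real.sin_nonneg_of_nonneg_of_le_pi hθ.1.le
        (by linarith [hθ.2, Real.pi_pos])
      have h1 : 0 < Real.cos θ := Real.cos_pos_of_mem_Ioo ⟨by linarith [hθ.1, Real.pi_pos], hθ.2⟩
      have hlam : -((1 - p) / 2 * Real.cos θ ^ 2) < 0 := by
        have : 0 < (1 - p) / 2 := by linarith
        have := mul_pos this (pow_pos h1 2)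
        linarith
      have hsw := swap hp (kpath a b θ) (Dd a b) (fun s => gs_kpath hg θ s) hlam
        (c := ct p a b s0 θ) (by
          funext τ
          rw [gram_kpath]
          unfold ct
          ring)
      have h2 : ∫ g, zp (-p) (kpath a b θ) (ct p a b s0 θ) g * br (-p) (kpath a b θ)
          (ct p a b s0 θ) (kpath' a b θ) (ct' p a b s0 θ) g ∂(gpi (ι ⊕ ι')) =
          -((1 + p) * (Real.sin θ * Real.cos θ)) *
          ∫ g, zp (-p) (kpath a b θ) (ct p a b s0 θ) g *
          (gav (kpath a b θ) (ct p a b s0 θ) (Dd a b s0) g -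
        ∑ s, ∑ t, (wt (kpath a b θ) (ct p a b s0 θ) g s /
          zz (kpath a b θ) (ct p a b s0 θ) g) * (wt (kpath a b θ) (ct p a b s0 θ) g t /
          zz (kpath a b θ) (ct p a b s0 θ) g) * Dd a b s t) ∂(gpi (ι ⊕ ι')) := by
        rw [← integral_const_mul]
        refine integral_congr_ae (Filter.Eventually.of_forall fun g => ?_)
        simp only
        rw [br_eq a b hd]
        ring
      rw [h2]
      have h3 : 0 ≤ (1 + p) * (Real.sin θ * Real.cos θ) :=
        mul_nonneg (by linarith) (mul_nonneg h0 h1.le)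
      have h4 := mul_nonneg_of_nonpos_of_nonpos (neg_nonpos.2 h3) hsw
      nlinarith [mul_nonneg hp h4])
  exact hanti (Set.left_mem_Icc.2 hpi) (Set.right_mem_Icc.2 hpi) hpi

/-- the transport inequality for the shifted moments -/
theorem trans_zp {p : ℝ} (hp : 0 ≤ p) (hp1 : p < 1) (a : S → ι → ℝ) (b : S → ι' → ℝ)
    (hd : ∀ s, ∑ i, a s i ^ 2 = ∑ j, b s j ^ 2) {s0 : S} (hg : Gg a b s0) :
    ∫ g, zp (-p) a (fun s => ∑ i, a s0 i * a s i) g ∂(gpi ι) ≤
      ∫ g, zp (-p) b (fun s => ∑ j, b s0 j * b s j - (1 - p) / 2 * Dd a b s0 s) g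
        ∂(gpi ι') := by
  have h := trans_path hp hp1 a b hd hg
  have c1 : ct p a b s0 (Real.pi / 2) = fun s => ∑ i, a s0 i * a s i := by
    funext s
    unfold ct Dd
    rw [Real.sin_pi_div_two, Real.cos_pi_div_two]
    ring
  have c2 : ct p a b s0 0 = fun s => ∑ j, b s0 j * b s j - (1 - p) / 2 * Dd a b s0 s := by
    funext s
    unfold ct
    rw [Real.sin_zero, Real.cos_zero]
    ring
  rw [c1, c2] at h
  set ca : S → ℝ := fun s => ∑ i, a s0 i * a s i with hca
  set cb : S → ℝ := fun s => ∑ j, b s0 j * b s j - (1 - p) / 2 * Dd a b s0 s with hcb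
  have e1 : ∀ g : ι ⊕ ι' → ℝ, zp (-p) (kpath a b (Real.pi / 2)) ca g =
      zp (-p) a ca fun i => g (Sum.inl i) := by
    intro g
    unfold zp zz wt kpath
    simp only [Real.sin_pi_div_two, Real.cos_pi_div_two, one_mul, zero_mul,
      Fintype.sum_sum_type, Sum.elim_inl, Sum.elim_inr, Finset.sum_const_zero, add_zero]
  have e2 : ∀ g : ι ⊕ ι' → ℝ, zp (-p) (kpath a b 0) cb g =
      zp (-p) b cb fun i => g (Sum.inr i) := by
    intro g
    unfold zp zz wt kpath
    simp only [Real.sin_zero, Real.cos_zero, one_mul, zero_mul,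
      Fintype.sum_sum_type, Sum.elim_inl, Sum.elim_inr, Finset.sum_const_zero, zero_add]
  simp only [e1, e2] at h
  rw [int_inl (zp_cont (-p) a ca).measurable, int_inr (zp_cont (-p) b cb).measurable] at h
  exact h

/-- **The transport inequality** in planted form: only the fraction `(1 - p) / 2` of the change
`D` of the covariance is paid. -/
theorem trans {p : ℝ} (hp : 0 ≤ p) (hp1 : p < 1) {a : S → ι → ℝ} {b : S → ι' → ℝ}
    (hd : ∀ s, ∑ i, a s i ^ 2 = ∑ j, b s j ^ 2) {s0 : S} (hg : Gg a b s0) :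
    H291.Np p a s0 0 ≤ H291.Np p b s0 (fun s => -((1 - p) / 2 *
      (∑ j, b s0 j * b s j - ∑ i, a s0 i * a s i))) := by
  have h := trans_zp hp hp1 a b hd hg
  unfold H291.Np
  rw [H329.PK.plant_shift, H329.PK.plant_shift, hd s0]
  refine mul_le_mul_of_nonneg_left ?_ (Real.exp_pos _).le
  have e1 : (fun s => (∑ i, a s0 i * a s i) + (0 : S → ℝ) s) =
      fun s => ∑ i, a s0 i * a s i := by
    funext s
    simp
  have e2 : (fun s => (∑ i, b s0 i * b s i) + -((1 - p) / 2 *
      (∑ j, b s0 j * b s j - ∑ i, a s0 i * a s i))) =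
      fun s => ∑ j, b s0 j * b s j - (1 - p) / 2 * Dd a b s0 s := by
    funext s
    unfold Dd
    ring
  rw [e1, e2]
  exact h

end trans

end Vale.Agent.P146.H737.Tr
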